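import Vale.Agent.P147.Window.Defs

/-!
P147: pieces stop at a first visit, so they are prefix free and their weights multiply when they are
put one after the other.
-/

open MeasureTheory Filter
open scoped ENNReal Topology

noncomputable section

namespace Vale.Agent.P147.Window

open Flux (Pref path endp left)

variable {d : ℕ} [NeZero d] {δ : Step d} {m n : ℕ}

/-- Two prefixes, one after the other. -/
def cat (i j : Pref d) : Pref d := ⟨i.1 + j.1, fun t => glue i.1 (path i) (path j) t⟩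

@[simp] lemma cat_fst (i j : Pref d) : (cat i j).1 = i.1 + j.1 := rfl

lemma path_cat (i j : Pref d) {t : ℕ} (ht : t < i.1 + j.1) :
    path (cat i j) t = glue i.1 (path i) (path j) t := ext'_lt _ ht

lemma pos_cat_le (i j : Pref d) {t : ℕ} (ht : t ≤ i.1) :
    pos (path (cat i j)) t = pos (path i) t :=
  (pos_congr fun s hs => path_cat i j (by omega)).trans (pos_glue_le ht)

lemma pos_cat_add (i j : Pref d) {t : ℕ} (ht : t ≤ j.1) :
    pos (path (cat i j)) (i.1 + t) = endp i + pos (path j) t :=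
  (pos_congr fun s hs => path_cat i j (by omega)).trans (pos_glue_add _ _ _ _)

lemma endp_cat (i j : Pref d) : endp (cat i j) = endp i + endp j := pos_cat_add i j le_rfl

lemma mem_left {i : Pref d} {z : Pos d} : z ∈ left i ↔ ∃ t < i.1, pos (path i) t = z := by
  simp [left]

lemma mem_low {i : Pref d} {x z : Pos d} :
    z ∈ low i x ↔ ∃ t < i.1, x - endp i + pos (path i) t = z := by
  classical
  simp only [low, Finset.mem_image, mem_left]
  exact ⟨fun ⟨_, ⟨t, ht, e⟩, h⟩ => ⟨t, ht, e ▸ h⟩, fun ⟨t, ht, h⟩ => ⟨_, ⟨t, ht, rfl⟩, h⟩⟩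

lemma mem_trace {i : Pref d} {y z : Pos d} :
    z ∈ trace i y ↔ ∃ t ≤ i.1, y + pos (path i) t = z := by
  classical
  simp [trace]

lemma mem_left_cat {i j : Pref d} {z : Pos d} :
    z ∈ left (cat i j) ↔ z ∈ left i ∨ ∃ u ∈ left j, endp i + u = z := by
  simp only [mem_left, cat_fst]
  constructor
  · rintro ⟨t, ht, rfl⟩
    rcases lt_or_ge t i.1 with h | h
    · exact Or.inl ⟨t, h, (pos_cat_le i j h.le).symm⟩
    · obtain ⟨u, rfl⟩ := Nat.exists_eq_add_of_le h
      exact Or.inr ⟨_, ⟨u, by omega, rfl⟩, (pos_cat_add i j (by omega)).symm⟩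
  · rintro (⟨t, ht, rfl⟩ | ⟨_, ⟨u, hu, rfl⟩, rfl⟩)
    · exact ⟨t, by omega, pos_cat_le i j ht.le⟩
    · exact ⟨i.1 + u, by omega, pos_cat_add i j hu.le⟩

lemma mem_low_cat {i j : Pref d} {x z : Pos d} :
    z ∈ low (cat i j) x ↔ z ∈ low i (x - endp j) ∨ z ∈ low j x := by
  simp only [low, Finset.mem_image, mem_left_cat, endp_cat]
  constructor
  · rintro ⟨a, h | ⟨u, hu, rfl⟩, rfl⟩
    · exact Or.inl ⟨a, h, by abel⟩
    · exact Or.inr ⟨u, hu, by abel⟩
  · rintro (⟨a, ha, rfl⟩ | ⟨u, hu, rfl⟩)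
    · exact ⟨a, Or.inl ha, by abel⟩
    · exact ⟨endp i + u, Or.inr ⟨u, hu, rfl⟩, by abel⟩

lemma mem_trace_cat {i j : Pref d} {y z : Pos d} :
    z ∈ trace (cat i j) y ↔ z ∈ trace i y ∨ z ∈ trace j (y + endp i) := by
  simp only [mem_trace, cat_fst]
  constructor
  · rintro ⟨t, ht, rfl⟩
    rcases le_or_gt t i.1 with h | h
    · exact Or.inl ⟨t, h, by rw [pos_cat_le i j h]⟩
    · obtain ⟨u, rfl⟩ := Nat.exists_eq_add_of_le h.le
      exact Or.inr ⟨u, by omega, by rw [pos_cat_add i j (by omega), add_assoc]⟩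
  · rintro (⟨t, ht, rfl⟩ | ⟨u, hu, rfl⟩)
    · exact ⟨t, by omega, by rw [pos_cat_le i j ht]⟩
    · exact ⟨i.1 + u, by omega, by rw [pos_cat_add i j hu, add_assoc]⟩

lemma piece_end {i : Pref d} (h : i ∈ Piece δ m) : ht δ (endp i) = m := h.1.1

lemma piece_lt {i : Pref d} (h : i ∈ Piece δ m) {t : ℕ} (ht' : t < i.1) :
    ht δ (pos (path i) t) < m := h.1.2 t ht'

lemma piece_nonneg {i : Pref d} (h : i ∈ Piece δ m) {t : ℕ} (ht' : t ≤ i.1) :
    0 ≤ ht δ (pos (path i) t) := h.2 t ht'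

lemma piece_le {i : Pref d} (h : i ∈ Piece δ m) {t : ℕ} (ht' : t ≤ i.1) :
    ht δ (pos (path i) t) ≤ m := by
  rcases lt_or_eq_of_le ht' with h' | rfl
  · exact (piece_lt h h').le
  · exact (piece_end h).le

lemma piece_opp_end {i : Pref d} (h : i ∈ Piece (opp δ) m) : ht δ (endp i) = -(m : ℤ) := by
  have := piece_end h
  rw [ht_opp] at this
  omega

lemma piece_unique {i j : Pref d} (hi : i ∈ Piece δ m) (hj : j ∈ Piece δ m) {η : ℕ → Step d}
    (h : η ∈ cyl i.1 (path i)) (h' : η ∈ cyl j.1 (path j)) : i = j := by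
  obtain ⟨p, σ⟩ := i
  obtain ⟨q, τ⟩ := j
  have h1 : η ∈ Hit δ (m : ℤ) p :=
    detBy_hit δ _ le_rfl (path ⟨p, σ⟩) η (fun t ht => (h t ht).symm) hi.1
  have h2 : η ∈ Hit δ (m : ℤ) q :=
    detBy_hit δ _ le_rfl (path ⟨q, τ⟩) η (fun t ht => (h' t ht).symm) hj.1
  obtain rfl : p = q := hit_unique h1 h2
  refine congrArg _ (funext fun t => ?_)
  have e1 := h t t.isLt
  have e2 := h' t t.isLt
  simp only [path, ext'_lt _ t.isLt] at e1 e2
  exact e1.symm.trans e2

lemma pieces_disjoint (δ : Step d) (m : ℕ) :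
    Pairwise (Function.onFun Disjoint fun i : Piece δ m => cyl (i : Pref d).1 (path (i : Pref d))) :=
  fun i j hne => Set.disjoint_left.mpr fun _ h h' =>
    hne (Subtype.ext (piece_unique i.2 j.2 h h'))

lemma cat_mem {i j : Pref d} (hi : i ∈ Piece δ m) (hj : j ∈ Piece δ n) :
    cat i j ∈ Piece δ (m + n) := by
  have hei := piece_end hi
  refine ⟨⟨?_, fun t ht' => ?_⟩, fun t ht' => ?_⟩
  · show ht δ (endp (cat i j)) = _
    rw [endp_cat, ht_add, hei, piece_end hj]
    push_cast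
    ring
  · show ht δ (pos (path (cat i j)) t) < _
    rcases lt_or_ge t i.1 with h | h
    · rw [pos_cat_le i j h.le]
      have := piece_lt hi h
      push_cast
      omega
    · obtain ⟨u, rfl⟩ := Nat.exists_eq_add_of_le h
      rw [cat_fst] at ht'
      rw [pos_cat_add i j (by omega), ht_add, hei]
      have := piece_lt hj (show u < j.1 by omega)
      push_cast
      omega
  · show 0 ≤ ht δ (pos (path (cat i j)) t)
    rcases le_or_gt t i.1 with h | h
    · rw [pos_cat_le i j h]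
      exact piece_nonneg hi h
    · obtain ⟨u, rfl⟩ := Nat.exists_eq_add_of_le h.le
      rw [cat_fst] at ht'
      rw [pos_cat_add i j (by omega), ht_add, hei]
      have := piece_nonneg hj (show u ≤ j.1 by omega)
      omega

lemma cat_inj {i i' j j' : Pref d} (hi : i ∈ Piece δ m) (hi' : i' ∈ Piece δ m)
    (hj : j ∈ Piece δ n) (hj' : j' ∈ Piece δ n) (h : cat i j = cat i' j') :
    i = i' ∧ j = j' := by
  have e : ∀ a b : Pref d, glue a.1 (path a) (path b) ∈ cyl a.1 (path a) :=
    fun a b t ht => glue_lt ht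
  have hc : ∀ a b : Pref d, path (cat a b) ∈ cyl a.1 (path a) := fun a b t ht => by
    rw [path_cat a b (by omega), glue_lt ht]
  have hii : i = i' := piece_unique hi hi' (hc i j) (h ▸ hc i' j')
  subst hii
  refine ⟨rfl, piece_unique hj hj' (η := shift i.1 (path (cat i j))) ?_ ?_⟩
  · intro t ht
    rw [shift, path_cat i j (by omega), glue_add]
  · intro t ht
    rw [shift, h, path_cat i j' (by omega), glue_add]

variable {μ : Measure (Step d → ℝ)}

/-- Pieces one after the other use separate sites, so their weights multiply. -/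
lemma wt_cat (hμ : Elliptic μ) {i j : Pref d} (hi : i ∈ Piece δ m) (hj : j ∈ Piece δ n) :
    wt μ (cat i j) = wt μ i * wt μ j := by
  rw [wt, wt, wt, cat_fst, ← w_glue hμ fun s hs t ht' he => ?_]
  · exact w_congr fun t ht' => path_cat i j ht'
  · have h1 := congrArg (ht δ) he
    rw [ht_add, show ht δ (pos (path i) i.1) = m from piece_end hi] at h1
    have := piece_lt hi hs
    have := piece_nonneg hj ht'.le
    omega

lemma mass_eq (δ : Step d) (S : Set (Pref d)) (hS : S ⊆ Piece δ m) :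
    mass μ S = nu μ (⋃ i : S, cyl (i : Pref d).1 (path (i : Pref d))) := by
  rw [measure_iUnion (fun i j hne => Set.disjoint_left.mpr fun _ h h' =>
    hne (Subtype.ext (piece_unique (hS i.2) (hS j.2) h h'))) fun i => measurableSet_cyl _ _]
  rfl

lemma mass_mono {S T : Set (Pref d)} (h : S ⊆ T) : mass μ S ≤ mass μ T :=
  ENNReal.tsum_mono_subtype _ h

lemma mass_piece_le_one (hμ : Elliptic μ) (δ : Step d) (m : ℕ) : mass μ (Piece δ m) ≤ 1 := by
  have := isProbabilityMeasure_nu hμ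
  rw [mass_eq δ _ subset_rfl]
  exact prob_le_one

lemma mem_piece_of_climb {η : ℕ → Step d} {p : ℕ} (h : η ∈ Flux.Climb δ m p) :
    (⟨p, fun t => η t⟩ : Pref d) ∈ Piece δ m :=
  (Flux.climb_congr fun t ht => by simp [path, ext'_lt _ ht]).1 h

end Vale.Agent.P147.Window
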