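import Vale.Agent.P147.Window.Core

/-!
P147: when the ends of pieces lie in boxes of side `n ^ a`, the flux through a window is bounded by
the size of a box times the spread of the gap, so a window is rarely met as soon as that times the
chance of a deep descent before an escape is small.
-/

open MeasureTheory Filter
open scoped ENNReal Topology

noncomputable section

namespace Vale.Agent.P147.Window

open Flux (Pref path endp left sh qlaw envLaw wflux)

variable {d : ℕ} [NeZero d] {μ : Measure (Step d → ℝ)} {δ : Step d}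

/-- Lateral coordinates within `r` of `c`. -/
def Near (δ : Step d) (c x : Pos d) (r : ℝ) : Prop :=
  ∀ j, j ≠ δ.1 → |((x j - c j : ℤ) : ℝ)| ≤ r

/-- The ends of the pieces of height `n` lie within a multiple of `n ^ a` of some centre. -/
def BoxStmt (μ : Measure (Step d → ℝ)) (δ : Step d) (a : ℝ) : Prop :=
  ∀ ε : ℝ≥0∞, ε ≠ 0 → ∃ K : ℕ, ∀ᶠ n : ℕ in atTop, ∃ c : Pos d,
    mass μ {i ∈ Piece δ n | ¬ Near δ c (endp i) (K * (n : ℝ) ^ a)} ≤ ε

omit [NeZero d] in
/-- Few sites of one height are near a given one. -/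
lemma card_near (δ : Step d) (c : Pos d) (H : ℤ) {r : ℝ} {D : Finset (Pos d)}
    (hD : ∀ x ∈ D, ht δ x = H ∧ Near δ c x r) : D.card ≤ (2 * ⌈r⌉₊ + 1) ^ (d - 1) := by
  classical
  set J := Finset.univ.filter fun j : Fin d => j ≠ δ.1
  have hJ : J.card = d - 1 := by
    simp [J, Finset.filter_ne', Finset.card_erase_of_mem]
  set T := J.pi fun j => Finset.Icc (c j - (⌈r⌉₊ : ℤ)) (c j + ⌈r⌉₊)
  calc D.card ≤ T.card := by
        refine Finset.card_le_card_of_injOn (fun x j _ => x j) (fun x hx => ?_)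
          fun x hx y hy he => ?_
        · refine Finset.mem_pi.2 fun j hj => ?_
          obtain ⟨h1, h2⟩ := abs_le.1 (((hD x hx).2 j (Finset.mem_filter.1 hj).2).trans (Nat.le_ceil r))
          have h1' : -(⌈r⌉₊ : ℤ) ≤ x j - c j := by exact_mod_cast h1
          have h2' : x j - c j ≤ (⌈r⌉₊ : ℤ) := by exact_mod_cast h2
          show x j ∈ Finset.Icc (c j - (⌈r⌉₊ : ℤ)) (c j + ⌈r⌉₊)
          exact Finset.mem_Icc.2 ⟨by omega, by omega⟩
        · funext j
          by_cases hj : j = δ.1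
          · subst hj
            have h := (hD x hx).1.trans (hD y hy).1.symm
            unfold ht at h
            split at h <;> omega
          · exact congrFun (congrFun he j) (Finset.mem_filter.2 ⟨Finset.mem_univ j, hj⟩)
    _ = _ := by
        rw [Finset.card_pi, Finset.prod_congr rfl (fun j _ =>
          show (Finset.Icc (c j - (⌈r⌉₊ : ℤ)) (c j + ⌈r⌉₊)).card = 2 * ⌈r⌉₊ + 1 by
            rw [Int.card_Icc]; omega), Finset.prod_const, hJ]

lemma exists_finite_part (hμ : Elliptic μ) (δ : Step d) (k : ℕ) {a : ℝ≥0∞} (ha : a ≠ 0) :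
    ∃ P : Finset (Pref d), ↑P ⊆ Piece δ k ∧ mass μ (Piece δ k \ ↑P) ≤ a := by
  classical
  set f := (Piece δ k).indicator (wt μ) with hf
  have hfin : ∑' i, f i ≠ ∞ := by
    rw [hf, ← tsum_subtype (Piece δ k) (wt μ)]
    exact ne_top_of_le_ne_top ENNReal.one_ne_top (mass_piece_le_one hμ δ k)
  obtain ⟨s, hs⟩ := ((ENNReal.tendsto_nhds_zero.1 (ENNReal.tendsto_tsum_compl_atTop_zero hfin)) a
    (pos_iff_ne_zero.2 ha)).exists
  refine ⟨s.filter fun i => i ∈ Piece δ k, fun i hi => (Finset.mem_filter.1 hi).2,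
    le_trans (le_of_eq ?_) hs⟩
  rw [mass, tsum_subtype _ (wt μ)]
  refine (Eq.trans (tsum_congr fun i => ?_) (tsum_subtype {i | i ∉ s} f).symm)
  by_cases hp : i ∈ Piece δ k <;> by_cases hi : i ∈ s <;> simp [hf, hp, hi]

open Classical in
/-- A window whose starts lie in one box is rarely met. -/
theorem box_core (hμ : Elliptic μ) {a : ℝ} (ha : 0 ≤ a)
    (hgap : GapStmt μ δ) (hbox : BoxStmt μ δ a)
    (hdip : Tendsto (fun n : ℕ => ENNReal.ofReal ((n : ℝ) ^ a / √(n : ℝ)) ^ (d - 1) *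
      nu μ (Deep δ n)) atTop (𝓝 0)) : QStmt μ δ := by
  intro R ε hε
  have := isProbabilityMeasure_nu hμ
  have := Flux.isProbability_envLaw hμ
  set b := min ε 1 / 8
  have hb : b ≠ 0 := by simp [b, ENNReal.div_eq_zero_iff, hε]
  have hbt : b ≠ ∞ :=
    ENNReal.div_ne_top (ne_top_of_le_ne_top ENNReal.one_ne_top (min_le_right _ _)) (by norm_num)
  obtain ⟨C, hC, g₁, hG⟩ := hgap b hb
  obtain ⟨K, hK⟩ := hbox b hb
  obtain ⟨n₁, hn₁⟩ := eventually_atTop.1 hK
  obtain ⟨g₂, hg₂⟩ := eventually_atTop.1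
    ((ENNReal.tendsto_nhds_zero.1 (Flux.reach_null hμ δ)) b (pos_iff_ne_zero.2 hb))
  set Q : ℝ := 4 * (K : ℝ) * ((R : ℝ) + 1) ^ a + 3 with hQ
  set M := C * ENNReal.ofReal Q ^ (d - 1) * b⁻¹
  have hM : M ≠ ∞ := ENNReal.mul_ne_top
    (ENNReal.mul_ne_top hC (ENNReal.pow_ne_top ENNReal.ofReal_ne_top)) (ENNReal.inv_ne_top.2 hb)
  obtain ⟨g₃, hg₃⟩ := eventually_atTop.1 ((ENNReal.tendsto_nhds_zero.1
    (by simpa using ENNReal.Tendsto.const_mul hdip (Or.inr hM))) b (pos_iff_ne_zero.2 hb))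
  refine ⟨max (max g₁ n₁) (max g₂ (max g₃ 1)), fun g hg k hgk hkR v hv => ?_⟩
  simp only [max_le_iff] at hg
  obtain ⟨⟨hg1, hgn⟩, hg2, hg3, hgp⟩ := hg
  obtain ⟨G₀, hGp₀, hGm₀, hGe₀⟩ := hG g hg1
  obtain ⟨ck, hck⟩ := hn₁ k (hgn.trans hgk)
  obtain ⟨cg, hcg⟩ := hn₁ g hgn
  obtain ⟨P₀, hPp₀, hPm₀⟩ := exists_finite_part hμ δ k hb
  set P := P₀.filter fun i => Near δ ck (endp i) (K * (k : ℝ) ^ a)
  set G := {γ ∈ G₀ | Near δ cg (endp γ) (K * (g : ℝ) ^ a)}
  have hPk : ↑P ⊆ Piece δ k := fun i hi => hPp₀ (Finset.mem_filter.1 hi).1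
  have hGg : G ⊆ Piece δ g := fun γ hγ => hGp₀ hγ.1
  have hsum2 : ∀ (S T : Set (Pref d)), mass μ S ≤ b → mass μ T ≤ b → mass μ (S ∪ T) ≤ b + b :=
    fun S T hS hT => (ENNReal.tsum_union_le (wt μ) S T).trans (add_le_add hS hT)
  have hPm : mass μ (Piece δ k \ ↑P) ≤ b + b := by
    refine (mass_mono ?_).trans (hsum2 _ _ hPm₀ hck)
    intro i hi
    by_cases h : i ∈ P₀
    · exact Or.inr ⟨hi.1, fun hc => hi.2 (Finset.mem_coe.2 (Finset.mem_filter.2 ⟨h, hc⟩))⟩
    · exact Or.inl ⟨hi.1, h⟩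
  have hGm : mass μ (Piece δ g \ G) ≤ b + b := by
    refine (mass_mono ?_).trans (hsum2 _ _ hGm₀ hcg)
    intro γ hγ
    by_cases h : γ ∈ G₀
    · exact Or.inr ⟨hγ.1, fun hc => hγ.2 ⟨h, hc⟩⟩
    · exact Or.inl ⟨hγ.1, h⟩
  have hG1 : mass μ G ≤ 1 := (mass_mono hGg).trans (mass_piece_le_one hμ δ g)
  set f : Pref d → Pref d → ℝ≥0∞ := fun i γ => nu μ (Hits (left i) (endp i + endp γ + v))
  have hf : ∀ i γ, f i γ ≤ 1 := fun _ _ => prob_le_one
  -- forget the exceptional pieces and gaps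
  have hdrop : meetMass μ δ g k v ≤
      (∑ i ∈ P, wt μ i * ∑' γ : G, wt μ γ * f i γ) + ((b + b) + (b + b)) := by
    have hgap' : ∀ i, ∑' γ : Piece δ g, wt μ i * wt μ γ * f i γ ≤
        wt μ i * (∑' γ : G, wt μ γ * f i γ) + wt μ i * (b + b) := by
      intro i
      simp only [mul_assoc, ENNReal.tsum_mul_left, ← mul_add]
      refine mul_le_mul' le_rfl ?_
      calc ∑' γ : Piece δ g, wt μ γ * f i γ
          ≤ ∑' γ : (G ∪ Piece δ g \ G : Set (Pref d)), wt μ γ * f i γ :=
            ENNReal.tsum_mono_subtype (fun γ => wt μ γ * f i γ) fun γ hγ => by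
              by_cases hc : γ ∈ G
              · exact Or.inl hc
              · exact Or.inr ⟨hγ, hc⟩
        _ ≤ (∑' γ : G, wt μ γ * f i γ) + ∑' γ : (Piece δ g \ G : Set (Pref d)), wt μ γ * f i γ :=
            ENNReal.tsum_union_le (fun γ => wt μ γ * f i γ) _ _
        _ ≤ _ := add_le_add le_rfl ((ENNReal.tsum_le_tsum
            (g := fun γ : (Piece δ g \ G : Set (Pref d)) => wt μ γ)
            fun γ => mul_le_of_le_one_right bot_le (hf i γ)).trans hGm)
    calc meetMass μ δ g k v ≤ ∑' i : Piece δ k,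
          (wt μ i * (∑' γ : G, wt μ γ * f i γ) + wt μ i * (b + b)) :=
            ENNReal.tsum_le_tsum fun i => hgap' i
      _ ≤ (∑' i : Piece δ k, wt μ i * (∑' γ : G, wt μ γ * f i γ)) + (b + b) := by
          rw [ENNReal.tsum_add, ENNReal.tsum_mul_right]
          exact add_le_add le_rfl (mul_le_of_le_one_left bot_le (mass_piece_le_one hμ δ k))
      _ ≤ _ := by
          refine (add_le_add ?_ le_rfl).trans_eq (add_assoc _ (b + b) (b + b))
          calc ∑' i : Piece δ k, wt μ i * (∑' γ : G, wt μ γ * f i γ)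
              ≤ ∑' i : (↑P ∪ Piece δ k \ ↑P : Set (Pref d)),
                  wt μ i * (∑' γ : G, wt μ γ * f i γ) :=
                ENNReal.tsum_mono_subtype (fun i => wt μ i * (∑' γ : G, wt μ γ * f i γ))
                  fun i hi => by
                    by_cases hc : i ∈ P
                    · exact Or.inl hc
                    · exact Or.inr ⟨hi, hc⟩
            _ ≤ (∑' i : (↑P : Set (Pref d)), wt μ i * (∑' γ : G, wt μ γ * f i γ)) +
                  ∑' i : (Piece δ k \ ↑P : Set (Pref d)), wt μ i * (∑' γ : G, wt μ γ * f i γ) :=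
                ENNReal.tsum_union_le (fun i => wt μ i * (∑' γ : G, wt μ γ * f i γ)) _ _
            _ ≤ _ := by
                refine add_le_add (le_of_eq ?_) ((ENNReal.tsum_le_tsum fun i =>
                  mul_le_of_le_one_right bot_le ((ENNReal.tsum_le_tsum fun γ =>
                    mul_le_of_le_one_right bot_le (hf _ _)).trans hG1)).trans hPm)
                exact Finset.tsum_subtype' P fun i => wt μ i * (∑' γ : G, wt μ γ * f i γ)
  set Kw := gapW μ G v
  set Gy : Env d → ℝ≥0∞ := fun ω => min 1 (b⁻¹ * qlaw ω (Deep δ g))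
  have hDm : MeasurableSet (Deep δ g) :=
    (MeasurableSet.iUnion fun p => (detBy_hit (opp δ) _ le_rfl).measurableSet).inter
      (Flux.measurableSet_unbdd δ)
  have hGym : Measurable Gy := measurable_const.min ((Flux.measurable_qlaw hDm).const_mul _)
  set bad : Pref d → Env d → ℝ≥0∞ := fun i ω =>
    if ∃ z ∈ left i, qlaw (sh z ω) (Unbdd δ) < b then 1 else 0
  have hbadm : ∀ i, Measurable (bad i) := fun i => by
    refine Measurable.ite ?_ measurable_const measurable_const
    simp only [Set.ofPred_exists, Set.ofPred_and]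
    exact MeasurableSet.iUnion fun z => (MeasurableSet.const _).inter
      (measurableSet_lt ((Flux.measurable_qlaw (Flux.measurableSet_unbdd δ)).comp
        (Flux.measurable_sh z)) measurable_const)
  have hK1 : ∀ i ∈ P, ∑' y, Kw i y ≤ 1 := fun i _ => by
    have := tsum_gapW (μ := μ) G v i fun _ => 1
    simp only [mul_one] at this
    exact this.trans_le hG1
  set r : ℝ := K * (k : ℝ) ^ a + K * (g : ℝ) ^ a with hr
  set c := ck + cg + v
  have hKY : ∀ i ∈ P, ∀ y, Kw i y ≠ 0 → ht δ y = ((k + g : ℕ) : ℤ) ∧ Near δ c y r := by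
    intro i hi y hy
    obtain ⟨γ, hγG, he⟩ : ∃ γ ∈ G, endp γ = y - endp i - v := by
      by_contra hc
      exact hy (ENNReal.tsum_eq_zero.2 fun γ => absurd ⟨γ, γ.2.1, γ.2.2⟩ hc)
    rw [show y = endp i + endp γ + v by rw [he]; abel, ht_add, ht_add, piece_end (hPk hi),
      piece_end (hGg hγG), hv]
    refine ⟨by push_cast; ring, fun j hj => ?_⟩
    have h1 := (Finset.mem_filter.1 hi).2 j hj
    have h2 := hγG.2 j hj
    simp only [c, Pi.add_apply]
    push_cast at h1 h2 ⊢
    calc |(endp i j : ℝ) + endp γ j + v j - (ck j + cg j + v j)|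
        = |((endp i j : ℝ) - ck j) + ((endp γ j : ℝ) - cg j)| := by ring_nf
      _ ≤ _ := (abs_add_le _ _).trans (add_le_add h1 h2)
  have hmW : ∀ i y, Measurable fun ω => W i.1 (path i) ω * Gy (sh y ω) := fun i y =>
    (measurable_W _ _).mul (hGym.comp (Flux.measurable_sh y))
  have hone : ∀ i ∈ P, ∀ y, Kw i y * (wt μ i * nu μ (Hits (left i) y)) ≤
      Kw i y * (∫⁻ ω, W i.1 (path i) ω * bad i ω ∂envLaw μ) +
        Kw i y * ∫⁻ ω, W i.1 (path i) ω * Gy (sh y ω) ∂envLaw μ := by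
    intro i hi y
    rcases eq_or_ne (Kw i y) 0 with h0 | h0
    · simp [h0]
    rw [← mul_add, ← lintegral_add_right _ (hmW i y)]
    refine mul_le_mul' le_rfl ((entry_le hμ i y).trans (lintegral_mono_ae ?_))
    filter_upwards [(Flux.mp_sh hμ y).quasiMeasurePreserving.ae (Flux.markov hμ),
      Flux.ae_good hμ] with ω hm hω
    rw [← mul_add]
    exact mul_le_mul' le_rfl
      (quenched_entry hb hbt (hPk hi) (hKY i hi y h0).1 (Flux.goodEnv_sh hω y) hm)
  have hbadsum : ∑ i ∈ P, ∫⁻ ω, W i.1 (path i) ω * bad i ω ∂envLaw μ ≤ b + b := by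
    rw [← lintegral_finsetSum (f := fun i ω => W i.1 (path i) ω * bad i ω) P
      fun i _ => (measurable_W _ _).mul (hbadm i)]
    have hRm : MeasurableSet ((⋃ p, Hit δ (k : ℤ) p) \ Unbdd δ) :=
      (MeasurableSet.iUnion fun p => (detBy_hit δ _ le_rfl).measurableSet).diff
        (Flux.measurableSet_unbdd δ)
    calc ∫⁻ ω, ∑ i ∈ P, W i.1 (path i) ω * bad i ω ∂envLaw μ
        ≤ ∫⁻ ω, b + qlaw ω ((⋃ p, Hit δ (k : ℤ) p) \ Unbdd δ) ∂envLaw μ := by
          refine lintegral_mono_ae ?_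
          filter_upwards [Flux.markov hμ, Flux.ae_good hμ] with ω hm hω
          exact quenched_bad P hPk hω hm
      _ ≤ b + b := by
          rw [lintegral_add_left measurable_const, lintegral_const, measure_univ, mul_one,
            ← Flux.nu_eq_lintegral hRm]
          exact add_le_add le_rfl (hg₂ k (hg2.trans hgk))
  have hflux : ∑ i ∈ P, ∑' y, Kw i y * ∫⁻ ω, W i.1 (path i) ω * Gy (sh y ω) ∂envLaw μ =
      ∫⁻ ω, wflux P Kw ω * Gy ω ∂envLaw μ := by
    have hm1 : ∀ i y, Measurable fun ω => Kw i y * W i.1 (path i) (sh (-y) ω) * Gy ω := fun i y =>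
      (((measurable_W _ _).comp (Flux.measurable_sh _)).const_mul _).mul hGym
    simp only [wflux, Finset.sum_mul, ← ENNReal.tsum_mul_right]
    rw [lintegral_finsetSum _ fun i _ => Measurable.tsum fun y => hm1 i y]
    refine Finset.sum_congr rfl fun i _ => ?_
    rw [lintegral_tsum fun y => (hm1 i y).aemeasurable]
    refine tsum_congr fun y => ?_
    rw [← lintegral_const_mul _ (hmW i y), ← (Flux.mp_sh hμ y).lintegral_comp (hm1 i y)]
    refine lintegral_congr fun ω => ?_
    rw [Flux.sh_sh, neg_add_cancel, Flux.sh_zero, mul_assoc]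
  set e := C * ENNReal.ofReal (1 / √(g : ℝ)) ^ (d - 1)
  have hbound : ∀ᵐ ω ∂envLaw μ, wflux P Kw ω ≤ e * ENNReal.ofReal (Q * (g : ℝ) ^ a) ^ (d - 1) := by
    filter_upwards [Flux.ae_good hμ] with ω hω
    have hcount : ((2 * ⌈r⌉₊ + 1 : ℕ) : ℝ) ≤ Q * (g : ℝ) ^ a := by
      have hg1' : (1 : ℝ) ≤ g := by exact_mod_cast hgp
      have hga : (1 : ℝ) ≤ (g : ℝ) ^ a := Real.one_le_rpow hg1' ha
      have hR1 : (1 : ℝ) ≤ ((R : ℝ) + 1) ^ a :=
        Real.one_le_rpow (by have := (Nat.cast_nonneg R : (0 : ℝ) ≤ R); linarith) ha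
      have hka : (k : ℝ) ^ a ≤ ((R : ℝ) + 1) ^ a * (g : ℝ) ^ a := by
        rw [← Real.mul_rpow (by positivity) (by positivity)]
        refine Real.rpow_le_rpow (by positivity) ?_ ha
        have : (k : ℝ) ≤ R * g := by exact_mod_cast hkR
        linarith
      have hc' := Nat.ceil_lt_add_one (show 0 ≤ r by rw [hr]; positivity)
      have hK0 : (0 : ℝ) ≤ K := Nat.cast_nonneg K
      have h1 : (g : ℝ) ^ a ≤ ((R : ℝ) + 1) ^ a * (g : ℝ) ^ a :=
        le_mul_of_one_le_left (by positivity) hR1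
      push_cast
      rw [hQ]
      nlinarith [mul_le_mul_of_nonneg_left hka hK0, mul_le_mul_of_nonneg_left h1 hK0]
    set S : Set (Pos d) := {y | ht δ y = ((k + g : ℕ) : ℤ) ∧ Near δ c y r}
    have hcard : ∀ D : Finset (Pos d), ↑D ⊆ S → (D.card : ℝ≥0∞) ≤
        ENNReal.ofReal (Q * (g : ℝ) ^ a) ^ (d - 1) := fun D hD => by
      refine (Nat.cast_le.2 (card_near δ c _ hD)).trans ?_
      rw [Nat.cast_pow, ← ENNReal.ofReal_natCast]
      exact pow_le_pow_left₀ bot_le (ENNReal.ofReal_le_ofReal hcount) _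
    have hstart : ∀ y, ∑ i ∈ P, W i.1 (path i) (sh (-y) ω) ≤ 1 := fun y => by
      have hg := Flux.goodEnv_sh hω (-y)
      rw [Finset.sum_congr rfl fun i _ => (Flux.qlaw_cyl hg i.1 (path i)).symm,
        ← measure_biUnion_finset (fun a ha b hb hne => Set.disjoint_left.mpr fun η h h' =>
          hne (piece_unique (hPk ha) (hPk hb) h h')) fun i _ => measurableSet_cyl _ _]
      exact prob_le_one
    rw [wflux, ← Summable.tsum_finsetSum fun i _ => ENNReal.summable, ENNReal.tsum_eq_iSup_sum]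
    refine iSup_le fun D => ?_
    calc ∑ y ∈ D, ∑ i ∈ P, Kw i y * W i.1 (path i) (sh (-y) ω)
        ≤ ∑ y ∈ D, (if y ∈ S then e else 0) := by
          refine Finset.sum_le_sum fun y _ => ?_
          by_cases hy : y ∈ S
          · rw [if_pos hy]
            calc ∑ i ∈ P, Kw i y * W i.1 (path i) (sh (-y) ω)
                ≤ ∑ i ∈ P, e * W i.1 (path i) (sh (-y) ω) :=
                  Finset.sum_le_sum fun i _ => mul_le_mul' ((mass_mono (show {γ ∈ G | endp γ = y - endp i - v} ⊆ {γ ∈ G₀ | endp γ = y - endp i - v} from fun γ hγ => ⟨hγ.1.1, hγ.2⟩)).trans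
                    (hGe₀ (y - endp i - v))) le_rfl
              _ ≤ e := by rw [← Finset.mul_sum]; exact mul_le_of_le_one_right' (hstart y)
          · rw [if_neg hy, Finset.sum_eq_zero fun i hi => ?_]
            rw [not_not.1 fun h0 => hy (hKY i hi y h0), zero_mul]
      _ = ((D.filter fun y => y ∈ S).card : ℝ≥0∞) * e := by
          rw [← Finset.sum_filter, Finset.sum_const, nsmul_eq_mul]
      _ ≤ _ := by
          rw [mul_comm]
          exact mul_le_mul' le_rfl (hcard _ fun y hy => (Finset.mem_filter.1 hy).2)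
  have hFG : ∫⁻ ω, wflux P Kw ω * Gy ω ∂envLaw μ ≤ b := by
    refine (lintegral_mono_ae (hbound.mono fun ω h => mul_le_mul' h (min_le_right _ _))).trans ?_
    rw [lintegral_const_mul _ ((Flux.measurable_qlaw hDm).const_mul _),
      lintegral_const_mul _ (Flux.measurable_qlaw hDm), ← Flux.nu_eq_lintegral hDm]
    refine le_of_eq_of_le ?_ (hg₃ g hg3)
    rw [ENNReal.ofReal_mul (by rw [hQ]; positivity), mul_pow]
    have hsplit : ENNReal.ofReal ((g : ℝ) ^ a / √(g : ℝ)) =
        ENNReal.ofReal (1 / √(g : ℝ)) * ENNReal.ofReal ((g : ℝ) ^ a) := by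
      rw [← ENNReal.ofReal_mul (by positivity)]
      congr 1
      ring
    rw [hsplit, mul_pow]
    simp only [M, e]
    ring
  have hmain : ∑ i ∈ P, wt μ i * ∑' γ : G, wt μ γ * f i γ ≤ (b + b) + b := by
    calc ∑ i ∈ P, wt μ i * ∑' γ : G, wt μ γ * f i γ
        = ∑ i ∈ P, ∑' y, Kw i y * (wt μ i * nu μ (Hits (left i) y)) := by
          refine Finset.sum_congr rfl fun i _ => ?_
          rw [tsum_gapW G v i fun y => wt μ i * nu μ (Hits (left i) y), ← ENNReal.tsum_mul_left]
          exact tsum_congr fun γ => by simp only [f]; ring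
      _ ≤ ∑ i ∈ P, ((∫⁻ ω, W i.1 (path i) ω * bad i ω ∂envLaw μ) +
            ∑' y, Kw i y * ∫⁻ ω, W i.1 (path i) ω * Gy (sh y ω) ∂envLaw μ) := by
          refine Finset.sum_le_sum fun i hi => (ENNReal.tsum_le_tsum fun y => hone i hi y).trans ?_
          rw [ENNReal.tsum_add, ENNReal.tsum_mul_right]
          exact add_le_add (mul_le_of_le_one_left bot_le (hK1 i hi)) le_rfl
      _ ≤ _ := by
          rw [Finset.sum_add_distrib, hflux]
          exact add_le_add hbadsum hFG
  calc meetMass μ δ g k v ≤ _ := hdrop.trans (add_le_add hmain le_rfl)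
    _ ≤ 8 * b := by
        rw [show b + b + b + (b + b + (b + b)) = 7 * b by ring]
        exact mul_le_mul' (by norm_num) le_rfl
    _ = min ε 1 := by rw [mul_comm]; exact ENNReal.div_mul_cancel (by norm_num) (by norm_num)
    _ ≤ ε := min_le_left _ _

end Vale.Agent.P147.Window
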