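import Vale.Agent.P147.Window.Api
import Vale.Agent.P147.Flux.Moment

/-!
P147: spread out gaps and windows of linear time give a budget in dimension at least three.
-/

open MeasureTheory Filter
open scoped ENNReal Topology

noncomputable section

namespace Vale.Agent.P147.Window

open Flux (Pref path endp left)

variable {d : ℕ} [NeZero d] {μ : Measure (Step d → ℝ)} {δ : Step d}

/-- Module Budget for a side of linear time. -/
theorem budget (hd : 3 ≤ d) (hgap : GapStmt μ δ) (hwin : WinStmt μ δ) : BudgetStmt μ δ := by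
  classical
  intro R ε hε
  obtain ⟨C₁, hC₁, g₁, hG⟩ := hgap ε hε
  obtain ⟨A, hA, K, hK⟩ := hwin ε hε
  refine ⟨C₁ * A * ((K * (R + 1) : ℕ) : ℝ≥0∞),
    ENNReal.mul_ne_top (ENNReal.mul_ne_top hC₁ hA) (ENNReal.natCast_ne_top _), max g₁ 1,
    fun g hg k _ hkR => ?_⟩
  obtain ⟨G, hGp, hGm, hGe⟩ := hG g (le_of_max_le_left hg)
  have hg1 : 1 ≤ g := le_of_max_le_right hg
  obtain ⟨hlong, hlev⟩ := hK k
  set L := K * (k + 1)
  have hPp : ↑(Flux.prefs δ L k) ⊆ Piece δ k := fun i hi => (Flux.mem_prefs.1 hi).2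
  refine ⟨Flux.prefs δ L k, G, A, C₁ * ENNReal.ofReal (1 / √(g : ℝ)) ^ (d - 1), L, hPp, hGp, ?_,
    hGm, fun i hi => ?_, fun j => ?_, hGe, ?_⟩
  · refine le_trans (mass_mono ?_) hlong
    rintro i ⟨hi, hi'⟩
    refine ⟨hi, ?_⟩
    by_contra hc
    exact hi' (Flux.mem_prefs.2 ⟨not_lt.1 hc, hi⟩)
  · exact (Finset.card_image_le.trans_eq (Finset.card_range _)).trans (Flux.mem_prefs.1 hi).1
  · refine le_trans ?_ (hlev j)
    rw [← Finset.tsum_subtype (Flux.prefs δ L k) fun i => wt μ i * (levelCount δ i j : ℝ≥0∞)]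
    exact ENNReal.tsum_mono_subtype (fun i => wt μ i * (levelCount δ i j : ℝ≥0∞)) hPp
  · set u := ENNReal.ofReal (1 / √(g : ℝ))
    have hg0 : (1 : ℝ) ≤ √(g : ℝ) := Real.one_le_sqrt.2 (by exact_mod_cast hg1)
    have hu1 : u ≤ 1 := ENNReal.ofReal_le_one.2 ((div_le_one (by positivity)).2 hg0)
    have hu2 : u ^ (d - 1) * (L : ℝ≥0∞) ≤ ((K * (R + 1) : ℕ) : ℝ≥0∞) := by
      have hL : L ≤ K * (R + 1) * g := by
        simp only [L, mul_assoc]
        exact Nat.mul_le_mul_left K (by rw [add_mul, one_mul]; omega)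
      refine le_trans (mul_le_mul' (pow_le_pow_right_of_le_one' hu1 (show 2 ≤ d - 1 by omega))
        (Nat.cast_le.2 hL)) (le_of_eq ?_)
      have hg' : (0 : ℝ) < g := by exact_mod_cast hg1
      rw [← ENNReal.ofReal_natCast (K * (R + 1) * g), ← ENNReal.ofReal_natCast (K * (R + 1)),
        ← ENNReal.ofReal_pow (by positivity), ← ENNReal.ofReal_mul (by positivity), div_pow,
        Real.sq_sqrt hg'.le]
      push_cast
      congr 1
      field_simp
    calc C₁ * u ^ (d - 1) * A * (L : ℝ≥0∞) = C₁ * A * (u ^ (d - 1) * L) := by ring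
      _ ≤ _ := mul_le_mul' le_rfl hu2

end Vale.Agent.P147.Window
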