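import Vale.Agent.P147.Window.Api
import Vale.Agent.P147.Flux.Osc
import Vale.Agent.P147.Flux.Main

/-!
P147: a window of moderate range under a spread out gap is rarely met by a descending walk: either
the entry site is one from which climbing for ever is unlikely, or the flux through the window is
paid by its second moment.
-/

open MeasureTheory Filter
open scoped ENNReal Topology

noncomputable section

namespace Vale.Agent.P147.Window

open Flux (Pref path endp left sh qlaw envLaw wflux)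

variable {d : ℕ} [NeZero d] {μ : Measure (Step d → ℝ)} {δ : Step d}

/-- The walks that reach depth `g` and are unbounded above. -/
def Deep (δ : Step d) (g : ℕ) : Set (ℕ → Step d) :=
  (⋃ p, Hit (opp δ) (g : ℤ) p) ∩ Unbdd δ

/-- The first visit to `S` is at time `t`. -/
def FirstAt (S : Set (Pos d)) (t : ℕ) : Set (ℕ → Step d) :=
  {η | pos η t ∈ S ∧ ∀ u < t, pos η u ∉ S}

omit [NeZero d] in
lemma detBy_firstAt (S : Set (Pos d)) (t : ℕ) : DetBy t (FirstAt S t) := fun η η' he h =>
  have hp : ∀ u ≤ t, pos η u = pos η' u := fun u hu => pos_congr fun s hs => he s (by omega)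
  ⟨hp t le_rfl ▸ h.1, fun u hu => hp u hu.le ▸ h.2 u hu⟩

omit [NeZero d] in
lemma iUnion_firstAt (S : Set (Pos d)) : (⋃ t, FirstAt S t) = {η | ∃ t, pos η t ∈ S} := by
  classical
  ext η
  simp only [Set.mem_iUnion, FirstAt, Set.mem_ofPred_eq]
  exact ⟨fun ⟨t, h, _⟩ => ⟨t, h⟩,
    fun h => ⟨Nat.find h, Nat.find_spec h, fun u hu => Nat.find_min h hu⟩⟩

omit [NeZero d] in
lemma disjoint_firstAt (S : Set (Pos d)) :
    Pairwise (Function.onFun Disjoint (FirstAt S)) := fun a b hab =>
  Set.disjoint_left.mpr fun _ ha hb => by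
    rcases lt_or_gt_of_ne hab with h | h
    · exact hb.2 a h ha.1
    · exact ha.2 b h hb.1

omit [NeZero d] in
lemma disjoint_stopped (S : Set (Pos d)) (F : Set (ℕ → Step d)) :
    Pairwise (Function.onFun Disjoint fun t => FirstAt S t ∩ shift t ⁻¹' F) := fun _ _ hab =>
  (disjoint_firstAt S hab).mono Set.inter_subset_left Set.inter_subset_left

omit [NeZero d] in
lemma unbdd_to_shift {η : ℕ → Step d} (h : η ∈ Unbdd δ) (t : ℕ) : shift t η ∈ Unbdd δ := fun j => by
  set M := (Finset.range (t + 1)).sup fun u => (hgt δ η u).natAbs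
  have hM : ∀ u ≤ t, (hgt δ η u).natAbs ≤ M := fun u hu =>
    Finset.le_sup (f := fun u => (hgt δ η u).natAbs) (Finset.mem_range.2 (by omega))
  obtain ⟨n, hn⟩ := h (j + M + M + 1)
  rcases le_or_gt n t with h' | h'
  · have := hM n h'
    omega
  · obtain ⟨u, rfl⟩ := Nat.exists_eq_add_of_le h'.le
    refine ⟨u, ?_⟩
    rw [hgt_add] at hn
    have := hM t le_rfl
    omega

omit [NeZero d] in
lemma measurableSet_hits (U : Finset (Pos d)) (y : Pos d) : MeasurableSet (Hits U y) := by
  simp only [Hits, Set.ofPred_exists]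
  exact MeasurableSet.iUnion fun t =>
    ((measurable_of_countable fun x : Pos d => y + x).comp (measurable_pos t)) MeasurableSet.of_discrete

/-- The Markov property at a first visit. -/
lemma stopped_eq {ω : Env d} (hω : Flux.GoodEnv ω)
    (hm : ∀ (n : ℕ) (ξ : ℕ → Step d) (F : Set (ℕ → Step d)), MeasurableSet F →
      qlaw ω (cyl n ξ ∩ shift n ⁻¹' F) = W n ξ ω * qlaw (sh (pos ξ n) ω) F)
    (S : Set (Pos d)) (t : ℕ) {F : Set (ℕ → Step d)} (hF : MeasurableSet F) {a b : ℝ≥0∞}
    (ha : ∀ x ∈ S, a ≤ qlaw (sh x ω) F) (hb : ∀ x ∈ S, qlaw (sh x ω) F ≤ b) :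
    a * qlaw ω (FirstAt S t) ≤ qlaw ω (FirstAt S t ∩ shift t ⁻¹' F) ∧
      qlaw ω (FirstAt S t ∩ shift t ⁻¹' F) ≤ b * qlaw ω (FirstAt S t) := by
  classical
  have hd := detBy_firstAt S t
  rw [← Measure.restrict_apply hd.measurableSet, Flux.measure_det (qlaw ω) hd,
    Flux.measure_det ((qlaw ω).restrict (shift t ⁻¹' F)) hd, Finset.mul_sum, Finset.mul_sum]
  constructor <;> refine Finset.sum_le_sum fun σ hσ => ?_ <;>
    rw [Measure.restrict_apply (measurableSet_cyl _ _), hm _ _ _ hF, Flux.qlaw_cyl hω, mul_comm]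
  · exact mul_le_mul' le_rfl (ha _ (Finset.mem_filter.1 hσ).2.1)
  · exact mul_le_mul' (hb _ (Finset.mem_filter.1 hσ).2.1) le_rfl

/-- Until a walk from `y` enters a finite prefix, the two are independent. -/
lemma entry_le (hμ : Elliptic μ) (i : Pref d) (y : Pos d) :
    wt μ i * nu μ (Hits (left i) y) ≤
      ∫⁻ ω, W i.1 (path i) ω * qlaw (sh y ω) (Hits (left i) y) ∂envLaw μ := by
  classical
  set S : Set (Pos d) := {x | y + x ∈ left i}
  have hH : Hits (left i) y = ⋃ t, FirstAt S t := (iUnion_firstAt S).symm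
  have hmt : ∀ t (σ : Fin t → Step d), Measurable fun ω : Env d =>
      W i.1 (path i) ω * W t (ext' σ) (sh y ω) :=
    fun t σ => (measurable_W _ _).mul ((measurable_W _ _).comp (Flux.measurable_sh y))
  have hterm : ∀ t, wt μ i * nu μ (FirstAt S t) =
      ∫⁻ ω, W i.1 (path i) ω * qlaw (sh y ω) (FirstAt S t) ∂envLaw μ := by
    intro t
    set Q := Finset.univ.filter fun σ : Fin t → Step d => ext' σ ∈ FirstAt S t
    have h1 : ∀ᵐ ω ∂envLaw μ, W i.1 (path i) ω * qlaw (sh y ω) (FirstAt S t) =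
        ∑ σ ∈ Q, W i.1 (path i) ω * W t (ext' σ) (sh y ω) := by
      filter_upwards [Flux.ae_good hμ] with ω hω
      rw [Flux.measure_det _ (detBy_firstAt S t), Finset.mul_sum]
      exact Finset.sum_congr rfl fun σ _ => by rw [Flux.qlaw_cyl (Flux.goodEnv_sh hω y)]
    rw [lintegral_congr_ae h1, lintegral_finsetSum _ fun σ _ => hmt t σ,
      Flux.measure_det (nu μ) (detBy_firstAt S t), Finset.mul_sum]
    refine Finset.sum_congr rfl fun σ hσ => ?_
    refine (Flux.W_indep hμ i ⟨t, σ⟩ y fun u hu hmem => ?_).symm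
    refine (Finset.mem_filter.1 hσ).2.2 u hu ?_
    show y + pos (ext' σ) u ∈ left i
    rw [add_comm]
    exact hmem
  have hmf : ∀ t, Measurable fun ω : Env d =>
      W i.1 (path i) ω * qlaw (sh y ω) (FirstAt S t) := fun t =>
    (measurable_W _ _).mul
      ((Flux.measurable_qlaw (detBy_firstAt S t).measurableSet).comp (Flux.measurable_sh y))
  rw [hH, measure_iUnion (disjoint_firstAt S) fun t => (detBy_firstAt S t).measurableSet,
    ← ENNReal.tsum_mul_left, tsum_congr hterm, ← lintegral_tsum fun t => (hmf t).aemeasurable]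
  refine le_of_eq (lintegral_congr fun ω => ?_)
  rw [ENNReal.tsum_mul_left,
    measure_iUnion (disjoint_firstAt S) fun t => (detBy_firstAt S t).measurableSet]

lemma deep_null (hμ : Elliptic μ) (hF : 0 < nu μ (Dir.Fwd (Planar.ax δ))) :
    Tendsto (fun g => nu μ (Deep δ g)) atTop (𝓝 0) := by
  have := isProbabilityMeasure_nu hμ
  have hanti : Antitone (Deep (d := d) δ) := fun a b hab η hη => by
    refine ⟨?_, hη.2⟩
    obtain ⟨p, hp⟩ := Set.mem_iUnion.1 hη.1
    obtain ⟨q, -, hq⟩ := exists_hit (opp δ) (j := a) (n := p) (η := η) (by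
      rw [hp.1]; exact_mod_cast hab)
    exact Set.mem_iUnion.2 ⟨q, hq⟩
  have h0 : nu μ (⋂ g, Deep δ g) = 0 := by
    have h1 := (mul_eq_zero.1 (Flux.noBack_escape hμ δ)).resolve_right
      (hF.trans_le (measure_mono (Flux.fwd_subset_noBack δ))).ne'
    refine measure_mono_null (fun η hη => ?_) h1
    refine ⟨(Set.mem_iInter.1 hη 0).2, fun hesc => ?_⟩
    obtain ⟨N, hN⟩ := eventually_atTop.1 (hesc.eventually_ge_atTop 0)
    set M := (Finset.range (N + 1)).sup fun u => (hgt δ η u).natAbs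
    obtain ⟨p, hp⟩ := Set.mem_iUnion.1 (Set.mem_iInter.1 hη (M + 1)).1
    have h2 : -hgt δ η p = ((M + 1 : ℕ) : ℤ) := by rw [← hp.1, hgt, hgt, ht_opp]
    rcases le_or_gt p N with h | h
    · have : (hgt δ η p).natAbs ≤ M := Finset.le_sup (f := fun u => (hgt δ η u).natAbs)
        (Finset.mem_range.2 (by omega))
      omega
    · have h3 := hN p h.le
      rw [Planar.lh_ax, Int.cast_nonneg_iff] at h3
      omega
  have hmeas : ∀ g, NullMeasurableSet (Deep δ g) (nu μ) := fun g =>
    ((MeasurableSet.iUnion fun p => (detBy_hit (opp δ) _ le_rfl).measurableSet).inter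
      (Flux.measurableSet_unbdd δ)).nullMeasurableSet
  simpa [h0, Function.comp_def] using
    tendsto_measure_iInter_atTop hmeas hanti ⟨0, measure_ne_top _ _⟩

/-- Quenched: a walk from `y` entering a piece does so at an entry from which climbing is unlikely,
which is rare for the piece, or goes deep and then up. -/
lemma quenched_entry {ω : Env d} {θ : ℝ≥0∞} (hθ : θ ≠ 0) (hθt : θ ≠ ∞) {k g : ℕ} {i : Pref d}
    (hi : i ∈ Piece δ k) {y : Pos d} (hy : ht δ y = ((k + g : ℕ) : ℤ))
    (hω : Flux.GoodEnv (sh y ω))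
    (hm : ∀ (n : ℕ) (ξ : ℕ → Step d) (F : Set (ℕ → Step d)), MeasurableSet F →
      qlaw (sh y ω) (cyl n ξ ∩ shift n ⁻¹' F) =
        W n ξ (sh y ω) * qlaw (sh (pos ξ n) (sh y ω)) F) :
    qlaw (sh y ω) (Hits (left i) y) ≤
      (if ∃ z ∈ left i, qlaw (sh z ω) (Unbdd δ) < θ then 1 else 0) +
        min 1 (θ⁻¹ * qlaw (sh y ω) (Deep δ g)) := by
  split_ifs with h
  · exact le_add_right prob_le_one
  rw [zero_add]
  refine le_min prob_le_one ?_
  set S : Set (Pos d) := {x | y + x ∈ left i}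
  have hU := Flux.measurableSet_unbdd δ
  have hS : ∀ x ∈ S, θ ≤ qlaw (sh x (sh y ω)) (Unbdd δ) := fun x hx => by
    rw [Flux.sh_sh, add_comm x y]
    by_contra hc
    exact h ⟨_, hx, not_le.1 hc⟩
  rw [show Hits (left i) y = ⋃ t, FirstAt S t from (iUnion_firstAt S).symm]
  calc qlaw (sh y ω) (⋃ t, FirstAt S t)
      ≤ ∑' t, qlaw (sh y ω) (FirstAt S t) := measure_iUnion_le _
    _ ≤ ∑' t, θ⁻¹ * qlaw (sh y ω) (FirstAt S t ∩ shift t ⁻¹' Unbdd δ) := by
        refine ENNReal.tsum_le_tsum fun t => ?_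
        have h1 := mul_le_mul' (le_refl θ⁻¹)
          (stopped_eq hω hm S t hU (b := 1) hS fun x _ => prob_le_one).1
        rwa [← mul_assoc, ENNReal.inv_mul_cancel hθ hθt, one_mul] at h1
    _ = θ⁻¹ * qlaw (sh y ω) (⋃ t, FirstAt S t ∩ shift t ⁻¹' Unbdd δ) := by
        rw [ENNReal.tsum_mul_left, measure_iUnion (disjoint_stopped S _)
          fun t => (detBy_firstAt S t).measurableSet.inter (measurable_shift t hU)]
    _ ≤ _ := by
        refine mul_le_mul' le_rfl (measure_mono (Set.iUnion_subset fun t η hη => ⟨?_,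
          Flux.unbdd_of_shift hη.2⟩))
        obtain ⟨u, hu, he⟩ := mem_left.1 (show y + pos η t ∈ left i from hη.1.1)
        have h2 := piece_lt hi hu
        rw [he, ht_add, hy] at h2
        obtain ⟨p, -, hp⟩ := exists_hit (opp δ) (j := g) (n := t) (η := η) (by
          rw [hgt, ht_opp]; push_cast at h2; omega)
        exact Set.mem_iUnion.2 ⟨p, hp⟩

open Classical in
/-- Quenched: pieces through sites from which climbing is unlikely are rare. -/
lemma quenched_bad {ω : Env d} {θ : ℝ≥0∞} {k : ℕ} (P : Finset (Pref d)) (hP : ↑P ⊆ Piece δ k)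
    (hω : Flux.GoodEnv ω)
    (hm : ∀ (n : ℕ) (ξ : ℕ → Step d) (F : Set (ℕ → Step d)), MeasurableSet F →
      qlaw ω (cyl n ξ ∩ shift n ⁻¹' F) = W n ξ ω * qlaw (sh (pos ξ n) ω) F) :
    ∑ i ∈ P, W i.1 (path i) ω * (if ∃ z ∈ left i, qlaw (sh z ω) (Unbdd δ) < θ then 1 else 0) ≤
      θ + qlaw ω ((⋃ p, Hit δ (k : ℤ) p) \ Unbdd δ) := by
  set S : Set (Pos d) := {x | qlaw (sh x ω) (Unbdd δ) < θ}
  have hU := Flux.measurableSet_unbdd δ
  simp only [mul_ite, mul_one, mul_zero]
  rw [← Finset.sum_filter]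
  suffices h : ∀ Q : Finset (Pref d), Q ⊆ P →
      (∀ i ∈ Q, ∃ z ∈ left i, qlaw (sh z ω) (Unbdd δ) < θ) →
      ∑ i ∈ Q, W i.1 (path i) ω ≤ θ + qlaw ω ((⋃ p, Hit δ (k : ℤ) p) \ Unbdd δ) from
    h _ (Finset.filter_subset _ _) fun i hi => (Finset.mem_filter.1 hi).2
  intro Q hQP hQ
  have hdisj : (Q : Set (Pref d)).PairwiseDisjoint fun i => cyl i.1 (path i) := fun a ha b hb hne =>
    Set.disjoint_left.mpr fun η h h' => hne (piece_unique (hP (hQP ha)) (hP (hQP hb)) h h')
  calc ∑ i ∈ Q, W i.1 (path i) ω = ∑ i ∈ Q, qlaw ω (cyl i.1 (path i)) :=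
        Finset.sum_congr rfl fun i _ => (Flux.qlaw_cyl hω _ _).symm
    _ = qlaw ω (⋃ i ∈ Q, cyl i.1 (path i)) :=
        (measure_biUnion_finset hdisj fun i _ => measurableSet_cyl _ _).symm
    _ ≤ qlaw ω ((⋃ t, FirstAt S t ∩ shift t ⁻¹' Unbdd δ) ∪ ((⋃ p, Hit δ (k : ℤ) p) \ Unbdd δ)) := by
        refine measure_mono (Set.iUnion₂_subset fun i hi η hη => ?_)
        obtain ⟨z, hz, hlt⟩ := hQ i hi
        have hiP := hQP hi
        by_cases hu : η ∈ Unbdd δ
        · obtain ⟨t, ht', rfl⟩ := mem_left.1 hz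
          obtain ⟨s, hs⟩ := Set.mem_iUnion.1 ((iUnion_firstAt S).ge (show ∃ t, pos η t ∈ S from
            ⟨t, by rw [show pos η t = pos (path i) t from pos_congr fun r hr => hη r (by omega)]
                   exact hlt⟩))
          exact Or.inl (Set.mem_iUnion.2 ⟨s, hs, unbdd_to_shift hu s⟩)
        · exact Or.inr ⟨Set.mem_iUnion.2 ⟨i.1, detBy_hit δ _ le_rfl (path i) η
            (fun r hr => (hη r hr).symm) (hP hiP).1⟩, hu⟩
    _ ≤ qlaw ω (⋃ t, FirstAt S t ∩ shift t ⁻¹' Unbdd δ) +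
          qlaw ω ((⋃ p, Hit δ (k : ℤ) p) \ Unbdd δ) := measure_union_le _ _
    _ ≤ _ := by
        refine add_le_add ?_ le_rfl
        calc qlaw ω (⋃ t, FirstAt S t ∩ shift t ⁻¹' Unbdd δ)
            ≤ ∑' t, qlaw ω (FirstAt S t ∩ shift t ⁻¹' Unbdd δ) := measure_iUnion_le _
          _ ≤ ∑' t, θ * qlaw ω (FirstAt S t) := ENNReal.tsum_le_tsum fun t =>
              (stopped_eq hω hm S t hU (a := 0) (fun x _ => bot_le) fun x hx => le_of_lt hx).2
          _ = θ * qlaw ω (⋃ t, FirstAt S t) := by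
              rw [ENNReal.tsum_mul_left,
                measure_iUnion (disjoint_firstAt S) fun t => (detBy_firstAt S t).measurableSet]
          _ ≤ θ := mul_le_of_le_one_right bot_le prob_le_one

/-- The ends of the gap, seen from the bottom of the window. -/
def gapW (μ : Measure (Step d → ℝ)) (G : Set (Pref d)) (v : Pos d) (i : Pref d) (y : Pos d) : ℝ≥0∞ :=
  mass μ {γ ∈ G | endp γ = y - endp i - v}

lemma tsum_gapW (G : Set (Pref d)) (v : Pos d) (i : Pref d) (f : Pos d → ℝ≥0∞) :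
    ∑' y, gapW μ G v i y * f y = ∑' γ : G, wt μ γ * f (endp i + endp (γ : Pref d) + v) := by
  classical
  have h : ∀ y, gapW μ G v i y =
      ∑' γ : G, if y = endp i + endp (γ : Pref d) + v then wt μ γ else 0 := by
    intro y
    rw [gapW, mass, tsum_subtype {γ ∈ G | endp γ = y - endp i - v} (wt μ),
      tsum_subtype G fun γ => if y = endp i + endp γ + v then wt μ γ else 0]
    refine tsum_congr fun γ => ?_
    by_cases hG : γ ∈ G
    · by_cases he : endp γ = y - endp i - v
      · rw [Set.indicator_of_mem (show γ ∈ {γ ∈ G | endp γ = y - endp i - v} from ⟨hG, he⟩),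
          Set.indicator_of_mem hG, if_pos (by rw [he]; abel)]
      · rw [Set.indicator_of_notMem (fun hc => he hc.2), Set.indicator_of_mem hG,
          if_neg fun hc => he (by rw [hc]; abel)]
    · rw [Set.indicator_of_notMem (fun hc => hG hc.1), Set.indicator_of_notMem hG]
  simp only [h, ← ENNReal.tsum_mul_right]
  rw [ENNReal.tsum_comm]
  refine tsum_congr fun γ => ?_
  rw [tsum_eq_single (endp i + endp (γ : Pref d) + v) fun y hy => by simp [hy], if_pos rfl]

lemma fg_le {F G t : ℝ≥0∞} (ht : t ≠ 0) (htt : t ≠ ∞) (hG : G ≤ 1) :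
    F * G ≤ t * F ^ 2 + t⁻¹ * G := by
  rcases le_total F t⁻¹ with h | h
  · exact le_add_left (mul_le_mul' h le_rfl)
  · refine le_add_right ?_
    have h1 : 1 ≤ t * F := by
      have := mul_le_mul' (le_refl t) h
      rwa [ENNReal.mul_inv_cancel ht htt] at this
    calc F * G ≤ 1 * F := by rw [one_mul]; exact mul_le_of_le_one_right bot_le hG
      _ ≤ t * F * F := mul_le_mul' h1 le_rfl
      _ = t * F ^ 2 := by ring

/-- A window is rarely entered from beyond a long gap. -/
theorem core (hμ : Elliptic μ) (hF : 0 < nu μ (Dir.Fwd (Planar.ax δ))) (hB : BudgetStmt μ δ) :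
    QStmt μ δ := by
  classical
  intro R ε hε
  have := isProbabilityMeasure_nu hμ
  have := Flux.isProbability_envLaw hμ
  set a := min ε 1 / 8
  have ha : a ≠ 0 := by simp [a, ENNReal.div_eq_zero_iff, hε]
  have hat : a ≠ ∞ :=
    ENNReal.div_ne_top (ne_top_of_le_ne_top ENNReal.one_ne_top (min_le_right _ _)) (by norm_num)
  obtain ⟨C, hC, g₁, hg₁⟩ := hB R a ha
  set t := a / (1 + C)
  have ht0 : t ≠ 0 := by simp [t, ENNReal.div_eq_zero_iff, ha, hC, ENNReal.add_eq_top]
  have htt : t ≠ ∞ := ENNReal.div_ne_top hat (by simp)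
  obtain ⟨g₂, hg₂⟩ := eventually_atTop.1
    ((ENNReal.tendsto_nhds_zero.1 (Flux.reach_null hμ δ)) a (pos_iff_ne_zero.2 ha))
  obtain ⟨g₃, hg₃⟩ := eventually_atTop.1 ((ENNReal.tendsto_nhds_zero.1 (deep_null hμ hF))
    (a * t * a) (pos_iff_ne_zero.2 (mul_ne_zero (mul_ne_zero ha ht0) ha)))
  refine ⟨max g₁ (max g₂ g₃), fun g hg k hgk hkR v hv => ?_⟩
  obtain ⟨P, G, A, e, B, hPk, hGg, hPm, hGm, hPB, hPA, hGe, hC'⟩ :=
    hg₁ g ((le_max_left _ _).trans hg) k hgk hkR
  set f : Pref d → Pref d → ℝ≥0∞ := fun i γ => nu μ (Hits (left i) (endp i + endp γ + v))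
  have hf : ∀ i γ, f i γ ≤ 1 := fun _ _ => prob_le_one
  have hG1 : mass μ G ≤ 1 := (mass_mono hGg).trans (mass_piece_le_one hμ δ g)
  -- forget the exceptional pieces and gaps
  have hdrop : meetMass μ δ g k v ≤
      (∑ i ∈ P, wt μ i * ∑' γ : G, wt μ γ * f i γ) + (a + a) := by
    have hgap : ∀ i, ∑' γ : Piece δ g, wt μ i * wt μ γ * f i γ ≤
        wt μ i * (∑' γ : G, wt μ γ * f i γ) + wt μ i * a := by
      intro i
      simp only [mul_assoc, ENNReal.tsum_mul_left, ← mul_add]
      refine mul_le_mul' le_rfl ?_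
      calc ∑' γ : Piece δ g, wt μ γ * f i γ
          ≤ ∑' γ : (G ∪ Piece δ g \ G : Set (Pref d)), wt μ γ * f i γ :=
            ENNReal.tsum_mono_subtype (fun γ => wt μ γ * f i γ) fun γ hγ => by
              by_cases hc : γ ∈ G
              · exact Or.inl hc
              · exact Or.inr ⟨hγ, hc⟩
        _ ≤ (∑' γ : G, wt μ γ * f i γ) + ∑' γ : (Piece δ g \ G : Set (Pref d)), wt μ γ * f i γ :=
            ENNReal.tsum_union_le (fun γ => wt μ γ * f i γ) _ _
        _ ≤ _ := add_le_add le_rfl ((ENNReal.tsum_le_tsum (g := fun γ : (Piece δ g \ G : Set (Pref d)) => wt μ γ)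
            fun γ => mul_le_of_le_one_right bot_le (hf i γ)).trans hGm)
    calc meetMass μ δ g k v ≤ ∑' i : Piece δ k,
          (wt μ i * (∑' γ : G, wt μ γ * f i γ) + wt μ i * a) :=
            ENNReal.tsum_le_tsum fun i => hgap i
      _ ≤ (∑' i : Piece δ k, wt μ i * (∑' γ : G, wt μ γ * f i γ)) + a := by
          rw [ENNReal.tsum_add, ENNReal.tsum_mul_right]
          exact add_le_add le_rfl (mul_le_of_le_one_left bot_le (mass_piece_le_one hμ δ k))
      _ ≤ _ := by
          rw [← add_assoc]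
          refine add_le_add ?_ le_rfl
          calc ∑' i : Piece δ k, wt μ i * (∑' γ : G, wt μ γ * f i γ)
              ≤ ∑' i : (↑P ∪ Piece δ k \ ↑P : Set (Pref d)),
                  wt μ i * (∑' γ : G, wt μ γ * f i γ) :=
                ENNReal.tsum_mono_subtype (fun i => wt μ i * (∑' γ : G, wt μ γ * f i γ))
                  fun i hi => by
                    by_cases hc : i ∈ P
                    · exact Or.inl hc
                    · exact Or.inr ⟨hi, hc⟩
            _ ≤ (∑' i : (↑P : Set (Pref d)), wt μ i * (∑' γ : G, wt μ γ * f i γ)) +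
                  ∑' i : (Piece δ k \ ↑P : Set (Pref d)), wt μ i * (∑' γ : G, wt μ γ * f i γ) :=
                ENNReal.tsum_union_le (fun i => wt μ i * (∑' γ : G, wt μ γ * f i γ)) _ _
            _ ≤ _ := by
                refine add_le_add (le_of_eq ?_) ((ENNReal.tsum_le_tsum fun i =>
                  mul_le_of_le_one_right bot_le ((ENNReal.tsum_le_tsum fun γ =>
                    mul_le_of_le_one_right bot_le (hf _ _)).trans hG1)).trans hPm)
                exact Finset.tsum_subtype' P fun i => wt μ i * (∑' γ : G, wt μ γ * f i γ)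
  set K := gapW μ G v
  set Gy : Env d → ℝ≥0∞ := fun ω => min 1 (a⁻¹ * qlaw ω (Deep δ g))
  have hDm : MeasurableSet (Deep δ g) :=
    (MeasurableSet.iUnion fun p => (detBy_hit (opp δ) _ le_rfl).measurableSet).inter
      (Flux.measurableSet_unbdd δ)
  have hGym : Measurable Gy := measurable_const.min ((Flux.measurable_qlaw hDm).const_mul _)
  set bad : Pref d → Env d → ℝ≥0∞ := fun i ω =>
    if ∃ z ∈ left i, qlaw (sh z ω) (Unbdd δ) < a then 1 else 0
  have hbadm : ∀ i, Measurable (bad i) := fun i => by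
    refine Measurable.ite ?_ measurable_const measurable_const
    simp only [Set.ofPred_exists, Set.ofPred_and]
    exact MeasurableSet.iUnion fun z => (MeasurableSet.const _).inter
      (measurableSet_lt ((Flux.measurable_qlaw (Flux.measurableSet_unbdd δ)).comp
        (Flux.measurable_sh z)) measurable_const)
  have hK1 : ∀ i ∈ P, ∑' y, K i y ≤ 1 := fun i _ => by
    have := tsum_gapW (μ := μ) G v i fun _ => 1
    simp only [mul_one] at this
    exact this.trans_le hG1
  have hKH : ∀ i ∈ P, ∀ y, K i y ≠ 0 → ht δ y = ((k + g : ℕ) : ℤ) := by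
    intro i hi y hy
    obtain ⟨γ, hγG, he⟩ : ∃ γ ∈ G, endp γ = y - endp i - v := by
      by_contra hc
      exact hy (ENNReal.tsum_eq_zero.2 fun γ => absurd ⟨γ, γ.2.1, γ.2.2⟩ hc)
    rw [show y = endp i + endp γ + v by rw [he]; abel, ht_add, ht_add, piece_end (hPk hi),
      piece_end (hGg hγG), hv]
    push_cast
    ring
  have hmW : ∀ i y, Measurable fun ω => W i.1 (path i) ω * Gy (sh y ω) := fun i y =>
    (measurable_W _ _).mul (hGym.comp (Flux.measurable_sh y))
  have hone : ∀ i ∈ P, ∀ y, K i y * (wt μ i * nu μ (Hits (left i) y)) ≤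
      K i y * (∫⁻ ω, W i.1 (path i) ω * bad i ω ∂envLaw μ) +
        K i y * ∫⁻ ω, W i.1 (path i) ω * Gy (sh y ω) ∂envLaw μ := by
    intro i hi y
    rcases eq_or_ne (K i y) 0 with h0 | h0
    · simp [h0]
    rw [← mul_add, ← lintegral_add_right _ (hmW i y)]
    refine mul_le_mul' le_rfl ((entry_le hμ i y).trans (lintegral_mono_ae ?_))
    filter_upwards [(Flux.mp_sh hμ y).quasiMeasurePreserving.ae (Flux.markov hμ),
      Flux.ae_good hμ] with ω hm hω
    rw [← mul_add]
    exact mul_le_mul' le_rfl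
      (quenched_entry ha hat (hPk hi) (hKH i hi y h0) (Flux.goodEnv_sh hω y) hm)
  have hbadsum : ∑ i ∈ P, ∫⁻ ω, W i.1 (path i) ω * bad i ω ∂envLaw μ ≤ a + a := by
    rw [← lintegral_finsetSum (f := fun i ω => W i.1 (path i) ω * bad i ω) P
      fun i _ => (measurable_W _ _).mul (hbadm i)]
    have hRm : MeasurableSet ((⋃ p, Hit δ (k : ℤ) p) \ Unbdd δ) :=
      (MeasurableSet.iUnion fun p => (detBy_hit δ _ le_rfl).measurableSet).diff
        (Flux.measurableSet_unbdd δ)
    calc ∫⁻ ω, ∑ i ∈ P, W i.1 (path i) ω * bad i ω ∂envLaw μ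
        ≤ ∫⁻ ω, a + qlaw ω ((⋃ p, Hit δ (k : ℤ) p) \ Unbdd δ) ∂envLaw μ := by
          refine lintegral_mono_ae ?_
          filter_upwards [Flux.markov hμ, Flux.ae_good hμ] with ω hm hω
          exact quenched_bad P hPk hω hm
      _ ≤ a + a := by
          rw [lintegral_add_left measurable_const, lintegral_const, measure_univ, mul_one,
            ← Flux.nu_eq_lintegral hRm]
          exact add_le_add le_rfl (hg₂ k (le_trans ((le_max_left _ _).trans
            ((le_max_right _ _).trans hg)) hgk))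
  have hflux : ∑ i ∈ P, ∑' y, K i y * ∫⁻ ω, W i.1 (path i) ω * Gy (sh y ω) ∂envLaw μ =
      ∫⁻ ω, wflux P K ω * Gy ω ∂envLaw μ := by
    have hm1 : ∀ i y, Measurable fun ω => K i y * W i.1 (path i) (sh (-y) ω) * Gy ω := fun i y =>
      (((measurable_W _ _).comp (Flux.measurable_sh _)).const_mul _).mul hGym
    simp only [wflux, Finset.sum_mul, ← ENNReal.tsum_mul_right]
    rw [lintegral_finsetSum _ fun i _ => Measurable.tsum fun y => hm1 i y]
    refine Finset.sum_congr rfl fun i _ => ?_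
    rw [lintegral_tsum fun y => (hm1 i y).aemeasurable]
    refine tsum_congr fun y => ?_
    rw [← lintegral_const_mul _ (hmW i y), ← (Flux.mp_sh hμ y).lintegral_comp (hm1 i y)]
    refine lintegral_congr fun ω => ?_
    rw [Flux.sh_sh, neg_add_cancel, Flux.sh_zero, mul_assoc]
  have hsq : ∫⁻ ω, wflux P K ω ^ 2 ∂envLaw μ ≤ 1 + C := by
    refine (Flux.wflux_sq_le hμ δ P (fun a ha b hb hne => Set.disjoint_left.mpr fun η h h' =>
      hne (piece_unique (hPk ha) (hPk hb) h h')) hPB hPA K (fun i _ y => hGe _) hK1 hKH).trans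
      (add_le_add le_rfl ?_)
    rwa [← mul_assoc]
  have hGyint : ∫⁻ ω, Gy ω ∂envLaw μ ≤ t * a := by
    refine (lintegral_mono fun ω => min_le_right _ _).trans ?_
    rw [lintegral_const_mul _ (Flux.measurable_qlaw hDm), ← Flux.nu_eq_lintegral hDm]
    refine (mul_le_mul' le_rfl (hg₃ g ((le_max_right _ _).trans ((le_max_right _ _).trans hg)))).trans
      (le_of_eq ?_)
    rw [mul_assoc a t a, ← mul_assoc, ENNReal.inv_mul_cancel ha hat, one_mul]
  have hFG : ∫⁻ ω, wflux P K ω * Gy ω ∂envLaw μ ≤ a + a := by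
    refine (lintegral_mono fun ω => fg_le ht0 htt (min_le_left _ _)).trans ?_
    rw [lintegral_add_left (((Flux.measurable_wflux P K).pow_const 2).const_mul t),
      lintegral_const_mul _ ((Flux.measurable_wflux P K).pow_const 2), lintegral_const_mul _ hGym]
    refine add_le_add ((mul_le_mul' le_rfl hsq).trans (le_of_eq ?_))
      ((mul_le_mul' le_rfl hGyint).trans (le_of_eq ?_))
    · exact ENNReal.div_mul_cancel (by simp) (by simp [hC])
    · rw [← mul_assoc, ENNReal.inv_mul_cancel ht0 htt, one_mul]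
  have hmain : ∑ i ∈ P, wt μ i * ∑' γ : G, wt μ γ * f i γ ≤ (a + a) + (a + a) := by
    calc ∑ i ∈ P, wt μ i * ∑' γ : G, wt μ γ * f i γ
        = ∑ i ∈ P, ∑' y, K i y * (wt μ i * nu μ (Hits (left i) y)) := by
          refine Finset.sum_congr rfl fun i _ => ?_
          rw [tsum_gapW G v i fun y => wt μ i * nu μ (Hits (left i) y), ← ENNReal.tsum_mul_left]
          exact tsum_congr fun γ => by simp only [f]; ring
      _ ≤ ∑ i ∈ P, ((∫⁻ ω, W i.1 (path i) ω * bad i ω ∂envLaw μ) +
            ∑' y, K i y * ∫⁻ ω, W i.1 (path i) ω * Gy (sh y ω) ∂envLaw μ) := by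
          refine Finset.sum_le_sum fun i hi => (ENNReal.tsum_le_tsum fun y => hone i hi y).trans ?_
          rw [ENNReal.tsum_add, ENNReal.tsum_mul_right]
          exact add_le_add (mul_le_of_le_one_left bot_le (hK1 i hi)) le_rfl
      _ ≤ _ := by
          rw [Finset.sum_add_distrib, hflux]
          exact add_le_add hbadsum hFG
  calc meetMass μ δ g k v ≤ _ := hdrop.trans (add_le_add hmain le_rfl)
    _ ≤ 8 * a := by
        rw [show a + a + (a + a) + (a + a) = 6 * a by ring]
        exact mul_le_mul' (by norm_num) le_rfl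
    _ = min ε 1 := by rw [mul_comm]; exact ENNReal.div_mul_cancel (by norm_num) (by norm_num)
    _ ≤ ε := min_le_left _ _

end Vale.Agent.P147.Window
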