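import Vale.Agent.P147.Window.WindowFlux

/-!
P147: both strands of a switched path are cut at deterministic levels into independent pieces; the
definitions and module statements for the theorem that one escaping side of moderate range, in
particular one with positive speed in dimension at least three, excludes the other side.
-/

open MeasureTheory Filter
open scoped ENNReal Topology

noncomputable section

namespace Vale.Agent.P147.Window

open Flux (Pref path endp left)

variable {d : ℕ} [NeZero d]

/-- The pieces climbing `m` levels: they stop at the first visit of level `m`, never going back. -/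
def Piece (δ : Step d) (m : ℕ) : Set (Pref d) := {i | path i ∈ Flux.Climb δ m i.1}

/-- The annealed weight of a prefix. -/
def wt (μ : Measure (Step d → ℝ)) (i : Pref d) : ℝ≥0∞ := w μ i.1 (path i)

/-- The total weight of a family of prefixes. -/
def mass (μ : Measure (Step d → ℝ)) (S : Set (Pref d)) : ℝ≥0∞ := ∑' i : S, wt μ i

open Classical in
/-- The sites left by a piece whose top is at `x`. -/
def low (i : Pref d) (x : Pos d) : Finset (Pos d) := (left i).image fun z => x - endp i + z

open Classical in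
/-- All sites of a piece starting at `y`, its last one included. -/
def trace (i : Pref d) (y : Pos d) : Finset (Pos d) :=
  (Finset.range (i.1 + 1)).image fun t => y + pos (path i) t

/-- The lower ends of the two strands and the sites left by the last piece of the climbing one. -/
structure St (d : ℕ) where
  x : Pos d
  y : Pos d
  last : Finset (Pos d)

open Classical in
/-- The two strands can go on by a climbing piece below `x` and a descending piece from `y`. -/
def Compat (s : St d) (i j : Pref d) : Prop := Disjoint (trace j s.y) (s.last ∪ low i s.x)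

/-- The state after the two strands went on. -/
def St.step (s : St d) (i j : Pref d) : St d := ⟨s.x - endp i, s.y + endp j, low i s.x⟩

open Classical in
/-- The weight of disjoint continuations through the bands of the given heights. -/
def surv (μ : Measure (Step d → ℝ)) (δ : Step d) : List ℕ → St d → ℝ≥0∞
  | [], _ => 1
  | m :: ms, s => ∑' i : Piece δ m, ∑' j : Piece (opp δ) m,
      if Compat s i j then wt μ i * wt μ j * surv μ δ ms (s.step i j) else 0

/-- The start: the apex, and the start of the descending strand `l` steps aside. -/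
def start (j : Fin d) (l : ℕ) : St d := ⟨0, (l : ℤ) • vec ((j, true) : Step d), {0}⟩

/-- The walks from `y` that enter `U`. -/
def Hits (U : Finset (Pos d)) (y : Pos d) : Set (ℕ → Step d) := {η | ∃ t, y + pos η t ∈ U}

/-- The weight of a window of height `k` under a gap of height `g`, times the chance that a walk
from the top of the gap, moved by `v`, enters the window. -/
def meetMass (μ : Measure (Step d → ℝ)) (δ : Step d) (g k : ℕ) (v : Pos d) : ℝ≥0∞ :=
  ∑' i : Piece δ k, ∑' γ : Piece δ g,
    wt μ i * wt μ γ * nu μ (Hits (left (i : Pref d)) (endp (i : Pref d) + endp (γ : Pref d) + v))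

open Classical in
/-- The number of sites left by a prefix at a given level. -/
def levelCount (δ : Step d) (i : Pref d) (j : ℤ) : ℕ := ((left i).filter fun z => ht δ z = j).card

/-- Module Mass: pieces of every height keep a positive weight. -/
def MassStmt (μ : Measure (Step d → ℝ)) (δ : Step d) : Prop :=
  ∃ c : ℝ≥0∞, c ≠ 0 ∧ ∀ m, c ≤ mass μ (Piece δ m)

/-- Module Switch: the disjoint pairs of strands have finite total weight over all depths. -/
def SwitchStmt (μ : Measure (Step d → ℝ)) (δ : Step d) : Prop :=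
  ∀ j : Fin d, j ≠ δ.1 → ∀ l : ℕ, 1 ≤ l → ∀ sched : ℕ → List ℕ,
    (∀ n, (sched n).sum = n ∧ ∀ m ∈ sched n, 1 ≤ m) →
      ∑' n, surv μ δ (sched n) (start j l) ≠ ∞

/-- Module Core: a window is rarely met from beyond a long gap. -/
def QStmt (μ : Measure (Step d → ℝ)) (δ : Step d) : Prop :=
  ∀ R : ℕ, ∀ ε : ℝ≥0∞, ε ≠ 0 → ∃ g₀, ∀ g, g₀ ≤ g → ∀ k, g ≤ k → k ≤ R * g →
    ∀ v : Pos d, ht δ v = 0 → meetMass μ δ g k v ≤ ε

/-- Module Budget: windows of moderate range under spread out gaps. -/
def BudgetStmt (μ : Measure (Step d → ℝ)) (δ : Step d) : Prop :=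
  ∀ R : ℕ, ∀ ε : ℝ≥0∞, ε ≠ 0 → ∃ C : ℝ≥0∞, C ≠ ∞ ∧ ∃ g₀, ∀ g, g₀ ≤ g → ∀ k, g ≤ k → k ≤ R * g →
    ∃ (P : Finset (Pref d)) (G : Set (Pref d)) (A e : ℝ≥0∞) (B : ℕ),
      ↑P ⊆ Piece δ k ∧ G ⊆ Piece δ g ∧
      mass μ (Piece δ k \ ↑P) ≤ ε ∧ mass μ (Piece δ g \ G) ≤ ε ∧
      (∀ i ∈ P, (left i).card ≤ B) ∧
      (∀ j : ℤ, ∑ i ∈ P, wt μ i * levelCount δ i j ≤ A) ∧
      (∀ u : Pos d, mass μ {i ∈ G | endp i = u} ≤ e) ∧
      e * A * B ≤ C

/-- Module Gap: the ends of long pieces are spread out at diffusive scale. -/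
def GapStmt (μ : Measure (Step d → ℝ)) (δ : Step d) : Prop :=
  ∀ ε : ℝ≥0∞, ε ≠ 0 → ∃ C : ℝ≥0∞, C ≠ ∞ ∧ ∃ g₀, ∀ g, g₀ ≤ g →
    ∃ G : Set (Pref d), G ⊆ Piece δ g ∧ mass μ (Piece δ g \ G) ≤ ε ∧
      ∀ u : Pos d, mass μ {i ∈ G | endp i = u} ≤ C * ENNReal.ofReal (1 / √(g : ℝ)) ^ (d - 1)

/-- Module Win: pieces are short in time and leave boundedly many sites at each level in mean. -/
def WinStmt (μ : Measure (Step d → ℝ)) (δ : Step d) : Prop :=
  ∀ ε : ℝ≥0∞, ε ≠ 0 → ∃ A : ℝ≥0∞, A ≠ ∞ ∧ ∃ K : ℕ, ∀ k,
    mass μ {i ∈ Piece δ k | K * (k + 1) < i.1} ≤ ε ∧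
      ∀ j : ℤ, ∑' i : Piece δ k, wt μ i * levelCount δ i j ≤ A

/-- Module Strip: if no walk can descend for ever, every walk climbs to every level. -/
def StripStmt (μ : Measure (Step d → ℝ)) (δ : Step d) : Prop :=
  0 < nu μ (Dir.Fwd (Planar.ax δ)) → nu μ (NoBack (opp δ) ∩ Unbdd (opp δ)) = 0 →
    nu μ (Unbdd δ) = 1

end Vale.Agent.P147.Window
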