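import Vale.Agent.P147.Window.SlowWin

/-!
P147: blocks leaving few sites keep the windows within the budget, whatever time they take.
-/

open MeasureTheory Filter
open scoped ENNReal Topology

noncomputable section

namespace Vale.Agent.P147.Window

open Flux (Pref path endp left)

variable {d : ℕ}

open Classical in
/-- The sites of the first `n` steps. -/
def seen (η : ℕ → Step d) (n : ℕ) : Finset (Pos d) := (Finset.range n).image (pos η)

lemma mem_seen {η : ℕ → Step d} {n : ℕ} {z : Pos d} : z ∈ seen η n ↔ ∃ t < n, pos η t = z := by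
  simp [seen]

lemma seen_congr {η η' : ℕ → Step d} {n : ℕ} (h : ∀ t < n, η t = η' t) :
    seen η n = seen η' n := by
  classical
  exact Finset.image_congr fun t ht =>
    pos_congr fun s hs => h s (hs.trans (Finset.mem_range.1 (Finset.mem_coe.1 ht)))

lemma seen_mono {η : ℕ → Step d} {m n : ℕ} (h : m ≤ n) : seen η m ⊆ seen η n := fun z hz => by
  obtain ⟨t, ht, e⟩ := mem_seen.1 hz
  exact mem_seen.2 ⟨t, by omega, e⟩

open Classical in
lemma seen_add (η : ℕ → Step d) (a b : ℕ) :
    seen η (a + b) = seen η a ∪ (seen (shift a η) b).image fun z => pos η a + z := by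
  ext z
  simp only [Finset.mem_union, Finset.mem_image, mem_seen]
  constructor
  · rintro ⟨t, ht, rfl⟩
    rcases lt_or_ge t a with h | h
    · exact Or.inl ⟨t, h, rfl⟩
    · obtain ⟨u, rfl⟩ := Nat.exists_eq_add_of_le h
      exact Or.inr ⟨_, ⟨u, by omega, rfl⟩, (pos_add η a u).symm⟩
  · rintro (⟨t, ht, rfl⟩ | ⟨_, ⟨u, hu, rfl⟩, rfl⟩)
    · exact ⟨t, by omega, rfl⟩
    · exact ⟨a + u, by omega, pos_add η a u⟩

lemma card_seen_shift (η : ℕ → Step d) (a b : ℕ) :
    (seen (shift a η) b).card ≤ (seen η (a + b)).card := by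
  classical
  rw [← Finset.card_image_of_injective (seen (shift a η) b) (add_right_injective (pos η a))]
  exact Finset.card_le_card (seen_add η a b ▸ Finset.subset_union_right)

/-- The longest initial stretch within `n` steps leaving at most `B` sites. -/
def cut (B n : ℕ) (η : ℕ → Step d) : ℕ := Nat.findGreatest (fun s => (seen η s).card ≤ B) n

lemma card_cut (B n : ℕ) (η : ℕ → Step d) : (seen η (cut B n η)).card ≤ B := by
  exact Nat.findGreatest_spec (P := fun s => (seen η s).card ≤ B) (Nat.zero_le n) (by simp [seen])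

lemma le_cut {B n s : ℕ} {η : ℕ → Step d} (h : s ≤ n) (hs : (seen η s).card ≤ B) :
    s ≤ cut B n η := Nat.le_findGreatest h hs

lemma cut_le (B n : ℕ) (η : ℕ → Step d) : cut B n η ≤ n := Nat.findGreatest_le n

lemma cut_congr {B n : ℕ} {η η' : ℕ → Step d} (h : ∀ t < n, η t = η' t) :
    cut B n η = cut B n η' := by
  have key : ∀ m ≤ n, cut B m η = cut B m η' := by
    intro m
    induction m with
    | zero => intro _; simp [cut]
    | succ m ih =>
      intro hm
      have e : seen η (m + 1) = seen η' (m + 1) := seen_congr fun t ht => h t (by omega)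
      have := ih (by omega)
      simp only [cut] at this ⊢
      simp only [Nat.findGreatest_succ, e, this]
  exact key n le_rfl

open Classical in
/-- The sites left at level `j` by a path before it has left more than `B` sites or passed `n`. -/
def cutLevel (δ : Step d) (B n : ℕ) (j : ℤ) (η : ℕ → Step d) : ℝ≥0∞ :=
  (((seen η (cut B n η)).filter fun z => ht δ z = j).card : ℝ≥0∞)

open Classical in
/-- The same at all levels up to `j`. -/
def cutBelow (δ : Step d) (B n : ℕ) (j : ℤ) (η : ℕ → Step d) : ℝ≥0∞ :=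
  (((seen η (cut B n η)).filter fun z => ht δ z ≤ j).card : ℝ≥0∞)

variable [NeZero d] {μ : Measure (Step d → ℝ)} {δ : Step d}

lemma measurable_cutLevel (δ : Step d) (B n : ℕ) (j : ℤ) : Measurable (cutLevel δ B n j) :=
  measurable_of_det (H := n) fun η η' h => by
    have e := cut_congr (B := B) h
    have := cut_le B n η'
    simp only [cutLevel, e, seen_congr (n := cut B n η') fun t ht => h t (by omega)]

lemma measurable_cutBelow (δ : Step d) (B n : ℕ) (j : ℤ) : Measurable (cutBelow δ B n j) :=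
  measurable_of_det (H := n) fun η η' h => by
    have e := cut_congr (B := B) h
    have := cut_le B n η'
    simp only [cutBelow, e, seen_congr (n := cut B n η') fun t ht => h t (by omega)]

/-- The number of sites of the first block. -/
def blkR (l : Fin d → ℝ) (η : ℕ → Step d) : ℕ := (seen η (Dir.tau l η)).card

omit [NeZero d] in
lemma blockFun_blkR (l : Fin d → ℝ) : Dir.BlockFun l (blkR l) := fun η η' _ _ _ _ h5 h6 => by
  rw [blkR, blkR, ← h5, seen_congr h6]

lemma measurable_blkR (hR : Dir.Regen μ (Planar.ax δ)) : Measurable (blkR (Planar.ax δ)) :=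
  Dir.measurable_at_tau hR.measurable_tau (F := fun n η => (seen η n).card) fun n =>
    measurable_of_det (H := n) fun _ _ h => by rw [seen_congr h]

omit [NeZero d] in
/-- Different blocks leave different sites. -/
lemma sum_blkR_le {l : Fin d → ℝ} {η : ℕ → Step d}
    (hη : ∀ r, (Dir.next l)^[r] η ∈ Dir.Fwd l ∧ ∃ t, Dir.RegT l ((Dir.next l)^[r] η) t) (k : ℕ) :
    ∑ r ∈ Finset.range k, blkR l ((Dir.next l)^[r] η) ≤ (seen η (Dir.ctime l k η)).card := by
  classical
  induction k with
  | zero => simp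
  | succ k ih =>
    rw [Finset.sum_range_succ, Dir.ctime_succ, seen_add, ← Dir.next_iterate,
      Finset.card_union_of_disjoint, Finset.card_image_of_injective _ (add_right_injective _)]
    · exact Nat.add_le_add ih le_rfl
    · refine Finset.disjoint_left.2 fun z hz hz' => ?_
      obtain ⟨t, ht, rfl⟩ := mem_seen.1 hz
      obtain ⟨w, hw, e⟩ := Finset.mem_image.1 hz'
      obtain ⟨s, -, rfl⟩ := mem_seen.1 hw
      have h1 := Dir.lh_lt_ctime (fun r => (hη r).2) k ht
      have h2 := (hη k).1.1 s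
      simp only [Dir.lh, ← e, Dir.lht_add] at h1 h2
      linarith

omit [NeZero d] in
/-- Cutting after several blocks: the first block, then the others. -/
lemma cutLevel_add (B a b : ℕ) (j : ℤ) (η : ℕ → Step d) :
    cutLevel δ B (a + b) j η ≤
      cutLevel δ B a j η + cutLevel δ B b (j - hgt δ η a) (shift a η) := by
  classical
  simp only [cutLevel]
  rw [← Nat.cast_add, Nat.cast_le]
  have hcard := card_cut B (a + b) η
  have hcut := cut_le B (a + b) η
  generalize cut B (a + b) η = c at hcard hcut ⊢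
  rcases le_or_gt c a with h | h
  · exact (Finset.card_le_card (Finset.filter_subset_filter _
      (seen_mono (le_cut h hcard)))).trans (Nat.le_add_right _ _)
  · obtain ⟨u, rfl⟩ := Nat.exists_eq_add_of_le h.le
    rw [seen_add, Finset.filter_union]
    refine (Finset.card_union_le _ _).trans (Nat.add_le_add (Finset.card_le_card
      (Finset.filter_subset_filter _ (seen_mono (le_cut le_rfl
        ((Finset.card_le_card (seen_mono (by omega))).trans hcard))))) ?_)
    have hu : u ≤ cut B b (shift a η) :=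
      le_cut (by omega) ((card_seen_shift η a u).trans hcard)
    rw [Finset.filter_image]
    refine Finset.card_image_le.trans (Finset.card_le_card fun z hz => ?_)
    rw [Finset.mem_filter] at hz ⊢
    refine ⟨seen_mono hu hz.1, ?_⟩
    have := hz.2
    rw [ht_add] at this
    simp only [hgt]
    omega

omit [NeZero d] in
lemma cutLevel_below (B n : ℕ) (j : ℤ) (η : ℕ → Step d) :
    cutLevel δ B n j η + cutBelow δ B n (j - 1) η = cutBelow δ B n j η := by
  classical
  simp only [cutLevel, cutBelow]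
  rw [← Nat.cast_add, ← Finset.card_union_of_disjoint
    (Finset.disjoint_filter.2 fun z _ h1 h2 => by omega), ← Finset.filter_or]
  congr 2
  exact Finset.filter_congr fun z _ => by omega

omit [NeZero d] in
lemma cutLevel_zero (B : ℕ) (j : ℤ) (η : ℕ → Step d) : cutLevel δ B 0 j η = 0 := by
  have h : cut B 0 η = 0 := Nat.le_zero.1 (cut_le B 0 η)
  simp [cutLevel, h, seen]

omit [NeZero d] in
lemma cutBelow_le (B n : ℕ) (j : ℤ) (η : ℕ → Step d) :
    cutBelow δ B n j η ≤ ((min (seen η n).card B : ℕ) : ℝ≥0∞) := by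
  classical
  simp only [cutBelow, Nat.cast_le]
  exact le_min ((Finset.card_filter_le _ _).trans (Finset.card_le_card (seen_mono (cut_le _ _ _))))
    ((Finset.card_filter_le _ _).trans (card_cut _ _ _))

omit [NeZero d] in
lemma cutBelow_mono (B n : ℕ) {a b : ℤ} (hab : a ≤ b) (η : ℕ → Step d) :
    cutBelow δ B n a η ≤ cutBelow δ B n b η := by
  classical
  simp only [cutBelow, Nat.cast_le]
  exact Finset.card_le_card (Finset.monotone_filter_right _ fun z _ hz => le_trans hz hab)

omit [NeZero d] in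
lemma card_filter_le_cutLevel {B n p : ℕ} (hp : p ≤ n) {η : ℕ → Step d}
    (hB : (seen η p).card ≤ B) (j : ℤ) :
    ((((seen η p).filter fun z => ht δ z = j).card : ℕ) : ℝ≥0∞) ≤ cutLevel δ B n j η := by
  classical
  simp only [cutLevel, Nat.cast_le]
  exact Finset.card_le_card (Finset.filter_subset_filter _ (seen_mono (le_cut hp hB)))

attribute [local irreducible] cut cutLevel cutBelow

lemma measurable_cutLevel_ctime (hR : Dir.Regen μ (Planar.ax δ)) (B M : ℕ) (j : ℤ) :
    Measurable fun η => cutLevel δ B (Dir.ctime (Planar.ax δ) M η) j η :=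
  (measurable_from_prod_countable_left (f := fun r : (ℕ → Step d) × ℕ => cutLevel δ B r.2 j r.1)
    fun n => measurable_cutLevel δ B n j).comp
    (measurable_id.prodMk (Flux.measurable_ctime hR M))

/-- The sites at one level before `B` sites are left are at most a cut block range in mean. -/
lemma cutLevel_mean_le (hR : Dir.Regen μ (Planar.ax δ)) (B k : ℕ) (j : ℤ) :
    ∫⁻ η, cutLevel δ B (Dir.ctime (Planar.ax δ) k η) j η ∂Dir.fwdLaw μ (Planar.ax δ) ≤
      ∫⁻ η, ((min (blkR (Planar.ax δ) η) B : ℕ) : ℝ≥0∞) ∂Dir.fwdLaw μ (Planar.ax δ) := by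
  classical
  have := hR.prob
  set l := Planar.ax δ
  set P := Dir.fwdLaw μ l
  set lw : ℤ → (ℕ → Step d) → ℝ≥0∞ := fun j η => cutBelow δ B (Dir.tau l η) j η with hlw
  have hlwm : ∀ j, Measurable (lw j) := fun j => Dir.measurable_at_tau hR.measurable_tau
    (F := fun n η => cutBelow δ B n j η) fun n => measurable_cutBelow δ B n j
  set q : ℤ → (ℕ → Step d) → ℝ≥0∞ := fun j η => cutLevel δ B (Dir.tau l η) j η with hq
  have hqm : ∀ j, Measurable (q j) := fun j => Dir.measurable_at_tau hR.measurable_tau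
    (F := fun n η => cutLevel δ B n j η) fun n => measurable_cutLevel δ B n j
  set g : ℕ → ℤ → (ℕ → Step d) → ℝ≥0∞ := fun M i η => cutLevel δ B (Dir.ctime l M η) i η with hg
  have hgm : ∀ M i, Measurable (g M i) := fun M i => measurable_cutLevel_ctime hR B M i
  set H : (ℕ → Step d) → ℤ := fun η => hgt δ η (Dir.tau l η)
  have hHm : Measurable H :=
    Dir.measurable_at_tau hR.measurable_tau (F := fun n η => hgt δ η n) (measurable_hgt δ)
  set f : ℤ → (ℕ → Step d) → ℝ≥0∞ := fun i η => if H η = i then 1 else 0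
  have hfm : ∀ i, Measurable (f i) := fun i =>
    Measurable.ite (hHm (measurableSet_singleton i)) measurable_const measurable_const
  have hfb : ∀ i, Dir.BlockFun l (f i) := fun i η η' _ _ _ _ h5 h6 => by
    have h7 : H η = H η' := by simp only [H, ← h5]; exact hgt_congr δ h6
    simp only [f, h7]
  have hrec : ∀ M i η, g (M + 1) i η ≤ q i η + ∑' z, f z η * g M (i - z) (Dir.next l η) := by
    intro M i η
    have htsum : ∑' z, f z η * g M (i - z) (Dir.next l η) = g M (i - H η) (Dir.next l η) := by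
      rw [tsum_eq_single (H η) fun z hz => by simp [f, Ne.symm hz]]
      simp [f]
    rw [htsum]
    simp only [hg, hq, Flux.ctime_succ', l]
    exact cutLevel_add B _ _ i η
  have hsplit : ∀ i η, q i η + lw (i - 1) η = lw i η := fun i η => cutLevel_below B _ i η
  have hmono : ∀ {a b : ℤ}, a ≤ b → ∀ η, lw a η ≤ lw b η := fun hab η => cutBelow_mono B _ hab η
  have hbound : ∀ M i, ∫⁻ η, g M i η ∂P ≤ ∫⁻ η, lw i η ∂P := by
    intro M
    induction M with
    | zero => intro i; simp [hg, cutLevel_zero, Dir.ctime]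
    | succ M ih =>
      intro i
      have hgn : ∀ z, Measurable fun η => f z η * g M (i - z) (Dir.next l η) := fun z =>
        (hfm z).mul ((hgm M _).comp hR.preserving.measurable)
      have hz : ∀ z, ∫⁻ η, f z η * g M (i - z) (Dir.next l η) ∂P ≤
          (∫⁻ η, f z η ∂P) * ∫⁻ η, lw (i - 1) η ∂P := fun z => by
        have hind := hR.lintegral_mul (hfm z) (hgm M (i - z)) (hfb z) (i := 0) (j := 1) zero_lt_one
        simp only [Function.iterate_zero, id_eq, Function.iterate_one] at hind
        rw [hind]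
        change (∫⁻ η, f z η ∂P) * _ ≤ _
        rcases lt_or_ge z 1 with hz | hz
        · have h0 : ∫⁻ η, f z η ∂P = 0 := by
            refine (lintegral_congr_ae ?_).trans lintegral_zero
            filter_upwards [hR.blocks] with η hη
            have := (Planar.cand_ax.mp (Dir.tau_spec (hη 0).2).1).1
            simp only [Function.iterate_zero, id_eq] at this
            exact if_neg (show hgt δ η (Dir.tau l η) ≠ z by omega)
          simp [h0]
        · exact mul_le_mul' le_rfl ((ih (i - z)).trans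
            (lintegral_mono fun η => hmono (show i - z ≤ i - 1 by omega) η))
      calc ∫⁻ η, g (M + 1) i η ∂P
          ≤ ∫⁻ η, q i η + ∑' z, f z η * g M (i - z) (Dir.next l η) ∂P := lintegral_mono (hrec M i)
        _ = ∫⁻ η, q i η ∂P + ∑' z, ∫⁻ η, f z η * g M (i - z) (Dir.next l η) ∂P := by
            rw [lintegral_add_left (hqm i), lintegral_tsum fun z => (hgn z).aemeasurable]
        _ ≤ ∫⁻ η, q i η ∂P + (∑' z, ∫⁻ η, f z η ∂P) * ∫⁻ η, lw (i - 1) η ∂P := by
            rw [← ENNReal.tsum_mul_right]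
            exact add_le_add le_rfl (ENNReal.tsum_le_tsum hz)
        _ = ∫⁻ η, lw i η ∂P := by
            have htot : ∀ η, ∑' z, f z η = 1 := fun η => by
              rw [tsum_eq_single (H η) fun z hz => if_neg (Ne.symm hz)]
              exact if_pos rfl
            rw [← lintegral_tsum fun z => (hfm z).aemeasurable, lintegral_congr htot,
              lintegral_const, measure_univ, mul_one, one_mul,
              ← lintegral_add_right _ (hlwm (i - 1))]
            exact lintegral_congr (hsplit i)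
  exact (hbound k j).trans (lintegral_mono fun η => cutBelow_le B _ j η)

/-- Blocks leaving of the order of `k ^ ((d + 1) / 4)` sites keep the windows within the budget. -/
theorem budget_range (hμ : Elliptic μ) (hR : Dir.Regen μ (Planar.ax δ)) (hgap : GapStmt μ δ)
    (hcap : ∀ ε : ℝ≥0∞, ε ≠ 0 → ∃ K : ℕ, ∀ k : ℕ, Dir.fwdLaw μ (Planar.ax δ)
      {η | (K : ℝ) * ((k : ℝ) + 1) ^ (((d : ℝ) + 1) / 4) <
        ((seen η (Dir.ctime (Planar.ax δ) k η)).card : ℝ)} ≤ ε) :
    BudgetStmt μ δ := by
  classical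
  have := isProbabilityMeasure_nu hμ
  have := hR.prob
  set l := Planar.ax δ
  set P := Dir.fwdLaw μ l
  set a := ((d : ℝ) + 1) / 4 with ha
  have hfwd : ∀ g : (ℕ → Step d) → ℝ≥0∞, ∫⁻ η, (Dir.Fwd l).indicator g η ∂nu μ =
      nu μ (Dir.Fwd l) * ∫⁻ η, g η ∂P := fun g => by
    rw [lintegral_indicator Dir.measurableSet_fwd]
    simp only [P, Dir.fwdLaw, lintegral_smul_measure, smul_eq_mul]
    rw [← mul_assoc, ENNReal.mul_inv_cancel hR.pos.ne' (measure_ne_top _ _), one_mul]
  have hpd : ∀ {X Y : ℝ≥0∞}, X * nu μ (Dir.Fwd l) ≤ nu μ (Dir.Fwd l) * Y → X ≤ Y := fun h' => by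
    rw [mul_comm] at h'
    exact (ENNReal.mul_le_mul_iff_right hR.pos.ne' (measure_ne_top _ _)).1 h'
  intro R ε hε
  obtain ⟨C₁, hC₁, g₁, hG⟩ := hgap ε hε
  obtain ⟨K, hK⟩ := hcap (min (ε / 2) (1 / 4)) (by simp [hε])
  set s₀ := ENNReal.ofReal (√((R : ℝ) + 1)) ^ (d - 1)
  refine ⟨C₁ * s₀ * ENNReal.ofReal (8 * ((K : ℝ) + 3 / 2) ^ 2),
    ENNReal.mul_ne_top (ENNReal.mul_ne_top hC₁ (ENNReal.pow_ne_top ENNReal.ofReal_ne_top))
      ENNReal.ofReal_ne_top, max g₁ 1, fun g hg k _ hkR => ?_⟩
  obtain ⟨G, hGp, hGm, hGe⟩ := hG g (le_of_max_le_left hg)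
  have hg1 : (1 : ℝ) ≤ g := by exact_mod_cast le_of_max_le_right hg
  set L := ⌈((K : ℝ) + 1 / 2) * ((k : ℝ) + 1) ^ a⌉₊ with hL
  have hk1 : (1 : ℝ) ≤ ((k : ℝ) + 1) ^ a := Real.one_le_rpow (by simp) (by positivity)
  have hL0 : 0 < L := Nat.ceil_pos.2 (by positivity)
  have hlate : P {η | L < (seen η (Dir.ctime l k η)).card} ≤ min (ε / 2) (1 / 4) := by
    refine le_trans (measure_mono fun η hη => ?_) (hK k)
    have h1 : (L : ℝ) < ((seen η (Dir.ctime l k η)).card : ℕ) := Nat.cast_lt.2 hη
    have h2 := Nat.le_ceil (((K : ℝ) + 1 / 2) * ((k : ℝ) + 1) ^ a)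
    rw [← hL] at h2
    show (K : ℝ) * ((k : ℝ) + 1) ^ a < _
    nlinarith
  set Bad := {η : ℕ → Step d | ¬ ∀ r, ∃ t, Dir.RegT l ((Dir.next l)^[r] η) t}
  have hbad : P Bad = 0 := by
    refine measure_eq_zero_iff_ae_notMem.2 ?_
    filter_upwards [hR.blocks] with η hη hb
    exact hb fun r => (hη r).2
  -- a piece ends before the regenerations of its paths
  have hend : ∀ i ∈ Piece δ k, ∀ η ∈ Flux.cone δ i, η ∉ Bad →
      i.1 ≤ Dir.ctime l k η ∧ left i = seen η i.1 := by
    intro i hi η hη hb
    simp only [Bad, Set.mem_ofPred_eq, not_not] at hb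
    refine ⟨?_, ?_⟩
    · have h1 := Dir.le_lh_ctime hb k
      rw [Planar.lh_ax] at h1
      obtain ⟨p, hp, hit⟩ := exists_hit δ (j := k) (n := Dir.ctime l k η) (η := η)
        (by exact_mod_cast h1)
      have := hit_unique ((Flux.climb_congr fun t ht => (hη.1 t ht).symm).1 hi).1 hit
      omega
    · exact (seen_congr (η := η) (η' := path i) fun t ht => hη.1 t ht).symm
  have hwide : mass μ {i ∈ Piece δ k | L < (left i).card} ≤ ε / 2 := by
    refine hpd ?_
    have h1 := piece_mean_le hμ k (fun i => if L < (left i).card then 1 else 0)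
      (fun η => ({η : ℕ → Step d | L < (seen η (Dir.ctime l k η)).card} ∪ Bad).indicator
        (fun _ => 1) η) (δ := δ) fun i hi η hη => by
        split_ifs with hlt
        · refine (Set.indicator_of_mem (f := fun _ => (1 : ℝ≥0∞)) ?_).ge
          by_cases hb : η ∈ Bad
          · exact Or.inr hb
          obtain ⟨h2, h3⟩ := hend i hi η hη hb
          exact Or.inl (lt_of_lt_of_le (h3 ▸ hlt) (Finset.card_le_card (seen_mono h2)))
        · exact zero_le
    rw [hfwd] at h1
    refine le_trans (le_trans (mul_le_mul' ?_ le_rfl) h1) (mul_le_mul' le_rfl ?_)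
    · refine le_trans (ENNReal.tsum_le_tsum fun i => ?_)
        (ENNReal.tsum_comp_le_tsum_of_injective
          (f := fun i : {i ∈ Piece δ k | L < (left i).card} => (⟨i.1, i.2.1⟩ : Piece δ k))
          (fun a b h => Subtype.ext (congrArg (fun x : Piece δ k => (x : Pref d)) h))
          fun i : Piece δ k => wt μ i * if L < (left (i : Pref d)).card then 1 else 0)
      rw [if_pos i.2.2, mul_one]
    · refine (lintegral_indicator_const_le _ _).trans ?_
      rw [one_mul]
      refine (measure_union_le _ _).trans ?_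
      rw [hbad, add_zero]
      exact hlate.trans (min_le_left _ _)
  -- finitely many narrow pieces carry all but `ε` of the mass
  set T : Set (Pref d) := {i ∈ Piece δ k | (left i).card ≤ L} with hT
  have hTfin : ∑' i : T, wt μ i ≠ ∞ := ne_top_of_le_ne_top ENNReal.one_ne_top
    (((mass_mono fun i hi => hi.1).trans (mass_piece_le_one hμ δ k)))
  obtain ⟨S, hS⟩ : ∃ S : Finset T, ∑' i : {i : T // i ∉ S}, wt μ ((i : T) : Pref d) ≤ ε / 2 :=
    ((ENNReal.tendsto_nhds_zero.1 (ENNReal.tendsto_tsum_compl_atTop_zero hTfin)) (ε / 2)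
      (ENNReal.half_pos hε)).exists
  set Q : Finset (Pref d) := S.map (Function.Embedding.subtype _) with hQ
  have hQT : ∀ i ∈ Q, i ∈ T := fun i hi => by
    obtain ⟨x, -, rfl⟩ := Finset.mem_map.1 hi
    exact x.2
  have hrest : mass μ (Piece δ k \ ↑Q) ≤ ε := by
    refine le_trans (le_trans (ENNReal.tsum_mono_subtype (wt μ)
      (t := {i ∈ Piece δ k | L < (left i).card} ∪ (T \ ↑Q)) fun i hi => ?_)
      (ENNReal.tsum_union_le (wt μ) _ _)) ((add_le_add hwide ?_).trans_eq (ENNReal.add_halves ε))
    · by_cases h : (left i).card ≤ L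
      · exact Or.inr ⟨⟨hi.1, h⟩, hi.2⟩
      · exact Or.inl ⟨hi.1, not_le.1 h⟩
    · refine le_trans (ENNReal.tsum_comp_le_tsum_of_injective
        (f := fun i : (T \ ↑Q : Set (Pref d)) => (⟨⟨i.1, i.2.1⟩, fun h => i.2.2 (Finset.mem_coe.2
          (Finset.mem_map_of_mem (Function.Embedding.subtype _) h))⟩ : {x : T // x ∉ S}))
        (fun a b h => Subtype.ext (congrArg (fun x : {x : T // x ∉ S} => ((x : T) : Pref d)) h))
        fun x : {x : T // x ∉ S} => wt μ ((x : T) : Pref d)) hS
  set m := ∫⁻ η, ((min (blkR l η) L : ℕ) : ℝ≥0∞) ∂P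
  have hm : ((k + 1 : ℕ) : ℝ≥0∞) * m ≤ 8 * L := by
    have h1 : m ≤ L := le_trans (lintegral_mono (g := fun _ => (L : ℝ≥0∞)) fun η =>
      Nat.cast_le.2 (min_le_right _ _)) (by simp)
    rcases Nat.eq_zero_or_pos k with rfl | hk
    · simpa using h1.trans (le_mul_of_one_le_left' (by norm_num))
    have h3 : (3 / 4 : ℝ≥0∞) ≤
        P {η | ∑ r ∈ Finset.range k, blkR l ((Dir.next l)^[r] η) ≤ L} := by
      have hmS : Measurable fun η => ∑ r ∈ Finset.range k, blkR l ((Dir.next l)^[r] η) :=
        Finset.measurable_sum _ fun r _ =>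
          (measurable_blkR hR).comp (hR.preserving.iterate r).measurable
      have hm' : MeasurableSet
          {η : ℕ → Step d | L < ∑ r ∈ Finset.range k, blkR l ((Dir.next l)^[r] η)} :=
        hmS (MeasurableSet.of_discrete (s := Set.Ioi L))
      have h4 : P {η | L < ∑ r ∈ Finset.range k, blkR l ((Dir.next l)^[r] η)} ≤ 1 / 4 := by
        refine le_trans (measure_mono_ae ?_) (hlate.trans (min_le_right _ _))
        filter_upwards [hR.blocks] with η hη h
        exact lt_of_lt_of_le h (sum_blkR_le hη k)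
      rw [show {η : ℕ → Step d | ∑ r ∈ Finset.range k, blkR l ((Dir.next l)^[r] η) ≤ L} =
          {η | L < ∑ r ∈ Finset.range k, blkR l ((Dir.next l)^[r] η)}ᶜ by ext η; simp,
        prob_compl_eq_one_sub hm']
      refine le_trans (le_of_eq ?_) (tsub_le_tsub_left h4 1)
      refine (ENNReal.sub_eq_of_eq_add (by simp) ?_).symm
      rw [ENNReal.div_add_div_same, show (3 : ℝ≥0∞) + 1 = 4 by norm_num,
        ENNReal.div_self (by norm_num) (by norm_num)]
    calc ((k + 1 : ℕ) : ℝ≥0∞) * m ≤ (2 * k : ℕ) * m :=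
          mul_le_mul' (Nat.cast_le.2 (by omega)) le_rfl
      _ = 2 * ((k : ℝ≥0∞) * m) := by push_cast; ring
      _ ≤ 2 * (4 * L) := mul_le_mul' le_rfl
          (trunc_block_mean hR (measurable_blkR hR) (blockFun_blkR l) hL0 h3)
      _ = _ := by ring
  have hlev : ∀ j : ℤ, ∑ i ∈ Q, wt μ i * levelCount δ i j ≤ m := fun j => hpd <| by
    have h1 := piece_mean_le hμ k
      (fun i => if (left i).card ≤ L then (levelCount δ i j : ℝ≥0∞) else 0)
      (fun η => cutLevel δ L (Dir.ctime l k η) j η + Bad.indicator (fun _ => ⊤) η) (δ := δ)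
      fun i hi η hη => by
        split_ifs with hle
        · by_cases hb : η ∈ Bad
          · simp [hb]
          obtain ⟨h2, h3⟩ := hend i hi η hη hb
          refine le_add_right ?_
          rw [levelCount, h3]
          exact card_filter_le_cutLevel h2 (h3 ▸ hle) j
        · exact zero_le
    rw [hfwd] at h1
    refine le_trans (le_trans (mul_le_mul' ?_ le_rfl) h1) (mul_le_mul' le_rfl ?_)
    · rw [← Finset.tsum_subtype']
      refine le_trans (ENNReal.tsum_le_tsum fun i => le_of_eq ?_)
        (ENNReal.tsum_mono_subtype (fun i : Pref d => wt μ i *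
          if (left i).card ≤ L then (levelCount δ i j : ℝ≥0∞) else 0)
          (fun i hi => (hQT i hi).1 : ↑Q ⊆ Piece δ k))
      rw [if_pos (hQT i i.2).2]
    · refine le_trans (le_of_eq (lintegral_congr_ae ?_)) (cutLevel_mean_le hR L k j)
      filter_upwards [measure_eq_zero_iff_ae_notMem.1 hbad] with η hη
      rw [Set.indicator_of_notMem hη, add_zero]
  refine ⟨Q, G, m, C₁ * ENNReal.ofReal (1 / √(g : ℝ)) ^ (d - 1), L,
    fun i hi => (hQT i hi).1, hGp, hrest, hGm, fun i hi => (hQT i hi).2, hlev, hGe, ?_⟩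
  set s := √((k : ℝ) + 1) with hs
  have hs0 : 0 < s := by positivity
  have hu : ENNReal.ofReal (1 / √(g : ℝ)) ≤
      ENNReal.ofReal (√((R : ℝ) + 1)) * ENNReal.ofReal (1 / s) := by
    rw [← ENNReal.ofReal_mul (Real.sqrt_nonneg _), mul_one_div]
    refine ENNReal.ofReal_le_ofReal ?_
    rw [hs, div_le_div_iff₀ (by positivity) (by positivity), one_mul,
      ← Real.sqrt_mul (by positivity)]
    refine Real.sqrt_le_sqrt ?_
    have : (k : ℝ) ≤ R * g := by exact_mod_cast hkR
    linarith
  have hLle : (L : ℝ) ≤ ((K : ℝ) + 3 / 2) * ((k : ℝ) + 1) ^ a := by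
    have := (Nat.ceil_lt_add_one (a := ((K : ℝ) + 1 / 2) * ((k : ℝ) + 1) ^ a) (by positivity)).le
    rw [← hL] at this
    nlinarith
  have hpow : (((k : ℝ) + 1) ^ a) ^ 2 = s ^ (d + 1) := by
    rw [hs, Real.sqrt_eq_rpow, ← Real.rpow_natCast, ← Real.rpow_natCast (n := d + 1),
      ← Real.rpow_mul (by positivity), ← Real.rpow_mul (by positivity)]
    congr 1
    rw [ha]; push_cast; ring
  have hm' : m ≤ ENNReal.ofReal (8 * L / ((k : ℝ) + 1)) := by
    rw [ENNReal.ofReal_div_of_pos (by positivity), ENNReal.le_div_iff_mul_le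
      (Or.inl (ENNReal.ofReal_pos.2 (by positivity)).ne') (Or.inl ENNReal.ofReal_ne_top)]
    rw [ENNReal.ofReal_mul (by norm_num), ENNReal.ofReal_natCast,
      show ((k : ℝ) + 1) = ((k + 1 : ℕ) : ℝ) by push_cast; rfl, ENNReal.ofReal_natCast, mul_comm]
    simpa using hm
  have h2 : ((k : ℝ) + 1) * s ^ (d - 1) = s ^ (d + 1) := by
    rw [show d + 1 = 2 + (d - 1) by have := NeZero.pos d; omega, pow_add, hs,
      Real.sq_sqrt (by positivity)]
  have hAL : m * L * ENNReal.ofReal (1 / s) ^ (d - 1) ≤
      ENNReal.ofReal (8 * ((K : ℝ) + 3 / 2) ^ 2) := by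
    refine le_trans (mul_le_mul' (mul_le_mul' hm' le_rfl) le_rfl) ?_
    rw [← ENNReal.ofReal_natCast L, ← ENNReal.ofReal_mul (by positivity),
      ← ENNReal.ofReal_pow (by positivity), ← ENNReal.ofReal_mul (by positivity)]
    refine ENNReal.ofReal_le_ofReal ?_
    have hsd : (0 : ℝ) < s ^ (d + 1) := pow_pos hs0 _
    rw [div_pow, one_pow, div_mul_eq_mul_div, mul_one_div, div_div, h2, div_le_iff₀ hsd, ← hpow]
    nlinarith
  calc C₁ * ENNReal.ofReal (1 / √(g : ℝ)) ^ (d - 1) * m * L
      ≤ C₁ * (ENNReal.ofReal (√((R : ℝ) + 1)) * ENNReal.ofReal (1 / s)) ^ (d - 1) * m * L := by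
        gcongr
    _ = C₁ * s₀ * (m * L * ENNReal.ofReal (1 / s) ^ (d - 1)) := by rw [mul_pow]; ring
    _ ≤ _ := mul_le_mul' le_rfl hAL

end Vale.Agent.P147.Window
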