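import Vale.Agent.P147.Window.Mass

/-!
P147: most long pieces make linearly many cuts in every lateral coordinate, so resampling the cut
steps spreads their ends out at diffusive scale.
-/

open MeasureTheory Filter
open scoped ENNReal Topology

noncomputable section

namespace Vale.Agent.P147.Window

open Flux (Pref path endp left)

variable {d : ℕ} [NeZero d] {μ : Measure (Step d → ℝ)} {δ : Step d}

/-- More than `k` cuts before `p` in every lateral coordinate. -/
def ManyCuts (δ : Step d) (k p : ℕ) : Set (ℕ → Step d) :=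
  {η | ∀ j : Fin d, j ≠ δ.1 → k < (cuts δ p j η).card}

omit [NeZero d] in
lemma manyCuts_like {k p : ℕ} {η η' : ℕ → Step d} (h : Like δ p η η') :
    η ∈ ManyCuts δ k p ↔ η' ∈ ManyCuts δ k p :=
  forall₂_congr fun j _ => by rw [h.cuts_eq j]

omit [NeZero d] in
lemma detBy_manyCuts (k p : ℕ) : DetBy p (ManyCuts δ k p) := fun _ _ he h =>
  (manyCuts_like (like_of_agree he)).1 h

omit [NeZero d] in
lemma climb_like {g p : ℕ} {η η' : ℕ → Step d} (h : Like δ p η η') :
    η ∈ Flux.Climb δ g p ↔ η' ∈ Flux.Climb δ g p := by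
  show (hgt δ η p = _ ∧ ∀ s < p, hgt δ η s < _) ∧ (∀ t ≤ p, 0 ≤ hgt δ η t) ↔
    (hgt δ η' p = _ ∧ ∀ s < p, hgt δ η' s < _) ∧ (∀ t ≤ p, 0 ≤ hgt δ η' t)
  refine and_congr (and_congr (by rw [h.hgt_eq p le_rfl])
    (forall₂_congr fun s hs => by rw [h.hgt_eq s hs.le])) (forall₂_congr fun t ht' => ?_)
  rw [h.hgt_eq t ht']

omit [NeZero d] in
/-- The cuts after the first `L` steps are cuts of the later path. -/
lemma card_cuts_shift (δ : Step d) (L p : ℕ) (j : Fin d) (η : ℕ → Step d) :
    (cuts δ (L + p) j η).card ≤ (cuts δ p j (shift L η)).card + L := by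
  classical
  refine (Finset.card_le_card (t := (cuts δ p j (shift L η)).image (L + ·) ∪ Finset.range L)
    fun q hq => ?_).trans ((Finset.card_union_le _ _).trans
      (add_le_add Finset.card_image_le (Finset.card_range L).le))
  rw [Finset.mem_union, Finset.mem_range, Finset.mem_image]
  rcases lt_or_ge q L with h | h
  · exact Or.inr h
  · obtain ⟨u, rfl⟩ := Nat.exists_eq_add_of_le h
    obtain ⟨⟨hup, hlat, hpast, hfut⟩, hj⟩ := mem_cuts.1 hq
    refine Or.inl ⟨u, mem_cuts.2 ⟨⟨by omega, hlat, fun s hs => ?_, fun t ht1 ht2 => ?_⟩, hj⟩, rfl⟩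
    · have h1 := hpast (L + s) (by omega)
      rw [hgt_add, hgt_add δ η L u] at h1
      omega
    · have h1 := hfut (L + t) (by omega) (by omega)
      rw [hgt_add, hgt_add δ η L t] at h1
      omega

/-- After the pattern, a piece with few cuts makes few regenerations. -/
lemma few_cuts_le (hμ : Elliptic μ) (δ : Step d) (g k : ℕ) :
    mass μ {i ∈ Piece δ g | path i ∉ ManyCuts δ k i.1} *
        (w μ (patLen d) (pat δ) * nu μ (NoBack δ)) ≤
      nu μ (Reg δ 0 ∩ {η | regNum δ (g - patLen d) η ≤ k + patLen d}) := by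
  classical
  have := isProbabilityMeasure_nu hμ
  set S := {i ∈ Piece δ g | path i ∉ ManyCuts δ k i.1} with hS
  set F : Set (ℕ → Step d) := ⋃ p, Flux.Climb δ g p \ ManyCuts δ k p
  have hFm : MeasurableSet F := MeasurableSet.iUnion fun p =>
    (Flux.measurableSet_climb δ g p).diff (detBy_manyCuts k p).measurableSet
  have hstep : mass μ S * nu μ (NoBack δ) ≤ nu μ (F ∩ NoBack δ) := by
    have hcell : ∀ i : S, wt μ i * nu μ (NoBack δ) =
        nu μ (cyl (i : Pref d).1 (path i) ∩ shift (i : Pref d).1 ⁻¹' NoBack δ) := by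
      intro i
      have h := factor hμ (n := (i : Pref d).1) (ξ := path (i : Pref d)) (A := Up δ)
        (fun t ht' hm => ?_) MeasurableSet.univ
      · simp only [Set.univ_inter] at h
        exact h.symm
      · simp only [Up, Set.mem_ofPred_eq, ht_sub] at hm
        have h1 := piece_lt i.2.1 ht'
        have h2 : ht δ (pos (path (i : Pref d)) (i : Pref d).1) = g := piece_end i.2.1
        omega
    rw [mass, ← ENNReal.tsum_mul_right]
    simp only [hcell]
    rw [← measure_iUnion (fun a b hne => Set.disjoint_left.mpr fun η h h' =>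
      hne (Subtype.ext (piece_unique a.2.1 b.2.1 h.1 h'.1)))
      fun i => (measurableSet_cyl _ _).inter (measurable_shift _ (measurableSet_noBack δ))]
    refine measure_mono (Set.iUnion_subset fun ⟨i, hiP, hi⟩ η hη => ?_)
    refine ⟨?_, ?_⟩
    · have hl : Like δ i.1 (path i) η := like_of_agree fun t ht' => (hη.1 t ht').symm
      exact Set.mem_iUnion.2 ⟨i.1, (climb_like hl).1 hiP, fun h => hi ((manyCuts_like hl).2 h)⟩
    · have hl : Like δ i.1 (path i) η := like_of_agree fun t ht' => (hη.1 t ht').symm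
      refine mem_noBack.2 fun t => ?_
      rcases le_or_gt t i.1 with ht' | ht'
      · exact ((climb_like hl).1 hiP).2 t ht'
      · obtain ⟨u, rfl⟩ := Nat.exists_eq_add_of_le ht'.le
        have h1 := ((climb_like hl).1 hiP).2 i.1 le_rfl
        have h2 : 0 ≤ hgt δ (shift i.1 η) u := mem_noBack.1 hη.2 u
        simp only [Up, Set.mem_ofPred_eq] at h1
        rw [hgt_add]
        simp only [hgt] at h2 ⊢
        omega
  have hpre : nu μ (Pre δ 0 0) = w μ (patLen d) (pat δ) := by
    rw [measure_pre hμ 0 0, show Hit δ ((0 : ℕ) : ℤ) 0 = (Set.univ : Set (ℕ → Step d)) from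
      Set.eq_univ_of_forall fun η => ⟨by simp [hgt, pos, ht], fun s hs => absurd hs (by omega)⟩,
      measure_univ, one_mul]
  have hdet : DetBy (0 + patLen d) (Pre δ 0 0) :=
    ((detBy_hit δ _ le_rfl).mono (by omega)).inter (detBy_shift_cyl _)
  calc mass μ S * (w μ (patLen d) (pat δ) * nu μ (NoBack δ))
      ≤ nu μ (Pre δ 0 0) * nu μ (F ∩ NoBack δ) := by
        rw [hpre, mul_left_comm]
        exact mul_le_mul' le_rfl hstep
    _ = nu μ (Pre δ 0 0 ∩ shift (0 + patLen d) ⁻¹' (F ∩ NoBack δ)) :=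
        (split_pre hμ hdet subset_rfl hFm).symm
    _ ≤ nu μ (Reg δ 0 ∩ {η | regNum δ (g - patLen d) η ≤ k + patLen d}) :=
        measure_mono fun η hη => ⟨⟨0, hη.1, hη.2.2⟩, by
        obtain ⟨hp0, hη'⟩ := hη
        rw [Set.mem_preimage, zero_add] at hη'
        obtain ⟨p, hcl, hfew⟩ := Set.mem_iUnion.1 hη'.1
        simp only [ManyCuts, Set.mem_ofPred_eq, not_forall, not_lt] at hfew
        obtain ⟨j, hj, hcard⟩ := hfew
        rcases le_or_gt g (patLen d) with hgL | hgL
        · simp [regNum, Nat.sub_eq_zero_of_le hgL]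
        have hlev : ((g - patLen d : ℕ) : ℤ) ≤ hgt δ η p := by
          have h1 := hgt_add δ η p (patLen d)
          have h2 := hgt_add δ η (patLen d) p
          have h3 := hgt_le δ (shift p η) (patLen d)
          have h4 : hgt δ (shift (patLen d) η) p = g := hcl.1.1
          have h5 := pre_hgt_end hp0
          rw [zero_add] at h5
          rw [add_comm p] at h1
          omega
        exact (regNum_le_cuts (t := p) (m := patLen d + p) (by omega) hlev hj).trans
          ((card_cuts_shift δ _ p j η).trans (by omega))⟩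

/-- Pieces with many cuts rarely end at a given site. -/
lemma end_le (hμ : Elliptic μ) : ∃ C > (0 : ℝ), ∀ (δ : Step d) (g N : ℕ), 1 ≤ g → 1 ≤ N → ∀ u : Pos d,
    mass μ {i ∈ {i ∈ Piece δ g | path i ∈ ManyCuts δ (g / N) i.1} | endp i = u} ≤
      ENNReal.ofReal (C * √(N : ℝ)) ^ (d - 1) * ENNReal.ofReal (1 / √(g : ℝ)) ^ (d - 1) := by
  classical
  have := isProbabilityMeasure_nu hμ
  obtain ⟨C, hC, hconc⟩ := concentration hμ
  refine ⟨C, hC, fun δ g N hg hN u => ?_⟩
  set c := ENNReal.ofReal (C * √(N : ℝ)) ^ (d - 1) * ENNReal.ofReal (1 / √(g : ℝ)) ^ (d - 1)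
  set T : ℕ → Set (ℕ → Step d) := fun p => Flux.Climb δ g p ∩ ManyCuts δ (g / N) p with hT
  have hTm : ∀ p, MeasurableSet (T p) := fun p =>
    (Flux.measurableSet_climb δ g p).inter (detBy_manyCuts _ p).measurableSet
  have hum : ∀ p, MeasurableSet {η : ℕ → Step d | pos η p = u} := fun p =>
    measurable_pos p (measurableSet_singleton u)
  have hpt : ∀ p, nu μ ({η | pos η p = u} ∩ T p) ≤ c * nu μ (Flux.Climb δ g p) := by
    intro p
    have hl : ∀ η η', Like δ p η η' →
        (T p).indicator (1 : (ℕ → Step d) → ℝ≥0∞) η = (T p).indicator 1 η' := fun η η' h => by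
      have e : η ∈ T p ↔ η' ∈ T p := and_congr (climb_like h) (manyCuts_like h)
      by_cases hη : η ∈ T p
      · rw [Set.indicator_of_mem hη, Set.indicator_of_mem (e.1 hη)]
        rfl
      · rw [Set.indicator_of_notMem hη, Set.indicator_of_notMem (mt e.2 hη)]
    calc nu μ ({η | pos η p = u} ∩ T p)
        = ∫⁻ η, {η : ℕ → Step d | pos η p = u}.indicator ((T p).indicator 1) η ∂nu μ := by
          rw [Set.indicator_indicator, lintegral_indicator_one ((hum p).inter (hTm p))]
      _ ≤ _ := hconc δ p _ hl u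
      _ ≤ ∫⁻ η, c * (Flux.Climb δ g p).indicator 1 η ∂nu μ := by
          refine lintegral_mono fun η => ?_
          refine (Set.indicator_le_self' (fun _ _ => zero_le) η).trans ?_
          by_cases hη : η ∈ T p
          · rw [Set.indicator_of_mem hη, Set.indicator_of_mem hη.1, Pi.one_apply, one_mul, mul_one]
            rw [psi]
            refine (Finset.prod_le_prod' (g := fun _ => ENNReal.ofReal (C * √(N : ℝ)) *
              ENNReal.ofReal (1 / √(g : ℝ))) fun j hj => ?_).trans (le_of_eq ?_)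
            · rw [← ENNReal.ofReal_mul (by positivity)]
              refine ENNReal.ofReal_le_ofReal ?_
              have hk := hη.2 j (Finset.ne_of_mem_erase hj)
              have hg0 : (0 : ℝ) < g := by exact_mod_cast hg
              have hle : (g : ℝ) ≤ N * (((cuts δ p j η).card : ℝ) + 1) := by
                have h1 : g < N * (g / N + 1) := Nat.lt_mul_div_succ g hN
                have h2 : g ≤ N * ((cuts δ p j η).card + 1) :=
                  h1.le.trans (Nat.mul_le_mul_left N (by omega))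
                exact_mod_cast h2
              rw [← mul_div_assoc, mul_one,
                div_le_div_iff₀ (by positivity) (Real.sqrt_pos.2 hg0), mul_assoc C]
              refine mul_le_mul_of_nonneg_left ?_ hC.le
              rw [← Real.sqrt_mul (Nat.cast_nonneg N)]
              exact Real.sqrt_le_sqrt hle
            · rw [Finset.prod_const, Finset.card_erase_of_mem (Finset.mem_univ _),
                Finset.card_univ, Fintype.card_fin, mul_pow]
          · simp [Set.indicator_of_notMem hη]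
      _ = c * nu μ (Flux.Climb δ g p) := by
          rw [lintegral_const_mul _ (measurable_one.indicator (Flux.measurableSet_climb δ g p)),
            lintegral_indicator_one (Flux.measurableSet_climb δ g p)]
  rw [mass_eq δ _ fun i hi => hi.1.1]
  calc nu μ (⋃ i : {i ∈ {i ∈ Piece δ g | path i ∈ ManyCuts δ (g / N) i.1} | endp i = u},
        cyl (i : Pref d).1 (path (i : Pref d)))
      ≤ nu μ (⋃ p, {η | pos η p = u} ∩ T p) := by
        refine measure_mono (Set.iUnion_subset fun ⟨i, ⟨hiP, hi⟩, hu⟩ η hη => ?_)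
        have hl : Like δ i.1 (path i) η := like_of_agree fun t ht' => (hη t ht').symm
        exact Set.mem_iUnion.2 ⟨i.1, (pos_congr fun t ht' => hη t ht').trans hu,
          (climb_like hl).1 hiP, (manyCuts_like hl).1 hi⟩
    _ ≤ ∑' p, c * nu μ (Flux.Climb δ g p) :=
        (measure_iUnion_le _).trans (ENNReal.tsum_le_tsum hpt)
    _ ≤ c := by
        rw [ENNReal.tsum_mul_left, ← measure_iUnion (fun a b hab => Set.disjoint_left.mpr
          fun η h h' => hab (hit_unique h.1 h'.1)) fun p => Flux.measurableSet_climb δ g p]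
        exact mul_le_of_le_one_right' prob_le_one

/-- Module Gap: the ends of long pieces are spread out at diffusive scale. -/
theorem gap (hμ : Elliptic μ) (_hd : 2 ≤ d) (hR : Dir.Regen μ (Planar.ax δ)) : GapStmt μ δ := by
  classical
  have := isProbabilityMeasure_nu hμ
  have hU : 0 < nu μ (Unbdd δ) :=
    hR.pos.trans_le (measure_mono fun η h => (fwd_subset δ h).2)
  have hD : 0 < nu μ (NoBack δ) :=
    hR.pos.trans_le (measure_mono fun η h => (fwd_subset δ h).1)
  obtain ⟨K, hK, hfew⟩ := few_reg hμ hU hD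
  obtain ⟨C, hC, hend⟩ := end_le hμ
  intro ε hε
  set D := w μ (patLen d) (pat δ) * nu μ (NoBack δ)
  have hD0 : D ≠ 0 := mul_ne_zero (w_ne_zero hμ _ _) hD.ne'
  have hDt : D ≠ ∞ := ENNReal.mul_ne_top (w_ne_top hμ _ _) (measure_ne_top _ _)
  set e := min ε 1
  have he0 : e * D ≠ 0 := mul_ne_zero (lt_min (pos_iff_ne_zero.2 hε) one_pos).ne' hD0
  have het : e * D ≠ ∞ :=
    ENNReal.mul_ne_top (ne_top_of_le_ne_top ENNReal.one_ne_top (min_le_right _ _)) hDt
  obtain ⟨N₀, hN₀⟩ : ∃ N₀ : ℕ, 4 * K / (e * D) < N₀ := ENNReal.exists_nat_gt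
    (ENNReal.div_ne_top (ENNReal.mul_ne_top ENNReal.ofNat_ne_top hK) he0)
  set N := N₀ + 1
  have hN : 4 * K ≤ (N : ℝ≥0∞) * (e * D) := by
    refine (ENNReal.div_le_iff he0 het).1 (hN₀.le.trans ?_)
    exact_mod_cast Nat.le_succ N₀
  refine ⟨ENNReal.ofReal (C * √(N : ℝ)) ^ (d - 1), ENNReal.pow_ne_top ENNReal.ofReal_ne_top,
    2 * patLen d * N + 1, fun g hg =>
      ⟨{i ∈ Piece δ g | path i ∈ ManyCuts δ (g / N) i.1}, fun i hi => hi.1, ?_,
        hend δ g N (by omega) (Nat.le_add_left 1 N₀)⟩⟩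
  have hset : Piece δ g \ {i ∈ Piece δ g | path i ∈ ManyCuts δ (g / N) i.1} =
      {i ∈ Piece δ g | path i ∉ ManyCuts δ (g / N) i.1} := by
    ext i
    simp only [Set.mem_sdiff, Set.mem_ofPred_eq]
    tauto
  rw [hset]
  set L := patLen d with hL
  have hN1 : 1 ≤ N := Nat.le_add_left 1 N₀
  have hLN : L ≤ g / N := (Nat.le_div_iff_mul_le hN1).2 (by rw [mul_assoc] at hg; omega)
  have h2 : g ≤ 2 * (g - L) := by
    have : 2 * L ≤ 2 * L * N := Nat.le_mul_of_pos_right _ hN1
    omega
  have h4 : 2 * N * (g / N + L) ≤ 4 * g := by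
    have := Nat.mul_div_le g N
    calc 2 * N * (g / N + L) ≤ 2 * N * (g / N + g / N) := Nat.mul_le_mul_left _ (by omega)
      _ = 4 * (N * (g / N)) := by ring
      _ ≤ 4 * g := Nat.mul_le_mul_left 4 this
  set bad := mass μ {i ∈ Piece δ g | path i ∉ ManyCuts δ (g / N) i.1}
  refine le_trans ?_ (min_le_left ε 1)
  have hgN : ((g * N : ℕ) : ℝ≥0∞) * D ≠ 0 :=
    mul_ne_zero (by simp; omega) hD0
  rw [← ENNReal.mul_le_mul_iff_left hgN (ENNReal.mul_ne_top (ENNReal.natCast_ne_top _) hDt)]
  calc bad * (((g * N : ℕ) : ℝ≥0∞) * D)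
      ≤ ((2 * N : ℕ) : ℝ≥0∞) * (((g - L : ℕ) : ℝ≥0∞) * (bad * D)) := by
        rw [show bad * (((g * N : ℕ) : ℝ≥0∞) * D) = ((g * N : ℕ) : ℝ≥0∞) * (bad * D) by ring,
          show ((2 * N : ℕ) : ℝ≥0∞) * (((g - L : ℕ) : ℝ≥0∞) * (bad * D)) =
            ((2 * N * (g - L) : ℕ) : ℝ≥0∞) * (bad * D) by push_cast; ring]
        refine mul_le_mul' (Nat.cast_le.2 ?_) le_rfl
        calc g * N ≤ 2 * (g - L) * N := Nat.mul_le_mul_right N h2
          _ = 2 * N * (g - L) := by ring
    _ ≤ ((2 * N : ℕ) : ℝ≥0∞) * (K * ((g / N + L : ℕ) : ℝ≥0∞)) :=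
        mul_le_mul' le_rfl ((mul_le_mul' le_rfl (few_cuts_le hμ δ g (g / N))).trans
          (hfew (g - L) (g / N + L)))
    _ = K * ((2 * N * (g / N + L) : ℕ) : ℝ≥0∞) := by push_cast; ring
    _ ≤ K * ((4 * g : ℕ) : ℝ≥0∞) := mul_le_mul' le_rfl (Nat.cast_le.2 h4)
    _ = 4 * K * (g : ℝ≥0∞) := by push_cast; ring
    _ ≤ (N : ℝ≥0∞) * (e * D) * g := mul_le_mul' hN le_rfl
    _ = e * (((g * N : ℕ) : ℝ≥0∞) * D) := by push_cast; ring

end Vale.Agent.P147.Window
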