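import Vale.Agent.P147.Window.Api

/-!
P147: if pieces of both kinds keep a positive weight and windows are rarely met across gaps, the
disjoint pairs of strands through geometrically growing bands lose too little for the switch bound.
-/

open MeasureTheory Filter
open scoped ENNReal Topology

noncomputable section

namespace Vale.Agent.P147.Window

open Flux (Pref path endp left)

variable {d : ℕ} [NeZero d] {μ : Measure (Step d → ℝ)} {δ : Step d}

namespace IndPf

lemma mem_cyl_cat {i i' : Pref d} {η : ℕ → Step d}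
    (h : η ∈ cyl (cat i i').1 (path (cat i i'))) :
    η ∈ cyl i.1 (path i) ∧ shift i.1 η ∈ cyl i'.1 (path i') := by
  have h' : η ∈ cyl i.1 (path i) ∩ shift i.1 ⁻¹' cyl i'.1 (path i') := by
    rw [cyl_inter_shift]
    exact fun t ht' => (h t ht').trans (path_cat i i' ht')
  exact h'

open Classical in
/-- One stage: the weights of compatible pieces, times `F` of the next state. -/
def stage (μ : Measure (Step d → ℝ)) (δ : Step d) (m : ℕ) (F : St d → ℝ≥0∞) (s : St d) : ℝ≥0∞ :=
  ∑' i : Piece δ m, ∑' j : Piece (opp δ) m,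
    if Compat s i j then wt μ i * wt μ j * F (s.step i j) else 0

/-- One stage without the requirement of disjointness. -/
def open_ (μ : Measure (Step d → ℝ)) (δ : Step d) (m : ℕ) (F : St d → ℝ≥0∞) (s : St d) : ℝ≥0∞ :=
  ∑' i : Piece δ m, ∑' j : Piece (opp δ) m, wt μ i * wt μ j * F (s.step i j)

open Classical in
/-- The weight of the pieces meeting in the next stage. -/
def fail (μ : Measure (Step d → ℝ)) (δ : Step d) (m : ℕ) (s : St d) : ℝ≥0∞ :=
  ∑' i : Piece δ m, ∑' j : Piece (opp δ) m, if Compat s i j then 0 else wt μ i * wt μ j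

lemma surv_cons (m : ℕ) (ms : List ℕ) (s : St d) :
    surv μ δ (m :: ms) s = stage μ δ m (surv μ δ ms) s := rfl

lemma stage_le_open (m : ℕ) (F : St d → ℝ≥0∞) (s : St d) :
    stage μ δ m F s ≤ open_ μ δ m F s :=
  ENNReal.tsum_le_tsum fun i => ENNReal.tsum_le_tsum fun j => by split_ifs <;> simp

lemma stage_mono (m : ℕ) {F G : St d → ℝ≥0∞} (s : St d)
    (h : ∀ (i : Piece δ m) (j : Piece (opp δ) m), F (s.step i j) ≤ G (s.step i j)) :
    stage μ δ m F s ≤ stage μ δ m G s :=
  ENNReal.tsum_le_tsum fun i => ENNReal.tsum_le_tsum fun j => by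
    split_ifs
    · exact mul_le_mul' le_rfl (h i j)
    · exact le_rfl

lemma stage_add (m : ℕ) (F G : St d → ℝ≥0∞) (s : St d) :
    stage μ δ m (fun t => F t + G t) s = stage μ δ m F s + stage μ δ m G s := by
  simp only [stage]
  rw [← ENNReal.tsum_add]
  refine tsum_congr fun i => ?_
  rw [← ENNReal.tsum_add]
  refine tsum_congr fun j => ?_
  split_ifs <;> simp [mul_add]

lemma stage_mul (m : ℕ) (c : ℝ≥0∞) (F : St d → ℝ≥0∞) (s : St d) :
    stage μ δ m (fun t => c * F t) s = c * stage μ δ m F s := by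
  simp only [stage]
  rw [← ENNReal.tsum_mul_left]
  refine tsum_congr fun i => ?_
  rw [← ENNReal.tsum_mul_left]
  refine tsum_congr fun j => ?_
  split_ifs
  · ring
  · simp

lemma surv_le_one (hμ : Elliptic μ) : ∀ (ms : List ℕ) (s : St d), surv μ δ ms s ≤ 1 := by
  intro ms
  induction ms with
  | nil => exact fun s => le_rfl
  | cons m ms ih =>
    intro s
    calc surv μ δ (m :: ms) s = stage μ δ m (surv μ δ ms) s := surv_cons _ _ _
      _ ≤ stage μ δ m (fun _ => 1) s := stage_mono _ _ fun i j => ih _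
      _ ≤ open_ μ δ m (fun _ => 1) s := stage_le_open _ _ _
      _ = mass μ (Piece δ m) * mass μ (Piece (opp δ) m) := by
          simp only [open_, mass, mul_one, ENNReal.tsum_mul_left, ENNReal.tsum_mul_right]
      _ ≤ 1 := mul_le_one' (mass_piece_le_one hμ _ m) (mass_piece_le_one hμ _ m)

lemma one_stage {e : ℕ} {c : ℝ≥0∞}
    (hc : c ≤ mass μ (Piece δ e) * mass μ (Piece (opp δ) e)) (s : St d) :
    c ≤ surv μ δ [e] s + fail μ δ e s := by
  refine hc.trans (le_of_eq ?_)
  rw [surv_cons, stage, fail, mass, mass, ← ENNReal.tsum_mul_right, ← ENNReal.tsum_add]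
  refine tsum_congr fun i => ?_
  rw [← ENNReal.tsum_add, ← ENNReal.tsum_mul_left]
  refine tsum_congr fun j => ?_
  split_ifs <;> simp [surv]

lemma open_mono (m : ℕ) {F G : St d → ℝ≥0∞} (s : St d) (h : ∀ t, F t ≤ G t) :
    open_ μ δ m F s ≤ open_ μ δ m G s :=
  ENNReal.tsum_le_tsum fun _ => ENNReal.tsum_le_tsum fun _ => mul_le_mul' le_rfl (h _)

/-- Three descending pieces, the last one meeting the window, make one walk entering it. -/
lemma three_le_hits (hμ : Elliptic μ) (a b e : ℕ) (U : Finset (Pos d)) (y : Pos d) :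
    ∑' x : (Piece (opp δ) a × Piece (opp δ) b) × Piece (opp δ) e,
      (if ∃ z ∈ trace (x.2 : Pref d) (y + endp (x.1.1 : Pref d) + endp (x.1.2 : Pref d)), z ∈ U
        then wt μ x.1.1 * (wt μ x.1.2 * wt μ x.2) else 0) ≤ nu μ (Hits U y) := by
  classical
  set As : (Piece (opp δ) a × Piece (opp δ) b) × Piece (opp δ) e → Set (ℕ → Step d) := fun x =>
    if ∃ z ∈ trace (x.2 : Pref d) (y + endp (x.1.1 : Pref d) + endp (x.1.2 : Pref d)), z ∈ U
      then cyl (cat (x.1.1 : Pref d) (cat x.1.2 x.2)).1 (path (cat (x.1.1 : Pref d) (cat x.1.2 x.2)))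
      else ∅ with hAs
  have hm : ∀ x, MeasurableSet (As x) := fun x => by
    simp only [hAs]
    split_ifs
    · exact measurableSet_cyl _ _
    · exact MeasurableSet.empty
  have hdisj : Pairwise (Function.onFun Disjoint As) := fun x x' hne =>
    Set.disjoint_left.mpr fun η h h' => hne (by
      simp only [hAs] at h h'
      split_ifs at h h'
      all_goals try exact False.elim ‹η ∈ (∅ : Set (ℕ → Step d))›
      obtain ⟨h1, h23⟩ := mem_cyl_cat h
      obtain ⟨h1', h23'⟩ := mem_cyl_cat h'
      obtain ⟨h2, h3⟩ := mem_cyl_cat h23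
      obtain ⟨h2', h3'⟩ := mem_cyl_cat h23'
      have e1 := piece_unique x.1.1.2 x'.1.1.2 h1 h1'
      rw [← e1] at h2' h3'
      have e2 := piece_unique x.1.2.2 x'.1.2.2 h2 h2'
      rw [← e2] at h3'
      have e3 := piece_unique x.2.2 x'.2.2 h3 h3'
      exact Prod.ext (Prod.ext (Subtype.ext e1) (Subtype.ext e2)) (Subtype.ext e3))
  refine le_trans (le_of_eq (tsum_congr fun x => ?_)) ((tsum_meas_le_meas_iUnion_of_disjoint (nu μ)
    hm hdisj).trans (measure_mono (Set.iUnion_subset fun x η hη => ?_)))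
  · simp only [hAs]
    split_ifs with h
    · show _ = wt μ (cat (x.1.1 : Pref d) (cat x.1.2 x.2))
      rw [wt_cat hμ x.1.1.2 (cat_mem x.1.2.2 x.2.2), wt_cat hμ x.1.2.2 x.2.2]
    · simp
  · simp only [hAs] at hη
    split_ifs at hη with h
    · obtain ⟨h1, h23⟩ := mem_cyl_cat hη
      obtain ⟨h2, h3⟩ := mem_cyl_cat h23
      obtain ⟨z, hz, hzU⟩ := h
      obtain ⟨t, ht', rfl⟩ := Finset.mem_image.1 hz
      refine ⟨(x.1.1 : Pref d).1 + ((x.1.2 : Pref d).1 + t), ?_⟩
      convert hzU using 1
      rw [pos_add, pos_add, pos_congr (ξ' := path (x.1.1 : Pref d)) fun r hr => h1 r hr,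
        pos_congr (ξ' := path (x.1.2 : Pref d)) fun r hr => h2 r hr,
        pos_congr (ξ' := path (x.2 : Pref d)) fun r hr =>
          h3 r (lt_of_lt_of_le hr (Nat.lt_succ_iff.1 (Finset.mem_range.1 ht')))]
      simp only [endp]
      abel
    · exact False.elim hη

/-- The third stage of three fails with weight at most the meeting weight of a window. -/
lemma deficit_le (hμ : Elliptic μ) {a b e : ℕ} {q : ℝ≥0∞} (s : St d)
    (hq : meetMass μ δ a (e + b) (s.y - s.x) ≤ q) :
    open_ μ δ a (open_ μ δ b (fail μ δ e)) s ≤ q := by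
  classical
  refine le_trans ?_ hq
  set f : (Piece δ a × Piece δ b) × Piece δ e →
      (Piece (opp δ) a × Piece (opp δ) b) × Piece (opp δ) e → ℝ≥0∞ := fun x y =>
    wt μ x.1.1 * (wt μ x.1.2 * wt μ x.2) *
      (if ∃ z ∈ trace (y.2 : Pref d) (s.y + endp (y.1.1 : Pref d) + endp (y.1.2 : Pref d)),
          z + (endp (x.1.1 : Pref d) + endp (x.1.2 : Pref d) + endp (x.2 : Pref d) - s.x) ∈
            left (cat (x.2 : Pref d) x.1.2)
        then wt μ y.1.1 * (wt μ y.1.2 * wt μ y.2) else 0)
  have hexp : open_ μ δ a (open_ μ δ b (fail μ δ e)) s ≤ ∑' x, ∑' y, f x y := by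
    simp only [open_, fail, ← ENNReal.tsum_mul_left, ENNReal.tsum_prod']
    refine ENNReal.tsum_le_tsum fun i1 => ?_
    rw [ENNReal.tsum_comm]
    refine ENNReal.tsum_le_tsum fun i2 => ?_
    conv_lhs => enter [1, j1]; rw [ENNReal.tsum_comm]
    rw [ENNReal.tsum_comm]
    refine ENNReal.tsum_le_tsum fun i3 => ?_
    refine ENNReal.tsum_le_tsum fun j1 => ENNReal.tsum_le_tsum fun j2 =>
      ENNReal.tsum_le_tsum fun j3 => ?_
    split_ifs with hC
    · simp
    · simp only [f]
      rw [if_pos]
      · exact le_of_eq (by ring)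
      obtain ⟨z, hz, hzU⟩ := Finset.not_disjoint_iff.1 hC
      refine ⟨z, hz, mem_left_cat.2 ?_⟩
      rcases Finset.mem_union.1 hzU with hw | hw <;>
        obtain ⟨w', hw', he⟩ := Finset.mem_image.1 hw
      · refine Or.inr ⟨w', hw', ?_⟩
        rw [← he]
        simp only [St.step]
        abel
      · refine Or.inl ?_
        convert hw' using 1
        rw [← he]
        simp only [St.step]
        abel
  refine hexp.trans (le_trans (ENNReal.tsum_le_tsum (g := fun x : (Piece δ a × Piece δ b) × Piece δ e =>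
    wt μ (cat (x.2 : Pref d) x.1.2) * wt μ x.1.1 * nu μ (Hits (left (cat (x.2 : Pref d) x.1.2))
      (endp (cat (x.2 : Pref d) x.1.2) + endp (x.1.1 : Pref d) + (s.y - s.x)))) fun x => ?_) ?_)
  · simp only [f]
    rw [ENNReal.tsum_mul_left, wt_cat hμ x.2.2 x.1.2.2]
    refine le_trans (mul_le_mul' le_rfl (le_trans (le_of_eq (tsum_congr fun y => ?_))
      (three_le_hits hμ a b e (left (cat (x.2 : Pref d) x.1.2))
        (endp (cat (x.2 : Pref d) x.1.2) + endp (x.1.1 : Pref d) + (s.y - s.x))))) (le_of_eq (by ring))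
    refine if_congr ?_ rfl rfl
    simp only [trace, Finset.mem_image, Finset.mem_range, endp_cat]
    constructor <;>
    · rintro ⟨z, ⟨t, ht', rfl⟩, hz⟩
      refine ⟨_, ⟨t, ht', rfl⟩, ?_⟩
      convert hz using 1
      abel
  · set g : Piece δ (e + b) × Piece δ a → ℝ≥0∞ := fun r =>
      wt μ r.1 * wt μ r.2 *
        nu μ (Hits (left (r.1 : Pref d)) (endp (r.1 : Pref d) + endp (r.2 : Pref d) + (s.y - s.x)))
    have hinj : Function.Injective fun x : (Piece δ a × Piece δ b) × Piece δ e =>
        ((⟨cat (x.2 : Pref d) x.1.2, cat_mem x.2.2 x.1.2.2⟩, x.1.1) : Piece δ (e + b) × Piece δ a) :=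
      fun x x' h => by
        obtain ⟨h3, h2⟩ := cat_inj x.2.2 x'.2.2 x.1.2.2 x'.1.2.2 (congrArg Subtype.val (congrArg Prod.fst h))
        exact Prod.ext (Prod.ext (congrArg Prod.snd h :) (Subtype.ext h2)) (Subtype.ext h3)
    refine (ENNReal.tsum_comp_le_tsum_of_injective hinj g).trans (le_of_eq ?_)
    rw [ENNReal.tsum_prod']
    rfl

/-- One more stage costs at most a factor and the meeting weight three stages back. -/
lemma recur (hμ : Elliptic μ) {a b e : ℕ} {c q : ℝ≥0∞}
    (hc : c ≤ mass μ (Piece δ e) * mass μ (Piece (opp δ) e))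
    (hq : ∀ v : Pos d, ht δ v = 0 → meetMass μ δ a (e + b) v ≤ q) :
    ∀ (p : List ℕ) (s : St d), ht δ s.x = ht δ s.y →
      c * surv μ δ (p ++ [a, b]) s ≤ surv μ δ (p ++ [a, b, e]) s + q * surv μ δ p s := by
  intro p
  induction p with
  | nil =>
    intro s hs
    show c * surv μ δ [a, b] s ≤ surv μ δ [a, b, e] s + q * 1
    rw [mul_one]
    calc c * surv μ δ [a, b] s
        = stage μ δ a (fun t => stage μ δ b (fun _ => c * 1) t) s := by
          rw [show surv μ δ [a, b] s = stage μ δ a (fun t => stage μ δ b (fun _ => 1) t) s from rfl]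
          simp only [← stage_mul]
      _ ≤ stage μ δ a (fun t => stage μ δ b (surv μ δ [e]) t + stage μ δ b (fail μ δ e) t) s :=
          stage_mono _ _ fun i j => by
            rw [← stage_add]
            exact stage_mono _ _ fun i j => (mul_one c).trans_le (one_stage hc _)
      _ = surv μ δ [a, b, e] s + stage μ δ a (stage μ δ b (fail μ δ e)) s := stage_add _ _ _ _
      _ ≤ _ := add_le_add le_rfl ?_
    refine le_trans (le_trans (stage_le_open _ _ _) (open_mono _ _ fun t => stage_le_open _ _ _))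
      (deficit_le hμ s (hq _ (by rw [ht_sub, hs, sub_self])))
  | cons m p ih =>
    intro s hs
    simp only [List.cons_append, surv_cons, ← stage_mul, ← stage_add]
    refine stage_mono _ _ fun i j => ih _ ?_
    simp only [St.step, ht_sub, ht_add, piece_end i.2]
    have h2 := piece_end j.2
    rw [ht_opp] at h2
    omega

lemma range_map_succ (m : ℕ → ℕ) (k : ℕ) :
    (List.range (k + 1)).map m = (List.range k).map m ++ [m k] := by
  rw [List.range_succ, List.map_append]; rfl

/-- Along bands whose windows are rarely met the weight decays at most geometrically. -/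
lemma chain (hμ : Elliptic μ) (m : ℕ → ℕ) (K : ℕ) (s : St d) (hs : ht δ s.x = ht δ s.y)
    {r q : ℝ≥0∞} (hr : r ≠ ∞)
    (hc : ∀ k < K, 2 * r ≤ mass μ (Piece δ (m k)) * mass μ (Piece (opp δ) (m k)))
    (hq : ∀ k, k + 2 < K → ∀ v : Pos d, ht δ v = 0 →
      meetMass μ δ (m k) (m (k + 2) + m (k + 1)) v ≤ q)
    (hq3 : q ≤ r ^ 3) (h1 : r ≤ surv μ δ [m 0] s)
    (h2 : r * surv μ δ [m 0] s ≤ surv μ δ [m 0, m 1] s) :
    r ^ K ≤ surv μ δ ((List.range K).map m) s := by
  set A : ℕ → ℝ≥0∞ := fun k => surv μ δ ((List.range k).map m) s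
  have hA0 : A 0 = 1 := rfl
  have key : ∀ k, k < K → r * A k ≤ A (k + 1) := by
    intro k
    induction k using Nat.strong_induction_on with
    | _ k ih =>
      intro hk
      rcases k with _ | _ | k
      · simpa [A, surv] using h1
      · exact h2
      · have hl2 : (List.range (k + 2)).map m = (List.range k).map m ++ [m k, m (k + 1)] := by
          rw [range_map_succ, range_map_succ, List.append_assoc]; rfl
        have hl3 : (List.range (k + 3)).map m =
            (List.range k).map m ++ [m k, m (k + 1), m (k + 2)] := by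
          rw [range_map_succ, hl2, List.append_assoc]; rfl
        have h3 : 2 * r * A (k + 2) ≤ A (k + 3) + q * A k := by
          simp only [A, hl2, hl3]
          exact recur hμ (hc (k + 2) hk) (hq k hk) _ s hs
        have h4 : q * A k ≤ r * A (k + 2) := calc
          q * A k ≤ r ^ 3 * A k := mul_le_mul' hq3 le_rfl
          _ = r * (r * (r * A k)) := by ring
          _ ≤ r * (r * A (k + 1)) :=
              mul_le_mul' le_rfl (mul_le_mul' le_rfl (ih k (by omega) (by omega)))
          _ ≤ r * A (k + 2) := mul_le_mul' le_rfl (ih (k + 1) (by omega) (by omega))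
        have hfin : r * A (k + 2) ≠ ∞ := ENNReal.mul_ne_top hr
          (ne_top_of_le_ne_top ENNReal.one_ne_top (surv_le_one hμ _ _))
        refine ENNReal.le_of_add_le_add_right hfin ?_
        calc r * A (k + 2) + r * A (k + 2) = 2 * r * A (k + 2) := by ring
          _ ≤ A (k + 3) + q * A k := h3
          _ ≤ A (k + 2 + 1) + r * A (k + 2) := add_le_add le_rfl h4
  have : ∀ k, k ≤ K → r ^ k ≤ A k := by
    intro k
    induction k with
    | zero => intro _; rw [hA0, pow_zero]
    | succ k ih =>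
      intro hk
      calc r ^ (k + 1) = r * r ^ k := pow_succ' r k
        _ ≤ r * A k := mul_le_mul' le_rfl (ih (by omega))
        _ ≤ A (k + 1) := key k (by omega)
  exact this K le_rfl

omit [NeZero d] in
/-- A strand moved far sideways avoids a fixed finite set. -/
lemma eventually_apart (j : Fin d) (T U : Finset (Pos d)) (a : Pos d) :
    ∀ᶠ l : ℕ in atTop, ∀ z ∈ T, (l : ℤ) • vec ((j, true) : Step d) + a + z ∉ U := by
  refine (eventually_all_finset T).2 fun z _ => ?_
  refine eventually_atTop.2 ⟨U.sup (fun u => (u j - a j - z j).toNat) + 1, fun l hl hmem => ?_⟩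
  have h1 := Finset.le_sup (f := fun u : Pos d => (u j - a j - z j).toNat) hmem
  simp [vec] at h1
  omega

/-- A summable family of weights, each eventually switched off, has small total in the end. -/
lemma eventually_tsum_le {ι : Type*} (f : ℕ → ι → ℝ≥0∞) (w : ι → ℝ≥0∞) (hw : ∑' x, w x ≠ ∞)
    (hle : ∀ l x, f l x ≤ w x) (h0 : ∀ x, ∀ᶠ l in atTop, f l x = 0) {η : ℝ≥0∞} (hη : η ≠ 0) :
    ∀ᶠ l in atTop, ∑' x, f l x ≤ η := by
  obtain ⟨S, hS⟩ := ((ENNReal.tendsto_nhds_zero.1 (ENNReal.tendsto_tsum_compl_atTop_zero hw)) η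
    (pos_iff_ne_zero.2 hη)).exists
  filter_upwards [(eventually_all_finset S).2 fun x _ => h0 x] with l hl
  rw [← ENNReal.sum_add_tsum_compl S, Finset.sum_eq_zero hl, zero_add]
  exact (ENNReal.tsum_le_tsum fun x : ((S : Set ι)ᶜ : Set ι) => hle l x).trans hS

omit [NeZero d] in
lemma start_ht {j : Fin d} (hj : j ≠ δ.1) (l : ℕ) :
    ht δ (start j l).x = ht δ (start j l).y := by
  simp [start, ht, vec, Pi.single_eq_of_ne hj.symm]

open Classical in
/-- For a far start the first two stages rarely fail. -/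
lemma far (hμ : Elliptic μ) (j : Fin d) (m₀ m₁ : ℕ) {η : ℝ≥0∞} (hη : η ≠ 0) :
    ∀ᶠ l in atTop, fail μ δ m₀ (start j l) ≤ η ∧
      open_ μ δ m₀ (fail μ δ m₁) (start j l) ≤ η := by
  have hM : ∀ m, (∑' i : Piece δ m, wt μ i) * ∑' i : Piece (opp δ) m, wt μ i ≠ ∞ := fun m =>
    ENNReal.mul_ne_top (ne_top_of_le_ne_top ENNReal.one_ne_top (mass_piece_le_one hμ _ m))
      (ne_top_of_le_ne_top ENNReal.one_ne_top (mass_piece_le_one hμ _ m))
  refine Eventually.and ?_ ?_
  · set f : ℕ → Piece δ m₀ × Piece (opp δ) m₀ → ℝ≥0∞ := fun l x =>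
      if Compat (start j l) x.1 x.2 then 0 else wt μ x.1 * wt μ x.2 with hf
    have h := eventually_tsum_le f (fun x => wt μ x.1 * wt μ x.2) ?_
      (fun l x => by simp only [hf]; split_ifs <;> simp) (fun x => ?_) hη
    · filter_upwards [h] with l hl
      simpa only [hf, fail, ENNReal.tsum_prod'] using hl
    · simp only [ENNReal.tsum_prod', ENNReal.tsum_mul_left, ENNReal.tsum_mul_right]
      exact hM m₀
    · filter_upwards [eventually_apart j ((Finset.range ((x.2 : Pref d).1 + 1)).image
        (pos (path (x.2 : Pref d)))) ({0} ∪ low (x.1 : Pref d) 0) 0] with l hl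
      simp only [hf]
      rw [if_pos]
      refine Finset.disjoint_left.2 fun z hz hzU => ?_
      obtain ⟨t, ht', rfl⟩ := Finset.mem_image.1 hz
      exact hl _ (Finset.mem_image_of_mem _ ht') (by simpa [start] using hzU)
  · set f : ℕ → (Piece δ m₀ × Piece (opp δ) m₀) × (Piece δ m₁ × Piece (opp δ) m₁) → ℝ≥0∞ :=
      fun l x => if Compat ((start j l).step x.1.1 x.1.2) x.2.1 x.2.2 then 0
        else wt μ x.1.1 * wt μ x.1.2 * (wt μ x.2.1 * wt μ x.2.2) with hf
    have h := eventually_tsum_le f
      (fun x => wt μ x.1.1 * wt μ x.1.2 * (wt μ x.2.1 * wt μ x.2.2)) ?_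
      (fun l x => by simp only [hf]; split_ifs <;> simp) (fun x => ?_) hη
    · filter_upwards [h] with l hl
      simpa only [hf, fail, open_, ENNReal.tsum_prod', ← ENNReal.tsum_mul_left, mul_ite, mul_zero]
        using hl
    · simp only [ENNReal.tsum_prod', ENNReal.tsum_mul_left, ENNReal.tsum_mul_right]
      exact ENNReal.mul_ne_top (hM m₀) (hM m₁)
    · filter_upwards [eventually_apart j ((Finset.range ((x.2.2 : Pref d).1 + 1)).image
        (pos (path (x.2.2 : Pref d))))
        (low (x.1.1 : Pref d) 0 ∪ low (x.2.1 : Pref d) (0 - endp (x.1.1 : Pref d)))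
        (endp (x.1.2 : Pref d))] with l hl
      simp only [hf]
      rw [if_pos]
      refine Finset.disjoint_left.2 fun z hz hzU => ?_
      obtain ⟨t, ht', rfl⟩ := Finset.mem_image.1 hz
      exact hl _ (Finset.mem_image_of_mem _ ht') (by simpa [start, St.step] using hzU)

/-- The bands `L * b ^ i`. -/
def band (L b i : ℕ) : ℕ := L * b ^ i

/-- The depth of the first `k` bands. -/
def depth (L b k : ℕ) : ℕ := ∑ i ∈ Finset.range k, band L b i

/-- The bands, the one before `k` stretched to make the total `n`. -/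
def stretch (L b k n i : ℕ) : ℕ := if i + 1 = k then n - depth L b (k - 1) else band L b i

/-- The schedule of depth `n`. -/
def sched (L b n : ℕ) : List ℕ :=
  if n < depth L b 3 then List.replicate n 1
  else (List.range (Nat.findGreatest (fun k => depth L b k ≤ n) n)).map
    (stretch L b (Nat.findGreatest (fun k => depth L b k ≤ n) n) n)

lemma depth_succ (L b k : ℕ) : depth L b (k + 1) = depth L b k + band L b k :=
  Finset.sum_range_succ _ _

lemma one_le_band {L b : ℕ} (hL : 1 ≤ L) (hb : 1 ≤ b) (i : ℕ) : 1 ≤ band L b i :=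
  Nat.one_le_iff_ne_zero.2 (Nat.mul_ne_zero (by omega) (pow_ne_zero _ (by omega)))

lemma depth_strictMono {L b : ℕ} (hL : 1 ≤ L) (hb : 1 ≤ b) : StrictMono (depth L b) :=
  strictMono_nat_of_lt_succ fun k => by
    rw [depth_succ]
    have := one_le_band hL hb k
    omega

/-- What the schedule is between the depths of `k` and of `k + 1` bands. -/
lemma sched_eq {L b : ℕ} (hL : 1 ≤ L) (hb : 1 ≤ b) {k n : ℕ} (hk : 3 ≤ k) (h : depth L b k ≤ n)
    (h' : n < depth L b (k + 1)) : sched L b n = (List.range k).map (stretch L b k n) := by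
  have h3 : depth L b 3 ≤ n := ((depth_strictMono hL hb).monotone hk).trans h
  have hk' : k ≤ n := ((depth_strictMono hL hb).id_le k).trans h
  have hfg : Nat.findGreatest (fun k => depth L b k ≤ n) n = k := by
    refine Nat.findGreatest_eq_iff.2 ⟨hk', fun _ => h, fun m hm hmn hle => ?_⟩
    have := (depth_strictMono hL hb).monotone (show k + 1 ≤ m from hm)
    omega
  rw [sched, if_neg (by omega), hfg]

lemma sched_ok {L b : ℕ} (hL : 1 ≤ L) (hb : 1 ≤ b) (n : ℕ) :
    (sched L b n).sum = n ∧ ∀ m ∈ sched L b n, 1 ≤ m := by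
  by_cases hn : n < depth L b 3
  · rw [sched, if_pos hn]
    exact ⟨by simp, fun m hm => (List.eq_of_mem_replicate hm).ge⟩
  have hex : ∃ k, 3 ≤ k ∧ depth L b k ≤ n ∧ n < depth L b (k + 1) := by
    have h30 : 3 ≤ depth L b 3 := (depth_strictMono hL hb).id_le 3
    have h3 : 3 ≤ n := by omega
    refine ⟨Nat.findGreatest (fun k => depth L b k ≤ n) n,
      Nat.le_findGreatest h3 (by omega), Nat.findGreatest_spec (P := fun k => depth L b k ≤ n) h3
        (by omega), ?_⟩
    by_contra hc
    have hle : Nat.findGreatest (fun k => depth L b k ≤ n) n + 1 ≤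
        depth L b (Nat.findGreatest (fun k => depth L b k ≤ n) n + 1) :=
      (depth_strictMono hL hb).id_le _
    have := Nat.le_findGreatest (P := fun k => depth L b k ≤ n) (le_trans hle (not_lt.1 hc))
      (not_lt.1 hc)
    omega
  obtain ⟨k, hk, h, h'⟩ := hex
  rw [sched_eq hL hb hk h h']
  obtain ⟨r, rfl⟩ : ∃ r, k = r + 1 := ⟨k - 1, by omega⟩
  have hmap : (List.range (r + 1)).map (stretch L b (r + 1) n) =
      (List.range r).map (band L b) ++ [n - depth L b r] := by
    have hcongr : (List.range r).map (stretch L b (r + 1) n) = (List.range r).map (band L b) :=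
      List.map_congr_left fun i hi => if_neg (by have := List.mem_range.1 hi; omega)
    rw [range_map_succ, hcongr]
    simp [stretch]
  have hr : depth L b r < n := (depth_strictMono hL hb (Nat.lt_succ_self r)).trans_le h
  refine ⟨?_, fun m hm => ?_⟩
  · rw [hmap, List.sum_append, List.sum_singleton, show ((List.range r).map (band L b)).sum
      = depth L b r from rfl]
    omega
  · rw [hmap, List.mem_append, List.mem_singleton] at hm
    rcases hm with hm | rfl
    · obtain ⟨i, -, rfl⟩ := List.mem_map.1 hm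
      exact one_le_band hL hb i
    · omega

end IndPf

open IndPf in
/-- Both strands cannot keep pieces of positive weight at every height. -/
theorem not_both (hμ : Elliptic μ) (hd : 2 ≤ d) (hX : MassStmt μ δ) (hY : MassStmt μ (opp δ))
    (hsw : SwitchStmt μ δ) (hQ : QStmt μ δ) : False := by
  have : Nontrivial (Fin d) := Fin.nontrivial_iff_two_le.2 hd
  obtain ⟨j, hj⟩ := exists_ne δ.1
  obtain ⟨cX, hcX0, hcX⟩ := hX
  obtain ⟨cY, hcY0, hcY⟩ := hY
  set r : ℝ≥0∞ := min (cX * cY) 1 / 2 with hr
  have h2r : 2 * r = min (cX * cY) 1 := ENNReal.mul_div_cancel two_ne_zero ENNReal.ofNat_ne_top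
  have hr0 : r ≠ 0 := (ENNReal.div_pos
    (ne_of_gt (lt_min (ENNReal.mul_pos hcX0 hcY0) zero_lt_one)) ENNReal.ofNat_ne_top).ne'
  have hr1 : r ≤ 1 := le_trans ENNReal.half_le_self (min_le_right _ _)
  have hrtop : r ≠ ∞ := ne_top_of_le_ne_top ENNReal.one_ne_top hr1
  have hmass : ∀ m, 2 * r ≤ mass μ (Piece δ m) * mass μ (Piece (opp δ) m) := fun m =>
    h2r.trans_le ((min_le_left _ _).trans (mul_le_mul' (hcX m) (hcY m)))
  obtain ⟨b, hb⟩ := ENNReal.exists_nat_gt (ENNReal.div_ne_top ENNReal.ofNat_ne_top hr0 :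
    (2 : ℝ≥0∞) / r ≠ ∞)
  have hbr : 2 ≤ (b : ℝ≥0∞) * r := by
    rw [← ENNReal.div_le_iff hr0 hrtop]; exact hb.le
  have hb1 : 1 ≤ b := Nat.one_le_iff_ne_zero.2 fun h => by simp [h] at hbr
  obtain ⟨g₀, hg⟩ := hQ (b + b ^ 2 + b ^ 3) (r ^ 3) (pow_ne_zero _ hr0)
  set L := g₀ + 1
  have hL : 1 ≤ L := Nat.succ_le_succ (Nat.zero_le _)
  obtain ⟨l, hl1, hl2⟩ := ((eventually_ge_atTop 1).and (far hμ (δ := δ) j (band L b 0) (band L b 1)
    (mul_ne_zero hr0 hr0))).exists
  set s := start j l
  have hfin : fail μ δ (band L b 0) s ≠ ∞ := ne_top_of_le_ne_top (ENNReal.mul_ne_top hrtop hrtop) hl2.1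
  have hb0 : r ≤ surv μ δ [band L b 0] s := by
    have h := one_stage (hmass (band L b 0)) s
    refine ENNReal.le_of_add_le_add_right hrtop ?_
    calc r + r = 2 * r := (two_mul r).symm
      _ ≤ surv μ δ [band L b 0] s + fail μ δ (band L b 0) s := h
      _ ≤ surv μ δ [band L b 0] s + r :=
          add_le_add le_rfl (hl2.1.trans (mul_le_of_le_one_right' hr1))
  have hb01 : r * surv μ δ [band L b 0] s ≤ surv μ δ [band L b 0, band L b 1] s := by
    have h : 2 * r * surv μ δ [band L b 0] s ≤
        surv μ δ [band L b 0, band L b 1] s + open_ μ δ (band L b 0) (fail μ δ (band L b 1)) s := by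
      calc 2 * r * surv μ δ [band L b 0] s
          = stage μ δ (band L b 0) (fun _ => 2 * r * 1) s := (stage_mul _ _ _ _).symm
        _ ≤ stage μ δ (band L b 0)
              (fun t => surv μ δ [band L b 1] t + fail μ δ (band L b 1) t) s :=
            stage_mono _ _ fun _ _ => (mul_one (2 * r)).trans_le (one_stage (hmass _) _)
        _ = surv μ δ [band L b 0, band L b 1] s +
              stage μ δ (band L b 0) (fail μ δ (band L b 1)) s := stage_add _ _ _ _
        _ ≤ _ := add_le_add le_rfl (stage_le_open _ _ _)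
    have htop : r * surv μ δ [band L b 0] s ≠ ∞ := ENNReal.mul_ne_top hrtop
      (ne_top_of_le_ne_top ENNReal.one_ne_top (surv_le_one hμ _ _))
    refine ENNReal.le_of_add_le_add_right htop ?_
    calc r * surv μ δ [band L b 0] s + r * surv μ δ [band L b 0] s
        = 2 * r * surv μ δ [band L b 0] s := by ring
      _ ≤ _ := h
      _ ≤ _ := add_le_add le_rfl (hl2.2.trans (mul_le_mul' le_rfl hb0))
  have hstage : ∀ k, 3 ≤ k → ∀ n, depth L b k ≤ n → n < depth L b (k + 1) →
      r ^ k ≤ surv μ δ (sched L b n) s := fun k hk n h h' => by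
    rw [sched_eq hL hb1 hk h h']
    have e : ∀ i, i + 1 ≠ k → stretch L b k n i = band L b i := fun i hi => if_neg hi
    refine chain hμ _ k s (start_ht hj l) hrtop (fun i _ => hmass _) (fun i hi v hv => ?_) le_rfl
      (by rwa [e 0 (by omega)]) (by rwa [e 0 (by omega), e 1 (by omega)])
    have hle : stretch L b k n (i + 2) ≤ band L b (i + 2) + band L b (i + 3) := by
      by_cases hik : i + 2 + 1 = k
      · rw [stretch, if_pos hik]
        have h2 : depth L b (i + 3) = depth L b (i + 2) + band L b (i + 2) := depth_succ L b (i + 2)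
        have h3 : depth L b (i + 3 + 1) = depth L b (i + 3) + band L b (i + 3) :=
          depth_succ L b (i + 3)
        subst hik
        rw [show i + 2 + 1 - 1 = i + 2 by omega]
        rw [show i + 2 + 1 = i + 3 by omega] at h h'
        omega
      · rw [e _ hik]
        exact Nat.le_add_right _ _
    rw [e i (by omega), e (i + 1) (by omega)]
    refine hg _ ?_ _ ?_ ?_ v hv
    · have : L * 1 ≤ band L b i := Nat.mul_le_mul_left _ (Nat.one_le_pow _ _ hb1)
      omega
    · have : band L b i ≤ band L b (i + 1) :=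
        Nat.mul_le_mul_left _ (Nat.pow_le_pow_right hb1 (Nat.le_succ i))
      omega
    · have e1 : band L b (i + 1) = b * band L b i := by simp only [band]; ring
      have e2 : band L b (i + 2) = b ^ 2 * band L b i := by simp only [band]; ring
      have e3 : band L b (i + 3) = b ^ 3 * band L b i := by simp only [band]; ring
      rw [add_mul, add_mul]
      omega
  refine hsw j hj l hl1 (sched L b) (sched_ok hL hb1) (ENNReal.eq_top_of_forall_nnreal_le fun x => ?_)
  have hlim : Tendsto (fun k : ℕ => (2 : ℝ≥0∞) ^ k) atTop (𝓝 ∞) :=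
    ENNReal.tendsto_pow_atTop_nhds_top_iff.2 ENNReal.one_lt_two
  obtain ⟨k, hk, hk3⟩ := (((ENNReal.tendsto_nhds_top_iff_nnreal.1 hlim) x).and
    (eventually_ge_atTop 3)).exists
  calc (x : ℝ≥0∞) ≤ ((b : ℝ≥0∞) * r) ^ k := hk.le.trans (pow_le_pow_left₀ zero_le hbr k)
    _ = ((b ^ k : ℕ) : ℝ≥0∞) * r ^ k := by push_cast; rw [mul_pow]
    _ ≤ (Finset.Ico (depth L b k) (depth L b (k + 1))).card * r ^ k := by
        refine mul_le_mul' (Nat.cast_le.2 ?_) le_rfl
        rw [Nat.card_Ico, depth_succ, Nat.add_sub_cancel_left]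
        exact Nat.le_mul_of_pos_left _ hL
    _ ≤ ∑ n ∈ Finset.Ico (depth L b k) (depth L b (k + 1)), surv μ δ (sched L b n) s := by
        rw [← nsmul_eq_mul]
        exact Finset.card_nsmul_le_sum _ _ _ fun n hn =>
          hstage k hk3 n (Finset.mem_Ico.1 hn).1 (Finset.mem_Ico.1 hn).2
    _ ≤ ∑' n, surv μ δ (sched L b n) s := ENNReal.sum_le_tsum _

end Vale.Agent.P147.Window
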