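import Vale.Agent.P147.Window.Api

/-!
P147: walks climbing for ever without going back give every height a positive weight of pieces.
-/

open MeasureTheory Filter
open scoped ENNReal Topology

noncomputable section

namespace Vale.Agent.P147.Window

open Flux (Pref path endp left)

variable {d : ℕ} [NeZero d] {μ : Measure (Step d → ℝ)} {δ : Step d}

/-- Module Mass. -/
theorem mass_pos (δ : Step d) (h : nu μ (NoBack δ ∩ Unbdd δ) ≠ 0) : MassStmt μ δ := by
  refine ⟨nu μ (NoBack δ ∩ Unbdd δ), h, fun m => ?_⟩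
  rw [mass_eq δ _ subset_rfl]
  refine measure_mono fun η hη => ?_
  obtain ⟨n, hn⟩ := hη.2 m
  obtain ⟨p, -, hp⟩ := exists_hit δ hn
  exact Set.mem_iUnion.2 ⟨⟨⟨p, fun t => η t⟩, mem_piece_of_climb ⟨hp, fun t _ => hη.1 t⟩⟩,
    fun t ht => (ext'_lt (fun t : Fin p => η t) ht).symm⟩

omit [NeZero d] in
/-- A forward walk climbs for ever. -/
theorem fwd_subset (δ : Step d) : Dir.Fwd (Planar.ax δ) ⊆ NoBack δ ∩ Unbdd δ := fun η hη =>
  ⟨Flux.fwd_subset_noBack δ hη, fun j => by
    obtain ⟨n, hn⟩ := (hη.2.eventually_ge_atTop (j : ℝ)).exists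
    rw [Planar.lh_ax] at hn
    exact ⟨n, by exact_mod_cast hn⟩⟩

end Vale.Agent.P147.Window
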