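import Vale.Agent.P147.Window.Defs
import Vale.Agent.P147.Flux.Strip

/-!
P147: if no walk can descend for ever, every walk climbs to every level.
-/

open MeasureTheory Filter
open scoped ENNReal Topology

noncomputable section

namespace Vale.Agent.P147.Window

variable {d : ℕ} [NeZero d] {μ : Measure (Step d → ℝ)}

/-- Module Strip: if no walk can descend for ever, every walk climbs to every level. -/
theorem strip (hμ : Elliptic μ) (δ : Step d) : StripStmt μ δ := fun _ h =>
  Flux.unbdd_of_null hμ δ <| measure_mono_null (t := NoBack (opp δ) ∩ Unbdd (opp δ)) (fun η hη => ⟨Flux.fwd_subset_noBack _ hη, fun j => by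
    obtain ⟨n, hn⟩ := (hη.2.eventually_ge_atTop (j : ℝ)).exists
    rw [Planar.lh_ax] at hn
    exact ⟨n, by exact_mod_cast hn⟩⟩) h

end Vale.Agent.P147.Window
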