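import Vale.Agent.P147.Window.Api
import Vale.Agent.P147.Planar.FromWalk

/-!
P147: a climbing strand, a short detour over its top and a descending strand avoiding it make one
walk, decoded from its maximum, so disjoint pairs of strands have finite total weight over depths.
-/

open MeasureTheory Filter
open scoped ENNReal Topology

noncomputable section

namespace Vale.Agent.P147.Window

open Flux (Pref path endp left)

variable {d : ℕ} [NeZero d] {μ : Measure (Step d → ℝ)} {δ : Step d}

open Classical in
/-- The weight of disjoint pairs of long strands at a state. -/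
def pairW (μ : Measure (Step d → ℝ)) (δ : Step d) (n : ℕ) (s : St d) : ℝ≥0∞ :=
  ∑' q : Piece δ n × Piece (opp δ) n, if Compat s q.1 q.2 then wt μ q.1 * wt μ q.2 else 0

omit [NeZero d] in
lemma sum_pos_of_mem {ms : List ℕ} {m : ℕ} (h : ∀ r ∈ m :: ms, 1 ≤ r) :
    1 ≤ m ∧ ∀ r ∈ ms, 1 ≤ r :=
  ⟨h m (List.mem_cons_self ..), fun r hr => h r (List.mem_cons_of_mem _ hr)⟩

/-- The bands together are at most the pairs of whole strands. -/
lemma surv_le (hμ : Elliptic μ) : ∀ (ms : List ℕ), (∀ m ∈ ms, 1 ≤ m) → ∀ s : St d,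
    ht δ s.y = ht δ s.x → (∀ z ∈ s.last, ht δ s.x ≤ ht δ z) → s.y ∉ s.last →
      surv μ δ ms s ≤ pairW μ δ ms.sum s := by
  classical
  intro ms
  induction ms with
  | nil =>
    intro _ s _ _ hy
    have := isProbabilityMeasure_nu hμ
    let e : Pref d := ⟨0, fun t => Fin.elim0 t⟩
    have hp : ∀ δ' : Step d, e ∈ Piece δ' ([] : List ℕ).sum := fun δ' =>
      ⟨⟨by simp [e, hgt, pos], fun t ht' => absurd ht' (Nat.not_lt_zero t)⟩,
        fun t ht' => by rw [Nat.le_zero.1 ht']; simp [Up, pos]⟩
    have h1 : wt μ e = 1 := by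
      rw [wt, w, show cyl e.1 (path e) = Set.univ from Set.eq_univ_of_forall fun η t ht =>
        absurd ht (Nat.not_lt_zero t)]
      exact measure_univ
    have hc : Compat s e e := by
      refine Finset.disjoint_left.2 fun z hz hz' => ?_
      obtain ⟨t, ht', rfl⟩ := mem_trace.1 hz
      obtain rfl : t = 0 := by simpa [e] using ht'
      simp only [pos, add_zero, Finset.mem_union] at hz'
      rcases hz' with h | h
      · exact hy h
      · obtain ⟨u, hu, -⟩ := mem_low.1 h
        exact absurd hu (Nat.not_lt_zero u)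
    refine le_trans ?_ (ENNReal.le_tsum (⟨⟨e, hp δ⟩, ⟨e, hp (opp δ)⟩⟩ :
      Piece δ ([] : List ℕ).sum × Piece (opp δ) ([] : List ℕ).sum))
    rw [if_pos hc]
    simp [surv, h1]
  | cons m ms ih =>
    intro hms s hh hlast hy
    obtain ⟨hm, hms'⟩ := sum_pos_of_mem hms
    set n := ms.sum
    let X := (Piece δ m × Piece (opp δ) m) × (Piece δ n × Piece (opp δ) n)
    let f : X → Piece δ (m :: ms).sum × Piece (opp δ) (m :: ms).sum := fun r =>
      (⟨cat r.2.1.1 r.1.1.1, by rw [List.sum_cons, add_comm]; exact cat_mem r.2.1.2 r.1.1.2⟩,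
        ⟨cat r.1.2.1 r.2.2.1, by rw [List.sum_cons]; exact cat_mem r.1.2.2 r.2.2.2⟩)
    have hf : Function.Injective f := by
      intro r r' h
      simp only [f, Prod.mk.injEq, Subtype.mk.injEq] at h
      obtain ⟨a1, a2⟩ := cat_inj r.2.1.2 r'.2.1.2 r.1.1.2 r'.1.1.2 h.1
      obtain ⟨b1, b2⟩ := cat_inj r.1.2.2 r'.1.2.2 r.2.2.2 r'.2.2.2 h.2
      exact Prod.ext (Prod.ext (Subtype.ext a2) (Subtype.ext b1))
        (Prod.ext (Subtype.ext a1) (Subtype.ext b2))
    set g : Piece δ (m :: ms).sum × Piece (opp δ) (m :: ms).sum → ℝ≥0∞ := fun q =>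
      if Compat s q.1 q.2 then wt μ q.1 * wt μ q.2 else 0
    have hkey : ∀ (i : Piece δ m) (j : Piece (opp δ) m),
        (if Compat s i j then wt μ i * wt μ j * surv μ δ ms (s.step i j) else 0) ≤
          ∑' q : Piece δ n × Piece (opp δ) n, g (f ((i, j), q)) := by
      intro i j
      split_ifs with hc
      swap
      · exact zero_le
      have hei : ht δ (s.x - endp (i : Pref d)) = ht δ s.x - m := by
        rw [ht_sub, piece_end i.2]
      have hej : ht δ (s.y + endp (j : Pref d)) = ht δ s.y - m := by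
        rw [ht_add, piece_opp_end j.2]; ring
      have hlow : ∀ (k : Pref d) (r : ℕ), k ∈ Piece δ r → ∀ x, ∀ z ∈ low k x,
          ht δ x - r ≤ ht δ z ∧ ht δ z < ht δ x := fun k r hk x z hz => by
        obtain ⟨t, ht', rfl⟩ := mem_low.1 hz
        rw [ht_add, ht_sub, piece_end hk]
        have := piece_nonneg hk ht'.le
        have := piece_lt hk ht'
        omega
      have htr : ∀ (k : Pref d) (r : ℕ), k ∈ Piece (opp δ) r → ∀ y, ∀ z ∈ trace k y,
          ht δ y - r ≤ ht δ z ∧ ht δ z ≤ ht δ y := fun k r hk y z hz => by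
        obtain ⟨t, ht', rfl⟩ := mem_trace.1 hz
        rw [ht_add]
        have h1 := piece_nonneg hk ht'
        have h2 := piece_le hk ht'
        rw [ht_opp] at h1 h2
        omega
      refine le_trans (mul_le_mul' le_rfl (ih hms' (s.step i j) (by
        simp only [St.step]; omega) (fun z hz => ?_) (fun hz => ?_))) ?_
      · simp only [St.step] at hz ⊢
        rw [hei]
        exact (hlow _ _ i.2 _ z hz).1
      · exact Finset.disjoint_left.1 hc (mem_trace.2 ⟨(j : Pref d).1, le_rfl, rfl⟩)
          (Finset.mem_union_right _ hz)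
      rw [pairW, ← ENNReal.tsum_mul_left]
      refine ENNReal.tsum_le_tsum fun q => ?_
      by_cases hq : Compat (s.step i j) q.1 q.2
      swap
      · rw [if_neg hq, mul_zero]; exact zero_le
      have hall : Compat s (cat q.1.1 i.1) (cat j.1 q.2.1) := by
        refine Finset.disjoint_left.2 fun z hz hz' => ?_
        rw [Finset.mem_union, mem_low_cat] at hz'
        rcases mem_trace_cat.1 hz with h | h
        · rcases hz' with h' | h' | h'
          · exact Finset.disjoint_left.1 hc h (Finset.mem_union_left _ h')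
          · have h1 := (htr _ _ j.2 _ z h).1
            have h2 := (hlow _ _ q.1.2 _ z h').2
            omega
          · exact Finset.disjoint_left.1 hc h (Finset.mem_union_right _ h')
        · rcases hz' with h' | h' | h'
          · have h1 := (htr _ _ q.2.2 _ z h).2
            have h2 := hlast z h'
            omega
          · exact Finset.disjoint_left.1 hq h (Finset.mem_union_right _ h')
          · exact Finset.disjoint_left.1 hq h (Finset.mem_union_left _ h')
      rw [if_pos hq]
      simp only [g, f]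
      rw [if_pos hall, wt_cat hμ q.1.2 i.2, wt_cat hμ j.2 q.2.2]
      exact le_of_eq (by ring)
    calc surv μ δ (m :: ms) s
        ≤ ∑' (i : Piece δ m) (j : Piece (opp δ) m) (q : Piece δ n × Piece (opp δ) n),
            g (f ((i, j), q)) := ENNReal.tsum_le_tsum fun i => ENNReal.tsum_le_tsum (hkey i)
      _ = ∑' r : X, g (f r) := by
          rw [← ENNReal.tsum_prod (f := fun i j =>
            ∑' q : Piece δ n × Piece (opp δ) n, g (f ((i, j), q)))]
          exact (ENNReal.tsum_prod' (f := fun r : X => g (f r))).symm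
      _ ≤ _ := ENNReal.tsum_comp_le_tsum_of_injective hf g

/-- The detour over the top, ending `l` steps aside of it. -/
def detour (δ : Step d) (j : Fin d) (l : ℕ) : ℕ → Step d :=
  glue (l + 3) (route δ j l) fun _ => opp δ

omit [NeZero d] in
lemma detour_hgt {j : Fin d} (hj : j ≠ δ.1) (l : ℕ) {t : ℕ} (h1 : 1 ≤ t) (h2 : t ≤ l + 3) :
    1 ≤ hgt δ (detour δ j l) t ∧ hgt δ (detour δ j l) t ≤ 2 := by
  rw [hgt, detour, pos_glue_le h2, ← hgt]
  rcases eq_or_lt_of_le h1 with rfl | h
  · simp [hgt, pos, route, ht_vec_self]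
  · rcases eq_or_lt_of_le h2 with rfl | h'
    · rw [route_end_hgt hj]; omega
    · rw [route_hgt hj l t (by omega) (by omega)]; omega

omit [NeZero d] in
lemma detour_end {j : Fin d} (hj : j ≠ δ.1) (l : ℕ) :
    pos (detour δ j l) (l + 4) = (l : ℤ) • vec ((j, true) : Step d) := by
  have hopp : vec (opp δ) = -vec δ := by
    rcases δ with ⟨a, b⟩
    cases b <;> simp [vec, opp, ← Pi.single_neg]
  rw [detour, show l + 4 = (l + 3) + 1 from rfl, pos_glue_add, Planar.route_pos hj]
  simp [pos, hopp]

/-- The steps of the switched walk before its descending end. -/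
def swPath (δ : Step d) (j : Fin d) (l : ℕ) (i k : Pref d) : ℕ → Step d :=
  glue i.1 (path i) (glue (l + 4) (detour δ j l) (glue k.1 (path k) fun _ => opp δ))

/-- Module Switch. -/
theorem switch (hμ : Elliptic μ) (δ : Step d) (hY : nu μ (NoBack (opp δ)) ≠ 0) :
    SwitchStmt μ δ := by
  classical
  intro j hj l hl sched hs
  have := isProbabilityMeasure_nu hμ
  set b := l + 4
  set Z := nu μ (NoBack (opp δ))
  set K := w μ b (detour δ j l) * (w μ 1 (fun _ => opp δ) * Z)
  set le' := (l : ℤ) • vec ((j, true) : Step d)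
  have hle : ht δ le' = 0 := by
    simp [le', ht, vec, Pi.single_eq_of_ne hj.symm]
  have hne : le' ≠ 0 := fun h => by
    have := congrFun h j
    simp [le', vec] at this
    omega
  let Q : ℕ → Type := fun n => {q : Piece δ n × Piece (opp δ) n // Compat (start j l) q.1 q.2}
  let E : (r : Σ n, Q n) → Set (ℕ → Step d) := fun r =>
    cyl (r.2.1.1.1.1 + (b + (r.2.1.2.1.1 + 1))) (swPath δ j l r.2.1.1 r.2.1.2) ∩
      shift (r.2.1.1.1.1 + (b + (r.2.1.2.1.1 + 1))) ⁻¹' (Set.univ ∩ Stay (Up (opp δ)))
  have geo : ∀ n (q : Q n),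
      w μ q.1.1.1.1 (path q.1.1.1) * w μ q.1.2.1.1 (path q.1.2.1) * K = nu μ (E ⟨n, q⟩) ∧
      ∀ η ∈ E ⟨n, q⟩, (∀ t, hgt δ η t ≤ n + 2) ∧ hgt δ η (q.1.1.1.1 + 2) = n + 2 ∧
        η ∈ cyl q.1.1.1.1 (path q.1.1.1) ∧
        shift (q.1.1.1.1 + b) η ∈ cyl q.1.2.1.1 (path q.1.2.1) := by
    intro n ⟨⟨⟨i, hi⟩, ⟨k, hk⟩⟩, hc⟩
    simp only [Compat, start] at hc
    simp only [E]
    have hi0 : ∀ t ≤ i.1, 0 ≤ ht δ (pos (path i) t) := fun t ht' => piece_nonneg hi ht'
    have hk0 : ∀ t ≤ k.1, ht δ (pos (path k) t) ≤ 0 ∧ -(n : ℤ) ≤ ht δ (pos (path k) t) := by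
      intro t ht'
      have h1 := piece_nonneg hk ht'
      have h2 := piece_le hk ht'
      rw [ht_opp] at h1 h2
      omega
    have hd : ∀ t, 1 ≤ t → t < b → 1 ≤ ht δ (pos (detour δ j l) t) := fun t h1 h2 =>
      (detour_hgt hj l h1 (by omega)).1
    have hd2 : ∀ t < b, 0 ≤ ht δ (pos (detour δ j l) t) ∧ ht δ (pos (detour δ j l) t) ≤ 2 := by
      intro t h2
      rcases Nat.eq_zero_or_pos t with rfl | h
      · simp [pos]
      · exact ⟨by have := hd t h h2; omega, (detour_hgt hj l h (by omega)).2⟩
    have hend : pos (detour δ j l) b = le' := detour_end hj l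
    set ζ := glue k.1 (path k) fun _ => opp δ
    set ρ := glue b (detour δ j l) ζ
    have hζ : ∀ t ≤ k.1, pos ζ t = pos (path k) t := fun t ht' => pos_glue_le ht'
    have hζend : pos ζ (k.1 + 1) = endp k + vec (opp δ) := by
      rw [pos_glue_add]; simp [endp, pos]
    have hw : w μ (i.1 + (b + (k.1 + 1))) (swPath δ j l i k) =
        w μ i.1 (path i) * (w μ b (detour δ j l) * (w μ k.1 (path k) * w μ 1 fun _ => opp δ)) := by
      rw [swPath, w_glue hμ, w_glue hμ, w_glue hμ]
      · intro s hs t ht' he
        obtain rfl : t = 0 := by omega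
        have h1 := hk.1.2 s hs
        have h2 := hk.1.1
        simp only [hgt, he, pos, add_zero] at h1 h2
        omega
      · intro s hs t ht' he
        rw [hend, hζ t (by omega)] at he
        rcases Nat.eq_zero_or_pos s with rfl | h
        · refine Finset.disjoint_left.1 hc (mem_trace.2 ⟨t, by omega, rfl⟩) ?_
          rw [← he]
          simp [pos]
        · have h1 := congrArg (ht δ) he
          rw [ht_add, hle] at h1
          have := hd s h hs
          have := (hk0 t (by omega)).1
          omega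
      · intro s hs t ht' he
        have h1 := congrArg (ht δ) he
        rcases lt_or_ge t b with h | h
        · rw [ht_add, pos_glue_le h.le, show ht δ (pos (path i) i.1) = n from hi.1.1] at h1
          have := piece_lt hi hs
          have := (hd2 t h).1
          omega
        · obtain ⟨u, rfl⟩ := Nat.exists_eq_add_of_le h
          rw [pos_glue_add, hend, hζ u (by omega)] at he
          refine Finset.disjoint_left.1 hc (mem_trace.2 ⟨u, by omega, rfl⟩)
            (Finset.mem_union_right _ (mem_low.2 ⟨s, hs, ?_⟩))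
          rw [he, endp]
          abel
    have hP : pos (swPath δ j l i k) (i.1 + (b + (k.1 + 1))) =
        endp i + (le' + (endp k + vec (opp δ))) := by
      rw [swPath, pos_glue_add, pos_glue_add, hend, hζend]; rfl
    have hPht : ht δ (pos (swPath δ j l i k) (i.1 + (b + (k.1 + 1)))) = -1 := by
      rw [hP, ht_add, ht_add, ht_add, hle, piece_end hi, piece_opp_end hk, ht_vec_opp]
      ring
    have hbound : ∀ t < i.1 + (b + (k.1 + 1)),
        0 ≤ ht δ (pos (swPath δ j l i k) t) ∧ ht δ (pos (swPath δ j l i k) t) ≤ n + 2 := by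
      intro t ht'
      rcases lt_or_ge t i.1 with h | h
      · rw [swPath, pos_glue_le h.le]
        exact ⟨hi0 t h.le, by have := piece_le hi h.le; omega⟩
      obtain ⟨u, rfl⟩ := Nat.exists_eq_add_of_le h
      rw [swPath, pos_glue_add, ht_add, show ht δ (pos (path i) i.1) = n from hi.1.1]
      rcases lt_or_ge u b with h' | h'
      · rw [pos_glue_le h'.le]
        have := hd2 u h'
        omega
      obtain ⟨v, rfl⟩ := Nat.exists_eq_add_of_le h'
      rw [pos_glue_add, hend, ht_add, hle, hζ v (by omega)]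
      have := hk0 v (by omega)
      omega
    refine ⟨?_, ?_⟩
    · show _ = nu μ (cyl (i.1 + (b + (k.1 + 1))) (swPath δ j l i k) ∩ _)
      rw [factor hμ (fun t ht' hmem => ?_) MeasurableSet.univ, Set.univ_inter, hw]
      · simp only [K, Z, NoBack]
        ring
      · simp only [Up, Set.mem_ofPred_eq, ht_opp, ht_sub, hPht] at hmem
        have := (hbound t ht').1
        omega
    rintro η ⟨hc', -, htail⟩
    have hpos : ∀ t ≤ i.1 + (b + (k.1 + 1)), pos η t = pos (swPath δ j l i k) t := fun t ht' =>
      pos_congr fun s hs => hc' s (by omega)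
    refine ⟨fun t => ?_, ?_, fun t ht' => ?_, fun t ht' => ?_⟩
    · rcases lt_or_ge t (i.1 + (b + (k.1 + 1))) with h | h
      · rw [hgt, hpos t h.le]; exact (hbound t h).2
      · obtain ⟨u, rfl⟩ := Nat.exists_eq_add_of_le h
        have h1 := htail u
        simp only [Up, Set.mem_ofPred_eq, ht_opp] at h1
        rw [hgt, pos_add, ht_add, hpos _ le_rfl, hPht]
        omega
    · rw [hgt, hpos _ (by omega), swPath, pos_glue_add, pos_glue_le (show 2 ≤ b by omega), ht_add,
        show ht δ (pos (path i) i.1) = n from hi.1.1, detour, pos_glue_le (by omega : 2 ≤ l + 3),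
        ← hgt, route_hgt hj l 2 le_rfl (by omega)]
    · show η t = path i t
      rw [hc' t (show t < i.1 + (b + (k.1 + 1)) by omega), swPath, glue_lt ht']
    · show η (i.1 + b + t) = path k t
      rw [hc' _ (show i.1 + b + t < i.1 + (b + (k.1 + 1)) by omega), swPath, add_assoc, glue_add,
        glue_add, glue_lt ht']
  have hdisj : Pairwise (Function.onFun Disjoint E) := by
    rintro ⟨n, q⟩ ⟨n', q'⟩ hne
    refine Set.disjoint_left.2 fun η h h' => hne ?_
    obtain ⟨a1, a2, a3, a4⟩ := (geo n q).2 η h
    obtain ⟨b1, b2, b3, b4⟩ := (geo n' q').2 η h'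
    obtain rfl : n = n' := by
      have := a1 (q'.1.1.1.1 + 2)
      have := b1 (q.1.1.1.1 + 2)
      omega
    have e1 : q.1.1 = q'.1.1 := Subtype.ext (piece_unique q.1.1.2 q'.1.1.2 a3 b3)
    rw [← e1] at b4
    have e2 : q.1.2 = q'.1.2 := Subtype.ext (piece_unique q.1.2.2 q'.1.2.2 a4 b4)
    exact congrArg _ (Subtype.ext (Prod.ext e1 e2))
  have hEm : ∀ r, MeasurableSet (E r) := fun r =>
    (measurableSet_cyl _ _).inter (measurable_shift _ (MeasurableSet.univ.inter (measurableSet_stay _)))
  have hK : K ≠ 0 := mul_ne_zero (w_ne_zero hμ _ _) (mul_ne_zero (w_ne_zero hμ _ _) hY)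
  refine fun htop => ?_
  have hsum : (∑' n, surv μ δ (sched n) (start j l)) * K ≤ 1 := by
    calc _ ≤ (∑' n, pairW μ δ n (start j l)) * K := by
          refine mul_le_mul' (ENNReal.tsum_le_tsum fun n => ?_) le_rfl
          have h := surv_le (δ := δ) hμ (sched n) (hs n).2 (start j l) (by
            show ht δ le' = ht δ 0
            rw [hle, ht_zero])
            (fun z hz => by simp [start] at hz; simp [hz, start])
            (by show le' ∉ ({0} : Finset (Pos d)); simpa using hne)
          rwa [(hs n).1] at h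
      _ ≤ ∑' n, ∑' q : Q n, nu μ (E ⟨n, q⟩) := by
          rw [← ENNReal.tsum_mul_right]
          refine ENNReal.tsum_le_tsum fun n => ?_
          rw [pairW, ← ENNReal.tsum_mul_right]
          refine le_of_eq ?_
          rw [← tsum_subtype_eq_of_support_subset (s := {q | Compat (start j l) q.1 q.2})]
          · refine tsum_congr fun q => ?_
            rw [if_pos (show Compat (start j l) q.1.1 q.1.2 from q.2)]
            exact (geo n q).1
          · intro q hq
            by_contra hc
            exact hq (by simp only [Set.mem_ofPred_eq] at hc; simp [hc])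
      _ = nu μ (⋃ r, E r) := by rw [measure_iUnion hdisj hEm, ENNReal.tsum_sigma']
      _ ≤ 1 := prob_le_one
  rw [htop, ENNReal.top_mul hK, top_le_iff] at hsum
  exact ENNReal.one_ne_top hsum

end Vale.Agent.P147.Window
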