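import Vale.Agent.P147.Window.Box
import Vale.Agent.P147.Window.Mass
import Vale.Agent.P147.Window.Switch
import Vale.Agent.P147.Window.Strip
import Vale.Agent.P147.Window.Induction
import Vale.Agent.P147.Window.Gap
import Vale.Agent.P147.Flux.Ergodic
import Vale.Agent.P147.Dir.Regen
import Vale.Agent.P147.Dir.Main
import Vale.Agent.P147.Dir.Bridge

/-!
P147: the zero-one law when, for one orientation of every axis, the lateral position at level
hitting times is tight at a scale balanced by the chance of a deep descent before an escape.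
-/

open MeasureTheory Filter
open scoped ENNReal Topology

noncomputable section

namespace Vale.Agent.P147.Window

open Flux (Pref path endp)

variable {d : ℕ}

/-- The first visit of level `n` is off the box of radius `r` around `c`, for a path. -/
def OffP (δ : Step d) (n : ℕ) (c : Pos d) (r : ℝ) : Set (ℕ → Step d) :=
  {η | ∃ p, η ∈ Hit δ (n : ℤ) p ∧ ¬ Near δ c (pos η p) r}

/-- An escape after a descent below `-n`, for a path. -/
def DipP (δ : Step d) (n : ℕ) : Set (ℕ → Step d) :=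
  {η | η ∈ Dir.Escape (Planar.ax δ) ∧ ∃ t, hgt δ η t ≤ -(n : ℤ)}

variable [NeZero d]

/-- The walk first visits level `n` at a site with a lateral coordinate more than `r` off `c`. -/
def Off (δ : Step d) (n : ℕ) (c : Pos d) (r : ℝ) : Set (Env d × (ℕ → ℝ)) :=
  {q | ∃ t, ht δ (walkPos q t) = (n : ℤ) ∧ (∀ s < t, ht δ (walkPos q s) < (n : ℤ)) ∧
    ∃ j, j ≠ δ.1 ∧ r < |((walkPos q t j - c j : ℤ) : ℝ)|}

/-- The walk escapes along `δ` and also visits a level at or below `-n`. -/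
def Dip (δ : Step d) (n : ℕ) : Set (Env d × (ℕ → ℝ)) :=
  {q | q ∈ Dir.AE (Planar.ax δ) ∧ ∃ t, ht δ (walkPos q t) ≤ -(n : ℤ)}

/-- The lateral position at the first visit of level `n` is tight at scale `n ^ a`, centred
anywhere. -/
def Boxed (μ : Measure (Step d → ℝ)) (δ : Step d) (a : ℝ) : Prop :=
  ∀ ε : ℝ≥0∞, ε ≠ 0 → ∃ K : ℕ, ∀ᶠ n : ℕ in atTop, ∃ c : Pos d,
    annealed μ (Off δ n c (K * (n : ℝ) ^ a)) ≤ ε

/-- Escapes after descents below `-n` have probability `o(n ^ (-(d - 1) * (a - 1 / 2)))`. -/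
def Dips (μ : Measure (Step d → ℝ)) (δ : Step d) (a : ℝ) : Prop :=
  Tendsto (fun n : ℕ => ENNReal.ofReal ((n : ℝ) ^ a / √(n : ℝ)) ^ (d - 1) *
    annealed μ (Dip δ n)) atTop (𝓝 0)

variable {μ : Measure (Step d → ℝ)} {δ : Step d}

lemma measurableSet_offP (δ : Step d) (n : ℕ) (c : Pos d) (r : ℝ) :
    MeasurableSet (OffP δ n c r) := by
  simp only [OffP, Set.ofPred_exists, Set.ofPred_and]
  exact MeasurableSet.iUnion fun p => (detBy_hit δ _ le_rfl).measurableSet.inter
    (measurable_pos p (MeasurableSet.of_discrete (s := {x | ¬ Near δ c x r})))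

omit [NeZero d] in
lemma measurableSet_dipP (δ : Step d) (n : ℕ) : MeasurableSet (DipP δ n) := by
  simp only [DipP, Set.ofPred_exists, Set.ofPred_and]
  exact (Dir.RegenPf.measurableSet_escape _).inter (MeasurableSet.iUnion fun t =>
    measurableSet_le (measurable_hgt δ t) measurable_const)

lemma annealed_off (δ : Step d) (n : ℕ) (c : Pos d) (r : ℝ) :
    annealed μ (Off δ n c r) = nu μ (OffP δ n c r) := by
  rw [nu, Measure.map_apply measurable_stepsOf (measurableSet_offP δ n c r)]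
  congr 1
  ext q
  simp [Off, OffP, Hit, Near, hgt, pos_stepsOf, not_le, and_assoc]

lemma annealed_dip (δ : Step d) (n : ℕ) : annealed μ (Dip δ n) = nu μ (DipP δ n) := by
  rw [nu, Measure.map_apply measurable_stepsOf (measurableSet_dipP δ n)]
  congr 1
  ext q
  simp [Dip, DipP, Dir.ae_eq_preimage, hgt, pos_stepsOf]

/-- Tightness at the hitting times gives tightness of the ends of pieces. -/
lemma box_of_off {a : ℝ} (h : ∀ ε : ℝ≥0∞, ε ≠ 0 → ∃ K : ℕ, ∀ᶠ n : ℕ in atTop, ∃ c : Pos d,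
    nu μ (OffP δ n c (K * (n : ℝ) ^ a)) ≤ ε) : BoxStmt μ δ a := fun ε hε => by
  obtain ⟨K, hK⟩ := h ε hε
  refine ⟨K, hK.mono fun n hn => ?_⟩
  obtain ⟨c, hc⟩ := hn
  refine ⟨c, le_trans (le_of_eq (mass_eq δ _ fun i hi => hi.1)) (le_trans (measure_mono ?_) hc)⟩
  intro η hη
  obtain ⟨⟨i, hi, hnear⟩, hcyl⟩ := Set.mem_iUnion.1 hη
  refine ⟨i.1, detBy_hit δ _ le_rfl (path i) η (fun t ht => (hcyl t ht).symm) hi.1, ?_⟩
  rwa [show pos η i.1 = endp i from pos_congr fun t ht => hcyl t ht]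

/-- Walks that are unbounded upwards escape, if some can do so without going back. -/
lemma unbdd_null (hμ : Elliptic μ) (hF : 0 < nu μ (Dir.Fwd (Planar.ax δ))) :
    nu μ (Unbdd δ \ Dir.Escape (Planar.ax δ)) = 0 :=
  (mul_eq_zero.1 (Flux.noBack_escape hμ δ)).resolve_right
    (hF.trans_le (measure_mono (Flux.fwd_subset_noBack δ))).ne'

lemma deep_le_dip (hμ : Elliptic μ) (hF : 0 < nu μ (Dir.Fwd (Planar.ax δ))) (n : ℕ) :
    nu μ (Deep δ n) ≤ nu μ (DipP δ n) := by
  refine (measure_mono (t := DipP δ n ∪ (Unbdd δ \ Dir.Escape (Planar.ax δ))) fun η hη => ?_).trans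
    ((measure_union_le _ _).trans_eq (by rw [unbdd_null hμ hF, add_zero]))
  by_cases he : η ∈ Dir.Escape (Planar.ax δ)
  · obtain ⟨p, hp⟩ := Set.mem_iUnion.1 hη.1
    refine Or.inl ⟨he, p, ?_⟩
    have h1 := hp.1
    simp only [hgt, ht_opp] at h1 ⊢
    omega
  · exact Or.inr ⟨hη.2, he⟩

omit [NeZero d] in
/-- An escape makes the walk unbounded upwards. -/
lemma dip_le_deep (n : ℕ) : DipP δ n ⊆ Deep δ n := fun η ⟨he, t, ht'⟩ => by
  obtain ⟨p, -, hp⟩ := exists_hit (opp δ) (j := n) (n := t) (η := η) (by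
    simp only [hgt, ht_opp] at ht' ⊢
    omega)
  refine ⟨Set.mem_iUnion.2 ⟨p, hp⟩, fun j => ?_⟩
  obtain ⟨m, hm⟩ := (he.eventually_ge_atTop (j : ℝ)).exists
  rw [Planar.lh_ax] at hm
  exact ⟨m, by exact_mod_cast hm⟩

/-- At the scale of the square root no assumption on descents is needed. -/
lemma dips_half (hμ : Elliptic μ) (δ : Step d) : Dips μ δ (1 / 2) := by
  have h0 : Tendsto (fun n => nu μ (DipP δ n)) atTop (𝓝 0) := by
    by_cases hE : nu μ (Dir.Escape (Planar.ax δ)) = 0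
    · simp [fun n => measure_mono_null (fun η hη => hη.1 : DipP δ n ⊆ _) hE]
    exact tendsto_of_tendsto_of_tendsto_of_le_of_le tendsto_const_nhds
      (deep_null hμ (Dir.RegenPf.fwd_pos hμ (pos_iff_ne_zero.2 hE)))
      (fun n => zero_le) fun n => measure_mono (dip_le_deep n)
  refine h0.congr' ((eventually_gt_atTop 0).mono fun n hn => ?_)
  have hn' : (0 : ℝ) < n := by exact_mod_cast hn
  show _ = _ * annealed μ (Dip δ n)
  rw [annealed_dip, ← Real.sqrt_eq_rpow, div_self (Real.sqrt_pos.2 hn').ne', ENNReal.ofReal_one,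
    one_pow, one_mul]

/-- The asymptotic direction puts the hitting sites of level `n` within a multiple of `n`. -/
lemma box_one (hμ : Elliptic μ) (hdir : Dir.DirectionStmt μ (Planar.ax δ))
    (hE : 0 < nu μ (Dir.Escape (Planar.ax δ))) : BoxStmt μ δ 1 := by
  have := isProbabilityMeasure_nu hμ
  obtain ⟨v, hv⟩ := hdir hμ (Dir.ne_zero_of_escape hE) hE
  set K := ⌈∑ j, (|v j| + 1)⌉₊
  set B : ℕ → Set (ℕ → Step d) := fun n => Dir.Escape (Planar.ax δ) ∩
    ⋃ t, ⋃ (_ : n ≤ t), {η | ∃ j, (K : ℝ) * (ht δ (pos η t) : ℝ) < |(pos η t j : ℝ)|}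
  have hBm : ∀ n, MeasurableSet (B n) := fun n => (Dir.RegenPf.measurableSet_escape _).inter
    (MeasurableSet.iUnion fun t => MeasurableSet.iUnion fun _ => measurable_pos t
      (MeasurableSet.of_discrete (s := {x : Pos d | ∃ j, (K : ℝ) * (ht δ x : ℝ) < |(x j : ℝ)|})))
  have hanti : Antitone B := fun a b hab η hη => by
    obtain ⟨h1, h2⟩ := hη
    simp only [Set.mem_iUnion, exists_prop] at h2
    obtain ⟨t, ht', h2⟩ := h2
    exact ⟨h1, Set.mem_iUnion₂.2 ⟨t, hab.trans ht', h2⟩⟩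
  have h0 : nu μ (⋂ n, B n) = 0 := by
    refine measure_eq_zero_iff_ae_notMem.2 ?_
    filter_upwards [hv.2] with η hη hmem
    have he : η ∈ Dir.Escape (Planar.ax δ) := (Set.mem_iInter.1 hmem 0).1
    obtain ⟨N, hN⟩ := eventually_atTop.1 ((eventually_all.2 fun j =>
      (hη he j).abs.eventually_lt_const (lt_add_one |v j|)).and (he.eventually_gt_atTop 0))
    obtain ⟨t, ht', j, hj⟩ := Set.mem_iUnion₂.1 (Set.mem_iInter.1 hmem N).2
    obtain ⟨h1, h2⟩ := hN t ht'
    have h3 := h1 j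
    rw [Planar.lh_ax] at h2 h3
    rw [abs_div, abs_of_pos h2, div_lt_iff₀ h2] at h3
    have h4 : |v j| + 1 ≤ (K : ℝ) := (Finset.single_le_sum (f := fun j => |v j| + 1)
      (fun j _ => by positivity) (Finset.mem_univ j)).trans (Nat.le_ceil _)
    exact absurd (h3.trans_le (mul_le_mul_of_nonneg_right h4 h2.le)) hj.le.not_gt
  have hlim : Tendsto (fun n => nu μ (B n)) atTop (𝓝 0) := by
    simpa [h0, Function.comp_def] using tendsto_measure_iInter_atTop (μ := nu μ)
      (fun n => (hBm n).nullMeasurableSet) hanti ⟨0, measure_ne_top _ _⟩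
  refine box_of_off fun ε hε => ⟨K, ?_⟩
  filter_upwards [(ENNReal.tendsto_nhds_zero.1 (by simpa using (Flux.reach_null hμ δ).add hlim)) ε
    (pos_iff_ne_zero.2 hε)] with n hn
  refine ⟨0, le_trans ?_ hn⟩
  refine (measure_mono (t := (((⋃ p, Hit δ (n : ℤ) p) \ Unbdd δ) ∪ B n) ∪
    (Unbdd δ \ Dir.Escape (Planar.ax δ))) fun η hη => ?_).trans
    ((measure_union_le _ _).trans ((add_le_add (measure_union_le _ _)
      (unbdd_null hμ (Dir.RegenPf.fwd_pos hμ hE)).le).trans_eq (add_zero _)))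
  obtain ⟨p, hp, hfar⟩ := hη
  by_cases hu : η ∈ Unbdd δ
  · by_cases he : η ∈ Dir.Escape (Planar.ax δ)
    · refine Or.inl (Or.inr ⟨he, Set.mem_iUnion₂.2 ⟨p, ?_, ?_⟩⟩)
      · have := hgt_le δ η p
        rw [hp.1] at this
        exact_mod_cast this
      · simp only [Near, not_forall, not_le, Pi.zero_apply, sub_zero] at hfar
        obtain ⟨j, -, hj⟩ := hfar
        refine ⟨j, ?_⟩
        have e : (ht δ (pos η p) : ℝ) = (n : ℝ) := by
          rw [show ht δ (pos η p) = (n : ℤ) from hp.1]; norm_cast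
        rw [e]
        simpa using hj
    · exact Or.inr ⟨hu, he⟩
  · exact Or.inl (Or.inl ⟨Set.mem_iUnion.2 ⟨p, hp⟩, hu⟩)

/-- An axis whose escape is possible is escaped along almost surely under the criterion. -/
theorem box_one_side (hμ : Elliptic μ) (hd : 2 ≤ d) {a : ℝ} (ha : 0 ≤ a)
    (hE : 0 < nu μ (Dir.Escape (Planar.ax δ))) (hbox : BoxStmt μ δ a) (hdips : Dips μ δ a) :
    nu μ (Dir.Escape (Planar.ax δ)) = 1 := by
  have hF := Dir.RegenPf.fwd_pos hμ hE
  refine Flux.escape hμ δ ?_ hF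
  by_cases h : nu μ (NoBack (opp δ) ∩ Unbdd (opp δ)) = 0
  · exact strip hμ δ hF h
  have hdeep : Tendsto (fun n : ℕ => ENNReal.ofReal ((n : ℝ) ^ a / √(n : ℝ)) ^ (d - 1) *
      nu μ (Deep δ n)) atTop (𝓝 0) :=
    tendsto_of_tendsto_of_tendsto_of_le_of_le tendsto_const_nhds hdips (fun n => zero_le)
      fun n => mul_le_mul' le_rfl ((deep_le_dip hμ hF n).trans_eq (annealed_dip δ n).symm)
  exact (not_both hμ hd
    (mass_pos δ fun h0 => hF.ne' (measure_mono_null (fwd_subset δ) h0))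
    (mass_pos (opp δ) h)
    (switch hμ δ fun h0 => h (measure_mono_null Set.inter_subset_left h0))
    (box_core hμ ha (gap hμ hd (Dir.regen μ (Planar.ax δ) δ hμ (Planar.norm_ax δ) hE))
      hbox hdeep)).elim

/-- The criterion on one orientation decides both orientations of an axis. -/
theorem axis_zero_one (hμ : Elliptic μ) (hd : 2 ≤ d) (hdir : ∀ l, Dir.DirectionStmt μ l)
    {δ : Step d} (h : Boxed μ δ (1 / 2) ∨ Dips μ δ 1 ∨ ∃ a ≥ 0, Boxed μ δ a ∧ Dips μ δ a)
    {e : Step d} (he : e.1 = δ.1) (hpos : 0 < nu μ (Dir.Escape (Planar.ax e))) :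
    nu μ (Dir.Escape (Planar.ax e)) = 1 := by
  have := isProbabilityMeasure_nu hμ
  have hside : 0 < nu μ (Dir.Escape (Planar.ax δ)) → nu μ (Dir.Escape (Planar.ax δ)) = 1 := by
    intro hE
    have hb : ∀ a, Boxed μ δ a → BoxStmt μ δ a := fun a hB => box_of_off fun ε hε => by
      obtain ⟨K, hK⟩ := hB ε hε
      exact ⟨K, hK.mono fun n ⟨c, hc⟩ => ⟨c, (annealed_off δ n c _).symm.trans_le hc⟩⟩
    rcases h with h | h | ⟨a, ha, hB, hD⟩
    · exact box_one_side hμ hd (by norm_num) hE (hb _ h) (dips_half hμ δ)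
    · exact box_one_side hμ hd zero_le_one hE (box_one hμ (hdir _) hE) h
    · exact box_one_side hμ hd ha hE (hb _ hB) hD
  rcases eq_or_ne e δ with rfl | hne
  · exact hside hpos
  have he' : e = opp δ := Prod.ext he (by
    cases h1 : e.2 <;> cases h2 : δ.2 <;> simp [opp, h2] <;>
      exact absurd (Prod.ext he (h1.trans h2.symm)) hne)
  subst he'
  refine Flux.escape_one_of_null hμ (opp δ) ?_ (Dir.RegenPf.fwd_pos hμ hpos)
  rw [show opp (opp δ) = δ by simp [opp]]
  by_contra hF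
  have hone := hside ((pos_iff_ne_zero.2 hF).trans_le (measure_mono fun η hη => hη.2))
  refine hpos.ne' (measure_mono_null (fun η hη => ?_)
    ((prob_compl_eq_zero_iff (Dir.RegenPf.measurableSet_escape _)).2 hone))
  rw [Planar.ax_opp] at hη
  exact fun h => Dir.not_escape_both h hη

/-- Zero-one laws along all axes give them along all directions. -/
theorem dir_zero_one (hμ : Elliptic μ) (hdir : ∀ l, Dir.DirectionStmt μ l)
    (haxis : ∀ e : Step d, 0 < nu μ (Dir.Escape (Planar.ax e)) →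
      nu μ (Dir.Escape (Planar.ax e)) = 1)
    (l : Fin d → ℝ) (hl : 0 < nu μ (Dir.Escape l)) : nu μ (Dir.Escape l) = 1 := by
  have := isProbabilityMeasure_nu hμ
  obtain ⟨v, hv⟩ := hdir l hμ (Dir.ne_zero_of_escape hl) hl
  obtain ⟨i, hi⟩ : ∃ i, v i ≠ 0 := by
    by_contra hc
    push Not at hc
    simpa [hc] using hv.1
  set δ : Step d := (i, decide (0 < v i)) with hδ
  have hpos : 0 < ∑ j, Planar.ax δ j * v j := by
    rw [Finset.sum_eq_single i (fun j _ hj => by simp [Planar.ax, hδ, hj]) (by simp)]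
    rcases lt_or_gt_of_ne hi with h0 | h0
    · simp [Planar.ax, hδ, not_lt.mpr h0.le, h0]
    · simp [Planar.ax, hδ, h0]
  have hone := haxis δ (hl.trans_le (Dir.escape_le hv hpos))
  obtain ⟨u, hu⟩ := hdir _ hμ (Dir.ne_zero_of_escape (hone ▸ one_pos)) (hone ▸ one_pos)
  have hlu : 0 < ∑ j, l j * u j := by
    have h1 : (∑ j, l j * u j) * (∑ j, Planar.ax δ j * v j) = 1 := by
      rw [Finset.sum_mul, ← hv.1]
      exact Finset.sum_congr rfl fun j _ => by rw [mul_assoc, Dir.dir_eq hl hv hu hpos j]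
    exact (pos_iff_pos_of_mul_pos (h1 ▸ one_pos)).2 hpos
  exact le_antisymm prob_le_one (hone ▸ Dir.escape_le hu hlu)

/-- The zero-one law for every direction under the criterion on one orientation of each axis. -/
theorem tight_zero_one (hμ : Elliptic μ) (hd : 2 ≤ d) (hdir : ∀ l, Dir.DirectionStmt μ l)
    (h : ∀ i : Fin d, ∃ b : Bool, Boxed μ (i, b) (1 / 2) ∨ Dips μ (i, b) 1 ∨
      ∃ a ≥ 0, Boxed μ (i, b) a ∧ Dips μ (i, b) a)
    (l : Fin d → ℝ) : annealed μ (Dir.AE l) = 0 ∨ annealed μ (Dir.AE l) = 1 := by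
  rw [Dir.annealed_ae]
  refine (eq_or_ne (nu μ (Dir.Escape l)) 0).imp id fun hne =>
    dir_zero_one hμ hdir (fun e he => ?_) l (pos_iff_ne_zero.2 hne)
  obtain ⟨b, hb⟩ := h e.1
  exact axis_zero_one hμ hd hdir hb rfl he

end Vale.Agent.P147.Window
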