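import Vale.Agent.P147.Window.SlowOne
import Vale.Agent.P147.Window.Range
import Vale.Agent.P147.Window.Tight
import Vale.Agent.P147.Flux.Quenched
import Vale.Agent.P147.Dir.Sweep
import Vale.Agent.P147.Dir.Trials
import Vale.Agent.P147.Dir.MaxIneq

/-!
P147: if some nonzero linear form never loses in mean at any site, then in dimension at least
seven escape events have probability zero or one.
-/

open MeasureTheory Filter
open scoped ENNReal Topology

noncomputable section

namespace Vale.Agent.P147.Window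

open Flux (qlaw sh GoodEnv)

variable {d : ℕ}

/-- At this site the mean square step of the form `u` is at least `c`. -/
def Moving (u : Fin d → ℝ) (c : ℝ) (p : Step d → ℝ) : Prop :=
  c ≤ ∑ e, p e * Dir.lht u (vec e) ^ 2

/-- The paths along which `b + u · X` stays in `[-a, a]` up to time `N`. -/
def Held (u : Fin d → ℝ) (a b : ℝ) (N : ℕ) : Set (ℕ → Step d) :=
  {η | ∀ t ≤ N, |b + Dir.lh u η t| ≤ a}

lemma detBy_held (u : Fin d → ℝ) (a b : ℝ) (N : ℕ) : DetBy N (Held u a b N) :=
  fun η η' he hη t ht => by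
    rw [← Dir.lh_congr fun s hs => he s (by omega)]
    exact hη t ht

variable [NeZero d] {μ : Measure (Step d → ℝ)}

lemma measurableSet_held (u : Fin d → ℝ) (a b : ℝ) (N : ℕ) : MeasurableSet (Held u a b N) :=
  (detBy_held u a b N).measurableSet

open Classical in
/-- The quenched mean number of times below `N` at which the path is still held and stands on a
site of variance at least `c`. -/
def movingTime (u : Fin d → ℝ) (c a b : ℝ) (N : ℕ) (ω : Env d) : ℝ :=
  ∑ t ∈ Finset.range N, (qlaw ω (Held u a b t ∩ {η | Moving u c (ω (pos η t))})).toReal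

omit [NeZero d] in
lemma measurableSet_moving (u : Fin d → ℝ) (c : ℝ) :
    MeasurableSet {p : Step d → ℝ | Moving u c p} :=
  measurableSet_le measurable_const (by fun_prop)

lemma measurableSet_heldMoving (u : Fin d → ℝ) (c a b : ℝ) (t : ℕ) (ω : Env d) :
    MeasurableSet (Held u a b t ∩ {η : ℕ → Step d | Moving u c (ω (pos η t))}) :=
  (measurableSet_held u a b t).inter
    (measurable_pos t (MeasurableSet.of_discrete (s := {z : Pos d | Moving u c (ω z)})))

open Classical in
/-- Quenched: a form that never loses in mean leaves an interval after a time quadratic in its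
length, counting only the times at sites of variance at least `c`. -/
lemma held_quenched {u : Fin d → ℝ} {c a K : ℝ} (hc : 0 ≤ c) (ha : 0 ≤ a) (hK : 0 ≤ K)
    (huK : ∀ e : Step d, |Dir.lht u (vec e)| ≤ K) (N : ℕ) :
    ∀ ω : Env d, GoodEnv ω → (∀ x, 0 ≤ ∑ e, ω x e * Dir.lht u (vec e)) → ∀ b : ℝ, |b| ≤ a + K →
      c * movingTime u c a b N ω ≤ (2 * a + 2 * K) ^ 2 - (b + a + K) ^ 2 := by
  induction N with
  | zero =>
    intro ω _ _ b hb
    obtain ⟨h1, h2⟩ := abs_le.1 hb
    simp only [movingTime, Finset.range_zero, Finset.sum_empty, mul_zero]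
    nlinarith
  | succ N ih =>
    intro ω hω hd b hb
    obtain ⟨hb1, hb2⟩ := abs_le.1 hb
    by_cases hba : |b| ≤ a
    swap
    · have h0 : ∀ t, Held u a b t = (∅ : Set (ℕ → Step d)) := fun t =>
        Set.eq_empty_of_forall_notMem fun η hη => hba (by simpa [Dir.lh_zero] using hη 0 (by omega))
      simp only [movingTime, h0, Set.empty_inter, measure_empty, ENNReal.toReal_zero,
        Finset.sum_const_zero, mul_zero]
      nlinarith
    obtain ⟨hba1, hba2⟩ := abs_le.1 hba
    have hstep : ∀ t, (qlaw ω (Held u a b (t + 1) ∩ {η | Moving u c (ω (pos η (t + 1)))})).toReal ≤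
        ∑ e, ω 0 e * (qlaw (sh (vec e) ω) (Held u a (b + Dir.lht u (vec e)) t ∩
          {η | Moving u c (sh (vec e) ω (pos η t))})).toReal := by
      intro t
      set q : Step d → ℝ≥0∞ := fun e => qlaw (sh (vec e) ω)
        (Held u a (b + Dir.lht u (vec e)) t ∩ {η | Moving u c (sh (vec e) ω (pos η t))})
      have hsum : qlaw ω (Held u a b (t + 1) ∩ {η | Moving u c (ω (pos η (t + 1)))}) ≤
          ∑ e, ENNReal.ofReal (ω 0 e) * q e := by
        refine le_trans (measure_mono (t := ⋃ e ∈ (Finset.univ : Finset (Step d)),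
          cyl 1 (fun _ => e) ∩ shift 1 ⁻¹' (Held u a (b + Dir.lht u (vec e)) t ∩
            {η | Moving u c (sh (vec e) ω (pos η t))})) fun η hη => ?_)
          ((measure_biUnion_finset_le _ _).trans (le_of_eq (Finset.sum_congr rfl fun e _ => ?_)))
        · have h1 : pos η 1 = vec (η 0) := by simp [pos]
          refine Set.mem_iUnion₂.2 ⟨η 0, Finset.mem_univ _, fun s hs => ?_, fun s hs => ?_, ?_⟩
          · obtain rfl : s = 0 := by omega
            rfl
          · have h := hη.1 (1 + s) (by omega)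
            rw [Dir.lh_add, show Dir.lh u η 1 = Dir.lht u (vec (η 0)) by rw [Dir.lh, h1],
              ← add_assoc] at h
            exact h
          · have h := hη.2
            rw [Set.mem_ofPred_eq, add_comm t 1, pos_add, h1, add_comm] at h
            exact h
        · have hm := measurableSet_heldMoving u c a (b + Dir.lht u (vec e)) t (sh (vec e) ω)
          rw [Set.inter_comm, ← Measure.restrict_apply (measurable_shift 1 hm),
            ← Measure.map_apply (measurable_shift 1) hm, Flux.map_shift_qlaw hω,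
            Measure.smul_apply, smul_eq_mul]
          simp [W, pos, q]
      have htop : ∀ e ∈ (Finset.univ : Finset (Step d)), ENNReal.ofReal (ω 0 e) * q e ≠ ∞ :=
        fun e _ => ENNReal.mul_ne_top ENNReal.ofReal_ne_top (measure_ne_top _ _)
      have hle := ENNReal.toReal_mono (ENNReal.sum_ne_top.2 htop) hsum
      simp only [ENNReal.toReal_sum htop, ENNReal.toReal_mul,
        ENNReal.toReal_ofReal ((hω 0).1 _).le] at hle
      exact hle
    have hfirst : c * (qlaw ω (Held u a b 0 ∩ {η | Moving u c (ω (pos η 0))})).toReal ≤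
        ∑ e, ω 0 e * Dir.lht u (vec e) ^ 2 := by
      by_cases hmov : Moving u c (ω 0)
      · refine le_trans (mul_le_of_le_one_right hc ?_) hmov
        simpa using ENNReal.toReal_mono ENNReal.one_ne_top
          (prob_le_one (μ := qlaw ω) (s := Held u a b 0 ∩ {η | Moving u c (ω (pos η 0))}))
      · rw [show Held u a b 0 ∩ {η | Moving u c (ω (pos η 0))} = (∅ : Set (ℕ → Step d)) from
          Set.eq_empty_of_forall_notMem fun η hη => hmov (by simpa [pos] using hη.2),
          measure_empty, ENNReal.toReal_zero, mul_zero]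
        exact Finset.sum_nonneg fun e _ => mul_nonneg ((hω 0).1 e).le (sq_nonneg _)
    have hrest : c * ∑ t ∈ Finset.range N,
        (qlaw ω (Held u a b (t + 1) ∩ {η | Moving u c (ω (pos η (t + 1)))})).toReal ≤
        ∑ e, ω 0 e * ((2 * a + 2 * K) ^ 2 - (b + Dir.lht u (vec e) + a + K) ^ 2) := by
      refine le_trans (mul_le_mul_of_nonneg_left (Finset.sum_le_sum fun t _ => hstep t) hc) ?_
      rw [Finset.sum_comm, Finset.mul_sum]
      refine Finset.sum_le_sum fun e _ => ?_
      rw [← Finset.mul_sum, mul_left_comm]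
      refine mul_le_mul_of_nonneg_left ?_ ((hω 0).1 e).le
      exact ih _ (Flux.goodEnv_sh hω _) (fun x => hd _) _
        ((abs_add_le _ _).trans (add_le_add hba (huK e)))
    have hexp : ∑ e, ω 0 e * ((2 * a + 2 * K) ^ 2 - (b + Dir.lht u (vec e) + a + K) ^ 2) =
        ((2 * a + 2 * K) ^ 2 - (b + a + K) ^ 2) * (∑ e, ω 0 e)
          - 2 * (b + a + K) * (∑ e, ω 0 e * Dir.lht u (vec e))
          - ∑ e, ω 0 e * Dir.lht u (vec e) ^ 2 := by
      simp only [Finset.mul_sum, ← Finset.sum_sub_distrib]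
      exact Finset.sum_congr rfl fun e _ => by ring
    rw [hexp, (hω 0).2, mul_one] at hrest
    have hbK : 0 ≤ b + a + K := by linarith
    have := mul_nonneg (mul_nonneg zero_le_two hbK) (hd 0)
    rw [movingTime, Finset.sum_range_succ', mul_add]
    linarith

/-- The sites where the path arrives for the first time while held. -/
def Fresh (u : Fin d → ℝ) (a : ℝ) (t : ℕ) : Set (ℕ → Step d) :=
  Held u a 0 t ∩ {η | ∀ s < t, pos η s ≠ pos η t}

omit [NeZero d] in
lemma detBy_fresh (u : Fin d → ℝ) (a : ℝ) (t : ℕ) : DetBy t (Fresh u a t) :=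
  fun η η' he hη => by
    refine ⟨detBy_held u a 0 t η η' he hη.1, fun s hs => ?_⟩
    rw [← pos_congr fun r hr => he r (by omega), ← pos_congr fun r hr => he r hr]
    exact hη.2 s hs

open Classical in
/-- Annealed: a form that never loses in mean leaves an interval after quadratically many sites. -/
lemma fresh_le (hμ : Elliptic μ) {u : Fin d → ℝ} {c a K : ℝ} (hc : 0 < c) (ha : 0 ≤ a) (hK : 0 ≤ K)
    (huK : ∀ e : Step d, |Dir.lht u (vec e)| ≤ K)
    (hu : ∀ᵐ p ∂μ, 0 ≤ ∑ e, p e * Dir.lht u (vec e)) :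
    μ {p | Moving u c p} * ∑' t, nu μ (Fresh u a t) ≤
      ENNReal.ofReal ((2 * a + 2 * K) ^ 2 / c) := by
  have := hμ.1
  have := Flux.isProbability_envLaw hμ
  have hall : ∀ᵐ ω ∂Flux.envLaw μ, ∀ x, 0 ≤ ∑ e, ω x e * Dir.lht u (vec e) :=
    ae_all_iff.mpr fun x =>
    (measurePreserving_eval_infinitePi (fun _ : Pos d => μ) x).quasiMeasurePreserving.ae hu
  set M := {p : Step d → ℝ | Moving u c p}
  set F : ℕ → Env d → ℝ≥0∞ := fun t ω =>
    ∑ σ ∈ Finset.univ.filter (fun σ : Fin t → Step d => ext' σ ∈ Fresh u a t),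
      M.indicator 1 (ω (pos (ext' σ) t)) * W t (ext' σ) ω
  have hMm : ∀ z : Pos d, Measurable fun ω : Env d => M.indicator (1 : (Step d → ℝ) → ℝ≥0∞) (ω z) :=
    fun z => (measurable_one.indicator (measurableSet_moving u c)).comp (measurable_pi_apply z)
  have hWm : ∀ (t : ℕ) (σ : Fin t → Step d), Measurable fun ω : Env d =>
      M.indicator 1 (ω (pos (ext' σ) t)) * W t (ext' σ) ω :=
    fun t σ => (hMm _).mul (measurable_W _ _)
  have hterm : ∀ t, μ M * nu μ (Fresh u a t) = ∫⁻ ω, F t ω ∂Flux.envLaw μ := by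
    intro t
    simp only [F]
    rw [lintegral_finsetSum _ fun σ _ => hWm t σ,
      Flux.measure_det (nu μ) (detBy_fresh u a t), Finset.mul_sum]
    refine Finset.sum_congr rfl fun σ hσ => ?_
    have hne := (Finset.mem_filter.1 hσ).2.2
    rw [Flux.envLaw, Flux.lintegral_mul_local hμ {pos (ext' σ) t} (hMm (pos (ext' σ) t))
      (measurable_W _ _)
      (fun ω ω' h => by rw [h (pos (ext' σ) t) (Set.mem_singleton _)])
      fun ω ω' h => Flux.W_local fun s hs => h _ fun he => hne s hs he]
    congr 1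
    · rw [(measurePreserving_eval_infinitePi (fun _ : Pos d => μ) (pos (ext' σ) t)).lintegral_comp
        (f := M.indicator 1) (measurable_one.indicator (measurableSet_moving u c)),
        lintegral_indicator_one (measurableSet_moving u c)]
    · exact w_eq_lintegral hμ t (ext' σ)
  rw [← ENNReal.tsum_mul_left, tsum_congr hterm, ENNReal.tsum_eq_iSup_nat]
  refine iSup_le fun N => ?_
  rw [← lintegral_finsetSum (f := fun t ω => F t ω) _ fun t _ =>
    Finset.measurable_sum _ fun σ _ => hWm t σ]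
  refine le_trans (lintegral_mono_ae
    (g := fun _ => ENNReal.ofReal ((2 * a + 2 * K) ^ 2 / c)) ?_) (by simp)
  filter_upwards [Flux.ae_good hμ, hall] with ω hω hd
  have hFle : ∀ t, F t ω ≤ qlaw ω (Held u a 0 t ∩ {η | Moving u c (ω (pos η t))}) := by
    intro t
    have hdet : DetBy t (Held u a 0 t ∩ {η | Moving u c (ω (pos η t))}) := fun η η' he hη =>
      ⟨detBy_held u a 0 t η η' he hη.1, by
        show Moving u c (ω (pos η' t))
        rw [← pos_congr he]; exact hη.2⟩
    rw [Flux.measure_det _ hdet]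
    refine le_trans (le_of_eq (Finset.sum_congr rfl fun σ _ => ?_))
      (le_trans (le_of_eq (Finset.sum_filter (fun σ : Fin t → Step d => Moving u c (ω (pos (ext' σ) t)))
        fun σ => W t (ext' σ) ω).symm) (le_trans (le_of_eq (Finset.sum_congr rfl fun σ _ =>
          (Flux.qlaw_cyl hω t (ext' σ)).symm)) (Finset.sum_le_sum_of_subset fun σ hσ => ?_)))
    · by_cases h : Moving u c (ω (pos (ext' σ) t)) <;> simp [M, h]
    · simp only [Finset.mem_filter] at hσ
      exact Finset.mem_filter.2 ⟨Finset.mem_univ _, hσ.1.2.1, hσ.2⟩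
  refine (Finset.sum_le_sum fun t _ => hFle t).trans ?_
  have h := held_quenched hc.le ha hK huK N ω hω hd 0 (by rw [abs_zero]; positivity)
  have htop : ∀ t ∈ Finset.range N,
      qlaw ω (Held u a 0 t ∩ {η | Moving u c (ω (pos η t))}) ≠ ∞ := fun t _ => measure_ne_top _ _
  rw [← ENNReal.ofReal_toReal (ENNReal.sum_ne_top.2 htop), ENNReal.toReal_sum htop]
  refine ENNReal.ofReal_le_ofReal ((le_div_iff₀ hc).2 ?_)
  rw [mul_comm]
  rw [movingTime] at h
  nlinarith [sq_nonneg ((0 : ℝ) + a + K)]

variable {δ : Step d}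

/-- The regenerations leave a number of sites quadratic in their number. -/
lemma wide_small (hμ : Elliptic μ) (hR : Dir.Regen μ (Planar.ax δ)) {u : Fin d → ℝ} {c : ℝ}
    (hc : 0 < c) (hq : μ {p | Moving u c p} ≠ 0) (hu : ∀ᵐ p ∂μ, 0 ≤ ∑ e, p e * Dir.lht u (vec e))
    {ε : ℝ≥0∞} (hε : ε ≠ 0) :
    ∃ K : ℕ, ∀ k : ℕ, Dir.fwdLaw μ (Planar.ax δ)
      {η | (K : ℝ) * ((k : ℝ) + 1) ^ 2 <
        ((seen η (Dir.ctime (Planar.ax δ) k η)).card : ℝ)} ≤ ε := by
  classical
  have := hR.prob
  have := isProbabilityMeasure_nu hμ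
  set l := Planar.ax δ with hl
  set P := Dir.fwdLaw μ l with hP
  set g : (ℕ → Step d) → ℝ := fun η =>
    ∑ i, |u i| * (if i = δ.1 then Dir.blkH l η else (Dir.sweep l i η : ℝ)) with hg
  have hswI : ∀ i, i ≠ δ.1 → Integrable (fun η => (Dir.sweep l i η : ℝ)) P := fun i hi =>
    hR.integrable_sweep ((Dir.sweep_mean Dir.trial Dir.maxIneq) hμ (Planar.norm_ax δ) hR i hi)
  have hgI : Integrable g P := integrable_finsetSum _ fun i _ => by
    by_cases hi : i = δ.1
    · simpa [hi] using hR.integrable_blkH.const_mul |u δ.1|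
    · simpa [hi] using (hswI i hi).const_mul |u i|
  -- the first block bounds the form
  have hblk : ∀ η, (∃ t, Dir.RegT l η t) → η ∈ Dir.Fwd l → ∀ s ≤ Dir.tau l η,
      |Dir.lh u η s| ≤ g η := fun η hb hf s hs => by
    show |∑ i, u i * (pos η s i : ℝ)| ≤
      ∑ i, |u i| * (if i = δ.1 then Dir.blkH l η else (Dir.sweep l i η : ℝ))
    refine (Finset.abs_sum_le_sum_abs _ _).trans (Finset.sum_le_sum fun i _ => ?_)
    rw [abs_mul]
    refine mul_le_mul_of_nonneg_left ?_ (abs_nonneg _)
    by_cases hi : i = δ.1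
    · rw [if_pos hi]
      have h1 : |(pos η s i : ℝ)| = |Dir.lh l η s| := by
        rw [hl, Planar.lh_ax, hgt, ht, hi]
        by_cases hδ : δ.2 <;> simp [hδ]
      rw [h1, abs_of_nonneg (hf.1 s)]
      exact Dir.lh_le_blkH hb hs
    · rw [if_neg hi]
      exact Dir.natAbs_le_sweep i hs
  have hg0 : ∀ᵐ η ∂P, ∀ r, 0 ≤ g ((Dir.next l)^[r] η) := by
    filter_upwards [hR.blocks] with η hη r
    exact (abs_nonneg _).trans (hblk _ (hη r).2 (hη r).1 0 (Nat.zero_le _))
  set S : ℕ → (ℕ → Step d) → ℝ := fun k η => ∑ r ∈ Finset.range k, g ((Dir.next l)^[r] η) with hS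
  have hchain : ∀ᵐ η ∂P, ∀ k, ∀ t ≤ Dir.ctime l k η, |Dir.lh u η t| ≤ S k η := by
    filter_upwards [hR.blocks, hg0] with η hη h0 k
    induction k with
    | zero =>
      intro t ht
      simp only [Dir.ctime, Finset.range_zero, Finset.sum_empty, Nat.le_zero] at ht
      subst ht
      simp [hS]
    | succ k ih =>
      intro t ht
      simp only [hS, Finset.sum_range_succ]
      rcases le_or_gt t (Dir.ctime l k η) with h | h
      · exact (ih t h).trans (le_add_of_nonneg_right (h0 k))
      · obtain ⟨s, rfl⟩ := Nat.exists_eq_add_of_le h.le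
        rw [Dir.ctime_succ] at ht
        rw [Dir.lh_add, ← Dir.next_iterate]
        exact (abs_add_le _ _).trans (add_le_add (ih _ le_rfl)
          (hblk _ (hη k).2 (hη k).1 s (by omega)))
  -- Markov
  set m := ∫ η, g η ∂P with hm
  have hm0 : 0 ≤ m := integral_nonneg_of_ae (hg0.mono fun η h => by simpa using h 0)
  have hSint : ∀ k, ∫⁻ η, ENNReal.ofReal (S k η) ∂P = ENNReal.ofReal (k * m) := fun k => by
    have hi : ∀ r, Integrable (fun η => g ((Dir.next l)^[r] η)) P := fun r =>
      (hR.preserving.iterate r).integrable_comp_of_integrable hgI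
    rw [← ofReal_integral_eq_lintegral_ofReal (integrable_finsetSum _ fun r _ => hi r)
      (hg0.mono fun η h => Finset.sum_nonneg fun r _ => h r),
      integral_finsetSum _ fun r _ => hi r]
    congr 1
    rw [Finset.sum_congr rfl fun r _ => show ∫ η, g ((Dir.next l)^[r] η) ∂P = m from by
      have hmp : MeasurePreserving ((Dir.next l)^[r]) P P := hR.preserving.iterate r
      have h2 := hgI.aestronglyMeasurable
      rw [← hmp.map_eq] at h2
      rw [hm]
      conv_rhs => rw [← hmp.map_eq]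
      exact (integral_map hmp.measurable.aemeasurable h2).symm]
    simp
  set pF := (nu μ (Dir.Fwd l)).toReal with hpF
  have hpF0 : 0 < pF := ENNReal.toReal_pos hR.pos.ne' (measure_ne_top _ _)
  obtain ⟨e, he0, he, hetop⟩ : ∃ e : ℝ, 0 < e ∧ ENNReal.ofReal e ≤ ε ∧ e ≤ 1 := by
    refine ⟨(min ε 1).toReal, ENNReal.toReal_pos (by simp [hε]) (by simp), ?_, ?_⟩
    · rw [ENNReal.ofReal_toReal (by simp)]
      exact min_le_left _ _
    · simpa using ENNReal.toReal_mono ENNReal.one_ne_top (min_le_right ε 1)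
  set U := ∑ i, |u i| with hU
  have hU0 : 0 ≤ U := Finset.sum_nonneg fun i _ => abs_nonneg _
  have huK : ∀ x : Step d, |Dir.lht u (vec x)| ≤ U := fun x => by
    rw [Dir.lht_vec]
    have := Finset.single_le_sum (f := fun i => |u i|) (fun i _ => abs_nonneg _) (Finset.mem_univ x.1)
    by_cases hx : x.2 <;> simpa [hx] using this
  have := hμ.1
  set q := (μ {p | Moving u c p}).toReal with hqr
  have hq0 : 0 < q := ENNReal.toReal_pos hq (measure_ne_top _ _)
  set C := 2 * m / e + 1 with hC
  have hC0 : 0 < C := by positivity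
  obtain ⟨K, hK⟩ := exists_nat_ge (2 * (2 * C + 2 * U) ^ 2 / (c * q * pF * e) + 1)
  have hK0 : (0 : ℝ) < K := by
    have : (0 : ℝ) ≤ 2 * (2 * C + 2 * U) ^ 2 / (c * q * pF * e) := by positivity
    linarith
  refine ⟨K, fun k => ?_⟩
  set N := ⌈(K : ℝ) * ((k : ℝ) + 1) ^ 2⌉₊ with hN
  have hN0 : 0 < N := Nat.ceil_pos.2 (by positivity)
  set a := C * ((k : ℝ) + 1) with ha
  set G : (ℕ → Step d) → ℝ≥0∞ := fun η => ∑' t, (Fresh u a t).indicator 1 η with hG
  have hGm : Measurable G := Measurable.tsum fun t =>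
    measurable_one.indicator (detBy_fresh u a t).measurableSet
  have hsub : {η | (K : ℝ) * ((k : ℝ) + 1) ^ 2 <
      ((seen η (Dir.ctime l k η)).card : ℝ)} ≤ᵐ[P]
      ({η | ENNReal.ofReal a ≤ ENNReal.ofReal (S k η)} ∪ {η | (N : ℝ≥0∞) ≤ G η} :
        Set (ℕ → Step d)) := by
    filter_upwards [hchain] with η hη hlt
    rcases le_or_gt a (S k η) with h | h
    · exact Or.inl (ENNReal.ofReal_le_ofReal h)
    · refine Or.inr ?_
      change (N : ℝ≥0∞) ≤ G η
      refine le_trans (Nat.cast_le.2 (Nat.ceil_le.2 (le_of_lt hlt))) ?_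
      set T := Dir.ctime l k η
      refine le_trans ?_ (ENNReal.sum_le_tsum (Finset.range T))
      simp only [Set.indicator_apply, Pi.one_apply, Finset.sum_boole, Nat.cast_le]
      refine Finset.card_le_card_of_surjOn (pos η) fun z hz => ?_
      obtain ⟨t, ht, rfl⟩ := mem_seen.1 (Finset.mem_coe.1 hz)
      have hex : ∃ s, pos η s = pos η t := ⟨t, rfl⟩
      refine ⟨Nat.find hex, Finset.mem_coe.2 (Finset.mem_filter.2
        ⟨Finset.mem_range.2 ((Nat.find_min' hex rfl).trans_lt ht), fun s hs => ?_, fun s hs he => ?_⟩),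
        Nat.find_spec hex⟩
      · rw [zero_add]
        refine (hη k s ?_).trans h.le
        exact hs.trans ((Nat.find_min' hex rfl).trans ht.le)
      · exact Nat.find_min hex hs (he.trans (Nat.find_spec hex))
  have hFle : ∫⁻ η, G η ∂nu μ ≤ ENNReal.ofReal ((2 * a + 2 * U) ^ 2 / (c * q)) := by
    rw [hG, lintegral_tsum fun t =>
      (measurable_one.indicator (detBy_fresh u a t).measurableSet).aemeasurable,
      tsum_congr fun t => lintegral_indicator_one (detBy_fresh u a t).measurableSet,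
      show c * q = q * c from mul_comm c q, ← div_div, div_right_comm,
      ENNReal.ofReal_div_of_pos hq0, hqr, ENNReal.ofReal_toReal (measure_ne_top _ _),
      ENNReal.le_div_iff_mul_le (Or.inl hq) (Or.inl (measure_ne_top _ _)), mul_comm]
    exact fresh_le hμ hc (by positivity) hU0 huK hu
  refine (measure_mono_ae hsub).trans ((measure_union_le _ _).trans ?_)
  calc _ ≤ ENNReal.ofReal (e / 2) + ENNReal.ofReal (e / 2) := add_le_add ?_ ?_
    _ = ENNReal.ofReal e := by rw [← ENNReal.ofReal_add (by positivity) (by positivity), add_halves]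
    _ ≤ ε := he
  · refine le_trans (meas_ge_le_lintegral_div ?_ (by simp [ha]; positivity) ENNReal.ofReal_ne_top) ?_
    · exact (ENNReal.measurable_ofReal.comp_aemeasurable
        ((Finset.range k).aemeasurable_fun_sum fun r _ =>
          ((hR.preserving.iterate r).integrable_comp_of_integrable hgI).aemeasurable))
    rw [hSint, ← ENNReal.ofReal_div_of_pos (by positivity)]
    refine ENNReal.ofReal_le_ofReal ?_
    rw [div_le_iff₀ (by positivity), ha]
    have h1 : e / 2 * C = m + e / 2 := by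
      rw [hC]
      field_simp
    nlinarith
  · simp only [hP, Dir.fwdLaw, Measure.smul_apply, smul_eq_mul]
    refine le_trans (mul_le_mul' le_rfl ((Measure.restrict_le_self _).trans
      ((meas_ge_le_lintegral_div hGm.aemeasurable (by simp [hN0.ne']) (ENNReal.natCast_ne_top _)).trans
        (ENNReal.div_le_div_right hFle _)))) ?_
    rw [← ENNReal.ofReal_toReal (measure_ne_top (nu μ) (Dir.Fwd l)), ← hpF,
      ← ENNReal.ofReal_natCast N, ← ENNReal.ofReal_div_of_pos (by positivity),
      ← ENNReal.ofReal_inv_of_pos hpF0, ← ENNReal.ofReal_mul (inv_nonneg.2 hpF0.le)]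
    refine ENNReal.ofReal_le_ofReal ?_
    have hk1 : (1 : ℝ) ≤ (k : ℝ) + 1 := by simp
    have h1 : (2 * a + 2 * U) ^ 2 ≤ (2 * C + 2 * U) ^ 2 * ((k : ℝ) + 1) ^ 2 := by
      rw [← mul_pow, ha]
      refine pow_le_pow_left₀ (by positivity) ?_ 2
      nlinarith
    have h2 : (K : ℝ) * ((k : ℝ) + 1) ^ 2 ≤ N := Nat.le_ceil _
    have h3 : 2 * (2 * C + 2 * U) ^ 2 ≤ (K : ℝ) * (c * q * pF * e) := by
      have := (le_of_lt (lt_of_lt_of_le (lt_add_one _) hK))
      rwa [div_le_iff₀ (by positivity)] at this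
    rw [inv_mul_eq_div, div_div, div_div, div_le_iff₀ (by positivity)]
    nlinarith [mul_le_mul_of_nonneg_right h3 (sq_nonneg ((k : ℝ) + 1)),
      mul_le_mul_of_nonneg_left h2 (by positivity : (0 : ℝ) ≤ c * q * pF * e)]

omit [NeZero d] in
/-- A nonzero form moves with positive variance at some sites. -/
lemma moving_somewhere (hμ : Elliptic μ) {u : Fin d → ℝ} (hu : u ≠ 0) :
    ∃ c : ℝ, 0 < c ∧ μ {p | Moving u c p} ≠ 0 := by
  have := hμ.1
  obtain ⟨i, hi⟩ := Function.ne_iff.1 hu
  by_contra hcon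
  push Not at hcon
  have h : ∀ᵐ _p ∂μ, False := by
    filter_upwards [hμ.2, ae_all_iff.2 fun n : ℕ => measure_eq_zero_iff_ae_notMem.1
      (hcon (1 / ((n : ℝ) + 1)) (by positivity))] with p hp hn
    have hv : 0 < ∑ e, p e * Dir.lht u (vec e) ^ 2 := by
      refine Finset.sum_pos' (fun e _ => mul_nonneg (hp.1 e).le (sq_nonneg _))
        ⟨(i, true), Finset.mem_univ _, mul_pos (hp.1 _) ?_⟩
      rw [Dir.lht_vec, if_pos rfl]
      exact lt_of_le_of_ne (sq_nonneg _) fun h => hi (pow_eq_zero_iff two_ne_zero |>.1 h.symm)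
    obtain ⟨n, hnlt⟩ := exists_nat_one_div_lt hv
    exact hn n hnlt.le
  rw [ae_iff] at h
  simp at h

/-- An escape possible along an axis is certain when some form never loses in mean. -/
theorem oneWay_axis (hμ : Elliptic μ) (hd : 7 ≤ d) {u : Fin d → ℝ} (hu0 : u ≠ 0)
    (hu : ∀ᵐ p ∂μ, 0 ≤ ∑ e, p e * Dir.lht u (vec e))
    (hE : 0 < nu μ (Dir.Escape (Planar.ax δ))) :
    nu μ (Dir.Escape (Planar.ax δ)) = 1 := by
  have hR : Dir.Regen μ (Planar.ax δ) :=
    Dir.regen μ (Planar.ax δ) δ hμ (Planar.norm_ax δ) hE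
  refine Flux.escape hμ δ ?_ hR.pos
  by_cases h0 : nu μ (NoBack (opp δ) ∩ Unbdd (opp δ)) = 0
  · exact strip hμ δ hR.pos h0
  have hd2 : 2 ≤ d := by omega
  obtain ⟨c, hc, hq⟩ := moving_somewhere hμ hu0
  have hB : BudgetStmt μ δ := budget_range hμ hR (gap hμ hd2 hR) fun ε hε => by
    obtain ⟨K, hK⟩ := wide_small hμ hR hc hq hu hε
    refine ⟨K, fun k => le_trans (measure_mono fun η hη => ?_) (hK k)⟩
    simp only [Set.mem_ofPred_eq] at hη ⊢
    refine lt_of_le_of_lt (mul_le_mul_of_nonneg_left ?_ (Nat.cast_nonneg K)) hη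
    rw [← Real.rpow_natCast _ 2]
    refine Real.rpow_le_rpow_of_exponent_le (by simp) ?_
    have : (7 : ℝ) ≤ d := by exact_mod_cast hd
    push_cast
    linarith
  exact (not_both hμ hd2
    (mass_pos δ fun hz => hR.pos.ne' (measure_mono_null (fwd_subset δ) hz))
    (mass_pos (opp δ) h0)
    (switch hμ δ fun hz => h0 (measure_mono_null Set.inter_subset_left hz))
    (core hμ hR.pos hB)).elim

/-- The zero-one law in every direction when some form never loses in mean. -/
theorem oneWay_zero_one (hμ : Elliptic μ) (hd : 7 ≤ d) (hdir : ∀ l, Dir.DirectionStmt μ l)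
    {u : Fin d → ℝ} (hu0 : u ≠ 0) (hu : ∀ᵐ p ∂μ, 0 ≤ ∑ e, p e * Dir.lht u (vec e))
    (l : Fin d → ℝ) : annealed μ (Dir.AE l) = 0 ∨ annealed μ (Dir.AE l) = 1 := by
  rw [Dir.annealed_ae]
  exact (eq_or_ne (nu μ (Dir.Escape l)) 0).imp id fun hne =>
    dir_zero_one hμ hdir (fun e he => oneWay_axis hμ hd hu0 hu he) l (pos_iff_ne_zero.2 hne)

end Vale.Agent.P147.Window
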