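import Vale.Agent.P147.Window.Defs
import Vale.Agent.P147.Flux.Renewal

/-!
P147: with finite mean block times the pieces are short in time and leave boundedly many sites at
each level in mean.
-/

open MeasureTheory Filter
open scoped ENNReal Topology

noncomputable section

namespace Vale.Agent.P147.Window

open Flux (Pref path endp left)

variable {d : ℕ} [NeZero d] {μ : Measure (Step d → ℝ)} {δ : Step d}

/-- A path follows one piece of a given height at most. -/
lemma cone_eq_of_piece {k : ℕ} {i j : Pref d} (hi : i ∈ Piece δ k) (hj : j ∈ Piece δ k)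
    {η : ℕ → Step d} (h : η ∈ Flux.cone δ i) (h' : η ∈ Flux.cone δ j) : i = j :=
  Flux.cone_unique (L := max i.1 j.1) (n := k) (Flux.mem_prefs.2 ⟨le_max_left _ _, hi⟩)
    (Flux.mem_prefs.2 ⟨le_max_right _ _, hj⟩) h h'

/-- A weight of the pieces bounded along the paths through them is bounded in mean. -/
lemma piece_mean_le (hμ : Elliptic μ) (k : ℕ) (φ : Pref d → ℝ≥0∞)
    (g : (ℕ → Step d) → ℝ≥0∞)
    (hφ : ∀ i ∈ Piece δ k, ∀ η ∈ Flux.cone δ i, φ i ≤ g η) :
    (∑' i : Piece δ k, wt μ i * φ i) * nu μ (Dir.Fwd (Planar.ax δ)) ≤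
      ∫⁻ η, (Dir.Fwd (Planar.ax δ)).indicator g η ∂nu μ := by
  classical
  have hcl : ∀ i : Piece δ k, ∀ η ∈ Flux.cone δ (i : Pref d),
      η ∈ Flux.Climb δ k (i : Pref d).1 := fun i η hη =>
    (Flux.climb_congr fun t ht => (hη.1 t ht).symm).1 i.2
  have hcone : ∀ i : Piece δ k, wt μ i * nu μ (Dir.Fwd (Planar.ax δ)) =
      nu μ (Flux.cone δ (i : Pref d)) := by
    rintro ⟨⟨p, σ⟩, hi⟩
    have := Dir.RegenPf.split_fwd hμ (detBy_cyl le_rfl (ext' σ)) (fun ξ hξ s hs hmem => ?_)
      MeasurableSet.univ (l := Planar.ax δ) (t := p)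
    · simp only [Set.univ_inter] at this
      exact this.symm
    · have hξ' : ξ ∈ Flux.Climb δ k p := (Flux.climb_congr fun t ht => (hξ t ht).symm).1 hi
      have h1 := hξ'.1.2 s hs
      rw [← hξ'.1.1] at h1
      simp only [Dir.RegenPf.Above, Set.mem_ofPred_eq, Planar.lht_ax, Int.cast_nonneg_iff, ht_sub]
        at hmem
      simp only [hgt] at h1
      omega
  calc (∑' i : Piece δ k, wt μ i * φ i) * nu μ (Dir.Fwd (Planar.ax δ))
      = ∑' i : Piece δ k, φ i * nu μ (Flux.cone δ (i : Pref d)) := by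
        rw [← ENNReal.tsum_mul_right]
        exact tsum_congr fun i => by rw [mul_right_comm, hcone, mul_comm]
    _ = ∫⁻ η, ∑' i : Piece δ k, (Flux.cone δ (i : Pref d)).indicator (fun _ => φ i) η ∂nu μ := by
        rw [lintegral_tsum fun i =>
          (measurable_const.indicator (Flux.measurableSet_cone δ _)).aemeasurable]
        exact tsum_congr fun i => (lintegral_indicator_const (Flux.measurableSet_cone δ _) _).symm
    _ ≤ _ := lintegral_mono fun η => by
        by_cases hex : ∃ i : Piece δ k, η ∈ Flux.cone δ (i : Pref d)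
        · obtain ⟨i, hi⟩ := hex
          rw [tsum_eq_single i fun j hj => Set.indicator_of_notMem (fun hj' => hj ?_) _,
            Set.indicator_of_mem hi,
            Set.indicator_of_mem (Flux.fwd_of_climb (hcl i η hi) hi.2)]
          · exact hφ i i.2 η hi
          · exact Subtype.ext (cone_eq_of_piece j.2 i.2 hj' hi)
        · rw [ENNReal.tsum_eq_zero.2 fun i => Set.indicator_of_notMem (fun h => hex ⟨i, h⟩) _]
          exact zero_le

open Classical in
/-- The sites a prefix leaves at a level are visits of that level. -/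
lemma levelCount_le (i : Pref d) {η : ℕ → Step d} (h : η ∈ cyl i.1 (path i)) (j : ℤ) :
    (levelCount δ i j : ℝ≥0∞) ≤ ∑' t, if hgt δ η t = j then (1 : ℝ≥0∞) else 0 := by
  refine le_trans ?_ (ENNReal.sum_le_tsum (Finset.range i.1))
  rw [Finset.sum_boole, Nat.cast_le, levelCount, left, Finset.filter_image]
  refine Finset.card_image_le.trans (le_of_eq (congrArg _ (Finset.filter_congr fun t ht => ?_)))
  rw [hgt, pos_congr fun s hs => h s (hs.trans (Finset.mem_range.1 ht))]

omit [NeZero d] in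
/-- The time of a piece is spent at the levels below its top. -/
lemma time_le {k p : ℕ} {η : ℕ → Step d} (h : η ∈ Flux.Climb δ k p) :
    (p : ℝ≥0∞) ≤ ∑ j ∈ Finset.range k, ∑' t, if hgt δ η t = (j : ℤ) then (1 : ℝ≥0∞) else 0 := by
  classical
  calc (p : ℝ≥0∞) = ∑ _t ∈ Finset.range p, 1 := by simp
    _ ≤ ∑ t ∈ Finset.range p, ∑ j ∈ Finset.range k, if hgt δ η t = (j : ℤ) then 1 else 0 :=
        Finset.sum_le_sum fun t ht => by
          have h1 : 0 ≤ hgt δ η t := h.2 t (Finset.mem_range.1 ht).le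
          have h2 := h.1.2 t (Finset.mem_range.1 ht)
          rw [Finset.sum_eq_single (hgt δ η t).toNat (fun j _ hj => if_neg (by omega))
            (fun hn => absurd (Finset.mem_range.2 (by omega)) hn)]
          rw [if_pos (by omega)]
    _ ≤ _ := by
        rw [Finset.sum_comm]
        exact Finset.sum_le_sum fun j _ => ENNReal.sum_le_tsum _

/-- Module Win: pieces are short in time and leave boundedly many sites at each level in mean. -/
theorem win (hμ : Elliptic μ) (hX : Planar.Side μ δ) : WinStmt μ δ := by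
  classical
  have := isProbabilityMeasure_nu hμ
  obtain ⟨C, hC, hvis⟩ := Flux.visit hμ hX
  set pd := nu μ (Dir.Fwd (Planar.ax δ)) with hpd
  have h0 : pd ≠ 0 := hX.regen.pos.ne'
  have htop : pd ≠ ∞ := measure_ne_top _ _
  intro ε hε
  obtain ⟨K, hK⟩ : ∃ K : ℕ, C / pd ≤ ε * ((K + 1 : ℕ) : ℝ≥0∞) := by
    have hCp : C / pd ≠ ∞ := ENNReal.div_ne_top hC h0
    by_cases hεt : ε = ∞
    · exact ⟨0, by simp [hεt]⟩
    obtain ⟨K, hK⟩ := ENNReal.exists_nat_gt (ENNReal.div_ne_top hCp hε)
    refine ⟨K, ?_⟩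
    rw [mul_comm]
    refine (ENNReal.div_le_iff hε hεt).1 (hK.le.trans ?_)
    exact_mod_cast Nat.le_succ K
  refine ⟨C / pd, ENNReal.div_ne_top hC h0, K + 1, fun k => ⟨?_, fun j => ?_⟩⟩
  · set N := (K + 1) * (k + 1) with hN
    have hN0 : (N : ℝ≥0∞) ≠ 0 := by simp [hN]
    have hsum : (∑' i : Piece δ k, wt μ i * ((i : Pref d).1 : ℝ≥0∞)) * pd ≤ k * C := by
      refine (piece_mean_le hμ k (fun i => (i.1 : ℝ≥0∞))
        (fun η => ∑ j ∈ Finset.range k, ∑' t, if hgt δ η t = (j : ℤ) then (1 : ℝ≥0∞) else 0)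
        fun i hi η hη => time_le ((Flux.climb_congr fun t ht => (hη.1 t ht).symm).1 hi)).trans ?_
      have hm : ∀ j : ℕ, Measurable fun η : ℕ → Step d =>
          ∑' t, if hgt δ η t = (j : ℤ) then (1 : ℝ≥0∞) else 0 := fun j => Measurable.tsum fun t =>
        Measurable.ite (measurable_hgt δ t (measurableSet_singleton _)) measurable_const
          measurable_const
      rw [lintegral_indicator Dir.measurableSet_fwd, lintegral_finsetSum _ fun j _ => hm j]
      refine le_trans (Finset.sum_le_sum (g := fun _ : ℕ => C) fun j _ => le_of_eq_of_le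
        (lintegral_indicator Dir.measurableSet_fwd _).symm (hvis (j : ℤ))) (le_of_eq ?_)
      simp
    have hmark : mass μ {i ∈ Piece δ k | N < i.1} * N ≤
        ∑' i : Piece δ k, wt μ i * ((i : Pref d).1 : ℝ≥0∞) := by
      rw [mass, ← ENNReal.tsum_mul_right]
      refine le_trans (ENNReal.tsum_le_tsum fun i => ?_)
        (ENNReal.tsum_comp_le_tsum_of_injective
          (f := fun i : {i ∈ Piece δ k | N < i.1} => (⟨i.1, i.2.1⟩ : Piece δ k))
          (fun a b h => Subtype.ext (congrArg (fun x : Piece δ k => (x : Pref d)) h))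
          fun i : Piece δ k => wt μ i * ((i : Pref d).1 : ℝ≥0∞))
      exact mul_le_mul' le_rfl (Nat.cast_le.2 i.2.2.le)
    rw [← ENNReal.mul_le_mul_iff_left (mul_ne_zero hN0 h0)
      (ENNReal.mul_ne_top (ENNReal.natCast_ne_top _) htop)]
    calc mass μ {i ∈ Piece δ k | N < i.1} * (N * pd)
        ≤ k * C := by rw [← mul_assoc]; exact (mul_le_mul' hmark le_rfl).trans hsum
      _ ≤ (k + 1 : ℕ) * (C / pd * pd) := by
          rw [ENNReal.div_mul_cancel h0 htop]
          exact mul_le_mul' (by exact_mod_cast k.le_succ) le_rfl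
      _ ≤ (k + 1 : ℕ) * (ε * ((K + 1 : ℕ) : ℝ≥0∞) * pd) := mul_le_mul' le_rfl (mul_le_mul' hK le_rfl)
      _ = _ := by simp only [hN, Nat.cast_mul]; ring
  · refine (ENNReal.le_div_iff_mul_le (Or.inl h0) (Or.inl htop)).2 ?_
    exact (piece_mean_le hμ k (fun i => (levelCount δ i j : ℝ≥0∞)) _
      fun i _ η hη => levelCount_le i hη.1 j).trans (hvis j)

end Vale.Agent.P147.Window
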