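import Vale.Agent.P147.Window.Budget
import Vale.Agent.P147.Window.Mass
import Vale.Agent.P147.Window.Switch
import Vale.Agent.P147.Window.Win
import Vale.Agent.P147.Window.Strip
import Vale.Agent.P147.Window.Core
import Vale.Agent.P147.Window.Induction
import Vale.Agent.P147.Window.Gap
import Vale.Agent.P147.Flux.Ergodic

/-!
P147: in dimension at least three one side with finite mean block time is escaped to almost surely.
-/

open MeasureTheory Filter
open scoped ENNReal Topology

noncomputable section

namespace Vale.Agent.P147.Window

variable {d : ℕ} [NeZero d] {μ : Measure (Step d → ℝ)}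

/-- One side with finite mean block time excludes every walk that does not escape along it. -/
theorem side_one (hμ : Elliptic μ) (hd : 3 ≤ d) {δ : Step d}
    (hX : Planar.Side μ δ) : nu μ (Dir.Escape (Planar.ax δ)) = 1 := by
  refine Flux.escape hμ δ ?_ hX.regen.pos
  by_cases h : nu μ (NoBack (opp δ) ∩ Unbdd (opp δ)) = 0
  · exact strip hμ δ hX.regen.pos h
  exact (not_both hμ (by omega)
    (mass_pos δ fun h0 => hX.regen.pos.ne' (measure_mono_null (fwd_subset δ) h0))
    (mass_pos (opp δ) h)
    (switch hμ δ fun h0 => h (measure_mono_null Set.inter_subset_left h0))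
    (core hμ hX.regen.pos (budget hd (gap hμ (by omega) hX.regen) (win hμ hX)))).elim

end Vale.Agent.P147.Window
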