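import Vale.Agent.P147.Window.Api
import Vale.Agent.P147.Flux.Moment

/-!
P147: sides escaping at a power of time keep their windows within the budget; the interface and the
budget it gives.
-/

open MeasureTheory Filter
open scoped ENNReal Topology

noncomputable section

namespace Vale.Agent.P147.Window

open Flux (Pref path endp left)

variable {d : ℕ} [NeZero d] {μ : Measure (Step d → ℝ)} {δ : Step d}

/-- Module SlowWin: time and visits per level of a piece, balanced against the spread of its end. -/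
def SlowStmt (μ : Measure (Step d → ℝ)) (δ : Step d) : Prop :=
  ∀ ε : ℝ≥0∞, ε ≠ 0 → ∃ C : ℝ≥0∞, C ≠ ∞ ∧ ∀ k, ∃ (L : ℕ) (A : ℝ≥0∞),
    mass μ {i ∈ Piece δ k | L < i.1} ≤ ε ∧
      (∀ j : ℤ, ∑ i ∈ Flux.prefs δ L k, wt μ i * levelCount δ i j ≤ A) ∧
      A * L * ENNReal.ofReal (1 / √((k : ℝ) + 1)) ^ (d - 1) ≤ C

/-- Module Budget for a side escaping at a power of time. -/
theorem budget_slow (hgap : GapStmt μ δ) (hwin : SlowStmt μ δ) : BudgetStmt μ δ := by
  classical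
  intro R ε hε
  obtain ⟨C₁, hC₁, g₁, hG⟩ := hgap ε hε
  obtain ⟨C₂, hC₂, hW⟩ := hwin ε hε
  set q := ENNReal.ofReal (√((R : ℝ) + 1)) ^ (d - 1)
  refine ⟨C₁ * q * C₂, ENNReal.mul_ne_top (ENNReal.mul_ne_top hC₁
    (ENNReal.pow_ne_top ENNReal.ofReal_ne_top)) hC₂, max g₁ 1, fun g hg k _ hkR => ?_⟩
  obtain ⟨G, hGp, hGm, hGe⟩ := hG g (le_of_max_le_left hg)
  have hg1 : (1 : ℝ) ≤ g := by exact_mod_cast le_of_max_le_right hg
  obtain ⟨L, A, hlong, hlev, hAL⟩ := hW k
  refine ⟨Flux.prefs δ L k, G, A, C₁ * ENNReal.ofReal (1 / √(g : ℝ)) ^ (d - 1), L,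
    fun i hi => (Flux.mem_prefs.1 hi).2, hGp, ?_, hGm, fun i hi => ?_, hlev, hGe, ?_⟩
  · refine le_trans (mass_mono ?_) hlong
    rintro i ⟨hi, hi'⟩
    refine ⟨hi, ?_⟩
    by_contra hc
    exact hi' (Flux.mem_prefs.2 ⟨not_lt.1 hc, hi⟩)
  · exact (Finset.card_image_le.trans_eq (Finset.card_range _)).trans (Flux.mem_prefs.1 hi).1
  · have hu : ENNReal.ofReal (1 / √(g : ℝ)) ≤
        ENNReal.ofReal (√((R : ℝ) + 1)) * ENNReal.ofReal (1 / √((k : ℝ) + 1)) := by
      rw [← ENNReal.ofReal_mul (Real.sqrt_nonneg _), mul_one_div]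
      refine ENNReal.ofReal_le_ofReal ?_
      rw [div_le_div_iff₀ (by positivity) (by positivity), one_mul,
        ← Real.sqrt_mul (by positivity)]
      refine Real.sqrt_le_sqrt ?_
      have : (k : ℝ) ≤ R * g := by exact_mod_cast hkR
      linarith
    calc C₁ * ENNReal.ofReal (1 / √(g : ℝ)) ^ (d - 1) * A * L
        ≤ C₁ * (ENNReal.ofReal (√((R : ℝ) + 1)) * ENNReal.ofReal (1 / √((k : ℝ) + 1))) ^ (d - 1)
            * A * L := by gcongr
      _ = C₁ * q * (A * L * ENNReal.ofReal (1 / √((k : ℝ) + 1)) ^ (d - 1)) := by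
          rw [mul_pow]; ring
      _ ≤ _ := mul_le_mul' le_rfl hAL

end Vale.Agent.P147.Window
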