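import Vale.Agent.P147.Flux.Main

/-!
P147: a lower growth rate along one direction passes to an axis, and certainty of that axis escape
comes back to the direction.
-/

open MeasureTheory Filter
open scoped ENNReal Topology

noncomputable section

namespace Vale.Agent.P147.Window

variable {d : ℕ} [NeZero d] {μ : Measure (Step d → ℝ)}

/-- If growth of order `n ^ β` along an axis makes that escape certain, so it does along every
direction. -/
theorem slow_dir (hμ : Elliptic μ) (hdir : ∀ l, Dir.DirectionStmt μ l) {β : ℝ} (hβ : 0 < β)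
    (haxis : ∀ δ : Step d, 0 < nu μ (Esc δ β) → nu μ (Dir.Escape (Planar.ax δ)) = 1)
    {l : Fin d → ℝ}
    (h : 0 < annealed μ {q | ∃ c > (0 : ℝ), ∀ᶠ n : ℕ in atTop, c * (n : ℝ) ^ β ≤ Dir.proj l q n}) :
    annealed μ (Dir.AE l) = 1 := by
  have := isProbabilityMeasure_nu hμ
  set S := {η : ℕ → Step d | ∃ c > (0 : ℝ), ∀ᶠ n : ℕ in atTop, c * (n : ℝ) ^ β ≤ Dir.lh l η n}
  have hS : 0 < nu μ S := h.trans_le <| le_trans
    (measure_mono fun q hq => by simpa [S, Dir.proj_eq] using hq)
    (Measure.le_map_apply measurable_stepsOf.aemeasurable S)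
  have hSE : S ⊆ Dir.Escape l := fun η hη => by
    obtain ⟨c, hc, hev⟩ := hη
    exact tendsto_atTop_mono' atTop hev (tendsto_mul_rpow hc hβ)
  have hl : 0 < nu μ (Dir.Escape l) := hS.trans_le (measure_mono hSE)
  obtain ⟨v, hv⟩ := hdir l hμ (Dir.ne_zero_of_escape hl) hl
  obtain ⟨i, hi⟩ : ∃ i, v i ≠ 0 := by
    by_contra hc
    push Not at hc
    simpa [hc] using hv.1
  set δ : Step d := (i, decide (0 < v i)) with hδ
  have hpos : 0 < ∑ j, Planar.ax δ j * v j := by
    rw [Finset.sum_eq_single i (fun j _ hj => by simp [Planar.ax, hδ, hj]) (by simp)]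
    rcases lt_or_gt_of_ne hi with h0 | h0
    · simp [Planar.ax, hδ, not_lt.mpr h0.le, h0]
    · simp [Planar.ax, hδ, h0]
  have he : 0 < nu μ (Esc δ β) := hS.trans_le <| measure_mono_ae <| by
    filter_upwards [hv.2] with η hη hs
    obtain ⟨c, hc, hev⟩ := hs
    have hl' : η ∈ Dir.Escape l := hSE ⟨c, hc, hev⟩
    have h1 : Tendsto (fun n => Dir.lh (Planar.ax δ) η n / Dir.lh l η n) atTop
        (𝓝 (∑ j, Planar.ax δ j * v j)) := by
      refine (tendsto_finsetSum _ fun j _ => (hη hl' j).const_mul (Planar.ax δ j)).congr fun n => ?_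
      simp only [Dir.lh, Dir.lht, Finset.sum_div, mul_div_assoc]
    set a := ∑ j, Planar.ax δ j * v j
    refine ⟨a / 2 * c, by positivity, ?_⟩
    filter_upwards [hev, h1.eventually_const_lt (half_lt_self hpos),
      hl'.eventually_gt_atTop 0] with n hn hlt hp
    rw [lt_div_iff₀ hp, Planar.lh_ax] at hlt
    have := mul_le_mul_of_nonneg_left hn (half_pos hpos).le
    rw [← mul_assoc] at this
    linarith
  have hone := haxis δ he
  obtain ⟨u, hu⟩ := hdir _ hμ (Dir.ne_zero_of_escape (hone ▸ one_pos)) (hone ▸ one_pos)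
  have hlu : 0 < ∑ j, l j * u j := by
    have h1 : (∑ j, l j * u j) * (∑ j, Planar.ax δ j * v j) = 1 := by
      rw [Finset.sum_mul, ← hv.1]
      exact Finset.sum_congr rfl fun j _ => by rw [mul_assoc, Dir.dir_eq hl hv hu hpos j]
    exact (pos_iff_pos_of_mul_pos (h1 ▸ one_pos)).2 hpos
  rw [Dir.annealed_ae]
  exact le_antisymm prob_le_one (hone ▸ Dir.escape_le hu hlu)

end Vale.Agent.P147.Window
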