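import Vale.Agent.P147.Window.Slow
import Vale.Agent.P147.Window.Win
import Vale.Agent.P147.Planar.Streams
import Vale.Agent.P147.Planar.Blocks
import Vale.Agent.P147.Planar.Axis
import Vale.Agent.P147.Flux.Ergodic

/-!
P147: a walk escaping at a power of time regenerates that fast with probability one, so its pieces
are short in time and leave few sites at each level.
-/

open MeasureTheory Filter
open scoped ENNReal Topology symmDiff

noncomputable section

namespace Vale.Agent.P147.Window

open Flux (Pref path endp left)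

variable {d : ℕ}

/-- A stream of blocks whose first `n` blocks take at most `K (n + 1) ^ ((d + 1) / 4)` steps. -/
def Within (d K : ℕ) : Set (ℕ → Planar.Blk d) :=
  {A | ∀ n, ((∑ r ∈ Finset.range n, Planar.blen (A r) : ℕ) : ℝ) ≤
    K * ((n : ℝ) + 1) ^ (((d : ℝ) + 1) / 4)}

lemma measurableSet_within (d K : ℕ) : MeasurableSet (Within d K) := by
  simp only [Within, Set.ofPred_forall]
  refine MeasurableSet.iInter fun n => measurableSet_le ?_ measurable_const
  exact (measurable_of_countable fun m : ℕ => (m : ℝ)).comp (Finset.measurable_sum _ fun r _ =>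
    (measurable_of_countable fun b : Planar.Blk d => Planar.blen b).comp (measurable_pi_apply r))

lemma within_shf_iff (A : ℕ → Planar.Blk d) :
    Planar.shf 1 A ∈ ⋃ K, Within d K ↔ A ∈ ⋃ K, Within d K := by
  set a := ((d : ℝ) + 1) / 4 with ha
  have ha0 : 0 ≤ a := by positivity
  have hs : ∀ n, ∑ r ∈ Finset.range (n + 1), Planar.blen (A r) =
      Planar.blen (A 0) + ∑ r ∈ Finset.range n, Planar.blen (Planar.shf 1 A r) := fun n => by
    rw [Finset.sum_range_succ', add_comm]
    exact congrArg₂ (· + ·) rfl (Finset.sum_congr rfl fun r _ => by simp [Planar.shf, add_comm])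
  simp only [Set.mem_iUnion, Within, Set.mem_ofPred_eq, ← ha]
  constructor
  · rintro ⟨K, hK⟩
    refine ⟨K + Planar.blen (A 0), fun n => ?_⟩
    have h1 : (1 : ℝ) ≤ ((n : ℝ) + 1) ^ a := Real.one_le_rpow (by simp) ha0
    rcases n with _ | n
    · simp only [Finset.range_zero, Finset.sum_empty, Nat.cast_zero]
      positivity
    have h2 : ((n : ℝ) + 1) ^ a ≤ (((n + 1 : ℕ) : ℝ) + 1) ^ a :=
      Real.rpow_le_rpow (by positivity) (by push_cast; linarith) ha0
    have h3 := hK n
    rw [hs n, Nat.cast_add, Nat.cast_add, add_mul]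
    nlinarith [mul_le_mul_of_nonneg_left h2 (Nat.cast_nonneg (α := ℝ) K),
      mul_le_mul_of_nonneg_left h1 (Nat.cast_nonneg (α := ℝ) (Planar.blen (A 0)))]
  · rintro ⟨K, hK⟩
    obtain ⟨K', hK'⟩ := exists_nat_ge ((K : ℝ) * (2 : ℝ) ^ a)
    refine ⟨K', fun n => ?_⟩
    have h1 : (((n + 1 : ℕ) : ℝ) + 1) ^ a ≤ (2 : ℝ) ^ a * ((n : ℝ) + 1) ^ a := by
      rw [← Real.mul_rpow zero_le_two (by positivity)]
      exact Real.rpow_le_rpow (by positivity) (by push_cast; linarith) ha0
    have h2 := hK (n + 1)
    rw [hs n, Nat.cast_add] at h2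
    have h3 : (K : ℝ) * (((n + 1 : ℕ) : ℝ) + 1) ^ a ≤ K' * ((n : ℝ) + 1) ^ a := by
      refine (mul_le_mul_of_nonneg_left h1 (Nat.cast_nonneg _)).trans ?_
      rw [← mul_assoc]
      exact mul_le_mul_of_nonneg_right hK' (by positivity)
    linarith [(Nat.cast_nonneg (α := ℝ) (Planar.blen (A 0)))]

/-- An event of an iid stream that the shift does not change is trivial. -/
lemma stream_zero_one {B : Type} [MeasurableSpace B] (P : Measure B) (hP : IsProbabilityMeasure P)
    {G : Set (ℕ → B)} (hG : MeasurableSet G) (hinv : Planar.shf 1 ⁻¹' G = G) :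
    (Measure.infinitePi fun _ : ℕ => P) G = 0 ∨ (Measure.infinitePi fun _ : ℕ => P) G = 1 := by
  classical
  set K : Planar.Kind B := ⟨P, fun _ => 0, fun _ => 0, fun _ => ∅⟩
  change K.stream G = 0 ∨ K.stream G = 1
  have : IsProbabilityMeasure K.stream := by unfold Planar.Kind.stream; infer_instance
  have hshf : ∀ i, Planar.shf i ⁻¹' G = G := fun i => by
    induction i with
    | zero =>
      have : Planar.shf (B := B) 0 = id := funext fun A => funext fun r => by simp [Planar.shf]
      rw [this, Set.preimage_id]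
    | succ i ih =>
      have : Planar.shf (B := B) (i + 1) = Planar.shf 1 ∘ Planar.shf i := funext fun A =>
        funext fun r => by simp [Planar.shf, add_assoc]
      rw [this, Set.preimage_comp, hinv, ih]
  have key : ∀ e : ℝ, 0 < e → K.stream.real G - K.stream.real G ^ 2 ≤ 2 * e := by
    intro e he
    obtain ⟨I, E, hE, hdep, hlt⟩ :=
      Flux.approx_cylinder K.stream hG (ENNReal.ofReal_pos.mpr he)
    have hd : K.stream.real (E ∆ G) ≤ e := by
      rw [measureReal_def]
      exact ENNReal.toReal_le_of_le_ofReal he.le hlt.le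
    have hprod : K.stream (E ∩ G) = K.stream E * K.stream G := by
      have h := Planar.lintegral_split K hP (g := G.indicator 1) (measurable_one.indicator hG)
        (I.sup id + 1) (E.indicator 1) (fun A A' h => ?_) (measurable_one.indicator hE)
      · rw [lintegral_indicator_one hE, lintegral_indicator_one hG] at h
        rw [← h, ← lintegral_indicator_one (hE.inter hG)]
        refine lintegral_congr fun A => ?_
        have hiff : Planar.shf (I.sup id + 1) A ∈ G ↔ A ∈ G := by
          rw [← Set.mem_preimage, hshf]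
        by_cases h1 : A ∈ E <;> by_cases h2 : A ∈ G <;> simp [h1, h2, hiff]
      · have he : ∀ i ∈ I, A i = A' i := fun i hi =>
          h i (Nat.lt_succ_of_le (Finset.le_sup (f := id) hi))
        have hiff : A ∈ E ↔ A' ∈ E :=
          ⟨hdep A A' he, hdep A' A fun i hi => (he i hi).symm⟩
        by_cases h1 : A ∈ E <;> simp [h1, hiff.symm]
    have hp : K.stream.real (E ∩ G) = K.stream.real E * K.stream.real G := by
      simp only [measureReal_def, hprod, ENNReal.toReal_mul]
    have e1 : K.stream.real G ≤ K.stream.real (E ∩ G) + e := by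
      refine le_trans (le_trans (measureReal_mono (s₂ := E ∩ G ∪ E ∆ G) fun A hA => ?_)
        (measureReal_union_le _ _)) (add_le_add le_rfl hd)
      by_cases h : A ∈ E
      · exact Or.inl ⟨h, hA⟩
      · exact Or.inr (Or.inr ⟨hA, h⟩)
    have e2 := Flux.real_le_of_symmDiff K.stream E G
    rw [symmDiff_comm] at e2
    have hg0 : 0 ≤ K.stream.real G := measureReal_nonneg
    have hg1 : K.stream.real G ≤ 1 := measureReal_le_one
    nlinarith
  have hz : K.stream.real G - K.stream.real G ^ 2 ≤ 0 := by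
    by_contra h
    have := key ((K.stream.real G - K.stream.real G ^ 2) / 4) (by linarith)
    linarith
  have hg0 : 0 ≤ K.stream.real G := measureReal_nonneg
  rcases hg0.lt_or_eq with h | h
  · refine Or.inr ?_
    have hg1 : K.stream.real G ≤ 1 := measureReal_le_one
    rw [← ofReal_measureReal (μ := K.stream) (s := G),
      show K.stream.real G = 1 by nlinarith, ENNReal.ofReal_one]
  · exact Or.inl ((measureReal_eq_zero_iff).mp h.symm)

variable [NeZero d] {μ : Measure (Step d → ℝ)} {δ : Step d}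

omit [NeZero d] in
lemma ctime_eq_lengths (l : Fin d → ℝ) (n : ℕ) (η : ℕ → Step d) :
    Dir.ctime l n η = ∑ r ∈ Finset.range n, Planar.blen (Planar.blks l η r) :=
  Finset.sum_congr rfl fun _ _ => (Planar.blen_blk _ _).symm

/-- Escape at a power of time makes the regenerations that fast. -/
lemma within_all (hμ : Elliptic μ) {β : ℝ} (hβ : 4 ≤ β * ((d : ℝ) + 1))
    (h : 0 < nu μ (Esc δ β)) (hR : Dir.Regen μ (Planar.ax δ)) :
    Dir.fwdLaw μ (Planar.ax δ) (Planar.blks (Planar.ax δ) ⁻¹' ⋃ K, Within d K) = 1 := by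
  have := isProbabilityMeasure_nu hμ
  have := hR.prob
  have hβ0 : 0 < β := by nlinarith [Nat.cast_nonneg (α := ℝ) d]
  set l := Planar.ax δ
  set a := ((d : ℝ) + 1) / 4 with ha
  have ha1 : 1 / β ≤ a := by rw [ha, div_le_div_iff₀ hβ0 (by norm_num)]; linarith
  set U := ⋃ K, Within d K
  have hU : MeasurableSet U := MeasurableSet.iUnion fun K => measurableSet_within d K
  have hpos : Dir.fwdLaw μ l (Esc δ β) ≠ 0 := by
    intro h0
    rw [Dir.RegenPf.fwdLaw_apply, mul_eq_zero, ENNReal.inv_eq_zero] at h0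
    have h1 := h0.resolve_left (measure_ne_top _ _)
    refine h.ne' (measure_mono_null (t := ⋃ n, shift n ⁻¹' (Esc δ β ∩ Dir.Fwd l)) (fun η hη => ?_)
      (measure_iUnion_null fun n =>
        Dir.null_shift hμ (measurableSet_esc.inter Dir.measurableSet_fwd) h1 n))
    have he : η ∈ Dir.Escape l := (esc_tendsto hβ0 hη).congr fun n => (Planar.lh_ax δ η n).symm
    obtain ⟨n, hn⟩ := Dir.exists_fwd he
    exact Set.mem_iUnion.2 ⟨n, esc_shift hβ0 hη n, hn⟩
  have hsub : ∀ᵐ η ∂Dir.fwdLaw μ l, η ∈ Esc δ β → η ∈ Planar.blks l ⁻¹' U := by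
    filter_upwards [hR.blocks, hR.slln (Dir.measurable_blkH hR.measurable_tau) Dir.blockFun_blkH
      hR.integrable_blkH] with η hb hs ⟨c, hc, hev⟩
    have hbk : ∀ k, ∃ t, Dir.RegT l ((Dir.next l)^[k] η) t := fun k => (hb k).2
    set B := |∫ η, Dir.blkH l η ∂Dir.fwdLaw μ l| + 1
    have hB : 0 < B := by positivity
    have hev2 : ∀ᶠ n : ℕ in atTop, (Dir.ctime l n η : ℝ) ≤ (B / c) ^ (1 / β) * ((n : ℝ) + 1) ^ a := by
      filter_upwards [hs.eventually_lt_const ((le_abs_self _).trans_lt (lt_add_one _)),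
        (Dir.ctime_strictMono hbk).tendsto_atTop.eventually hev, eventually_gt_atTop 0]
        with n h1 h2 hn
      rw [← Dir.lh_ctime_eq, Planar.lh_ax, div_lt_iff₀ (by exact_mod_cast hn)] at h1
      have h3 : (Dir.ctime l n η : ℝ) ^ β ≤ B / c * ((n : ℝ) + 1) := by
        rw [div_mul_eq_mul_div, le_div_iff₀ hc]
        nlinarith
      calc (Dir.ctime l n η : ℝ) = ((Dir.ctime l n η : ℝ) ^ β) ^ (1 / β) := by
            rw [← Real.rpow_mul (Nat.cast_nonneg _), mul_one_div_cancel hβ0.ne', Real.rpow_one]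
        _ ≤ (B / c * ((n : ℝ) + 1)) ^ (1 / β) :=
            Real.rpow_le_rpow (by positivity) h3 (by positivity)
        _ = (B / c) ^ (1 / β) * ((n : ℝ) + 1) ^ (1 / β) :=
            Real.mul_rpow (by positivity) (by positivity)
        _ ≤ _ := mul_le_mul_of_nonneg_left
            (Real.rpow_le_rpow_of_exponent_le (by simp) ha1) (by positivity)
    obtain ⟨N, hN⟩ := eventually_atTop.mp hev2
    obtain ⟨K, hK⟩ := exists_nat_ge ((B / c) ^ (1 / β) + Dir.ctime l N η)
    refine Set.mem_iUnion.2 ⟨K, fun n => ?_⟩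
    rw [← ctime_eq_lengths]
    have h1 : (1 : ℝ) ≤ ((n : ℝ) + 1) ^ a := Real.one_le_rpow (by simp) (by positivity)
    have h0 : (0 : ℝ) ≤ (B / c) ^ (1 / β) := by positivity
    rcases le_total N n with hn | hn
    · refine (hN n hn).trans (mul_le_mul_of_nonneg_right ?_ (by positivity))
      linarith [(Nat.cast_nonneg (α := ℝ) (Dir.ctime l N η))]
    · have h2 : (Dir.ctime l n η : ℝ) ≤ Dir.ctime l N η := by
        exact_mod_cast (Dir.ctime_strictMono hbk).monotone hn
      refine h2.trans (le_trans (by linarith) (le_mul_of_one_le_right (by positivity) h1))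
  have h1 : Dir.fwdLaw μ l (Planar.blks l ⁻¹' U) ≠ 0 := fun h0 =>
    hpos (le_antisymm ((measure_mono_ae hsub).trans h0.le) zero_le)
  rw [← Measure.map_apply (Planar.measurable_blks hR) hU, Planar.map_blks hR] at h1 ⊢
  exact (stream_zero_one _ (Planar.isProbability_blk hR) hU
    (Set.ext fun A => within_shf_iff A)).resolve_left h1

/-- A block quantity cut at `L` is small in mean when many blocks fit into `L`. -/
lemma trunc_block_mean (hR : Dir.Regen μ (Planar.ax δ)) {N : (ℕ → Step d) → ℕ} (hNm : Measurable N)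
    (hNb : Dir.BlockFun (Planar.ax δ) N) {k L : ℕ} (hL : 0 < L)
    (hk : (3 / 4 : ℝ≥0∞) ≤
      Dir.fwdLaw μ (Planar.ax δ)
      {η | ∑ r ∈ Finset.range k, N ((Dir.next (Planar.ax δ))^[r] η) ≤ L}) :
    (k : ℝ≥0∞) * ∫⁻ η, ((min (N η) L : ℕ) : ℝ≥0∞)
      ∂Dir.fwdLaw μ (Planar.ax δ) ≤ 4 * L := by
  have := hR.prob
  set l := Planar.ax δ
  set P := Dir.fwdLaw μ l
  have hL' : (0 : ℝ) < 2 * L := by positivity
  set f : (ℕ → Step d) → ℝ≥0∞ := fun η =>
    ENNReal.ofReal (1 - (min (N η) L : ℕ) / (2 * (L : ℝ))) with hf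
  set x : (ℕ → Step d) → ℝ≥0∞ := fun η =>
    ENNReal.ofReal ((min (N η) L : ℕ) / (2 * (L : ℝ))) with hx
  have hfm : Measurable f := (measurable_of_countable fun m : ℕ =>
    ENNReal.ofReal (1 - (min m L : ℕ) / (2 * (L : ℝ)))).comp hNm
  have hxm : Measurable x := (measurable_of_countable fun m : ℕ =>
    ENNReal.ofReal ((min m L : ℕ) / (2 * (L : ℝ)))).comp hNm
  have hle : ∀ m : ℕ, ((min m L : ℕ) : ℝ) / (2 * L) ≤ 1 := fun m => by
    rw [div_le_one hL']
    have : ((min m L : ℕ) : ℝ) ≤ L := by exact_mod_cast min_le_right m L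
    linarith
  have hone : ∫⁻ η, f η ∂P + ∫⁻ η, x η ∂P = 1 := by
    rw [← lintegral_add_left hfm]
    have : ∀ η, f η + x η = 1 := fun η => by
      rw [hf, hx, ← ENNReal.ofReal_add (sub_nonneg.2 (hle _)) (by positivity), sub_add_cancel,
        ENNReal.ofReal_one]
    simp [this]
  have hprod : ∀ n, Measurable (fun η => ∏ r ∈ Finset.range n, f ((Dir.next l)^[r] η)) ∧
      ∫⁻ η, ∏ r ∈ Finset.range n, f ((Dir.next l)^[r] η) ∂P = (∫⁻ η, f η ∂P) ^ n := by
    intro n
    induction n with
    | zero => exact ⟨by simp, by simp⟩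
    | succ n ih =>
      refine ⟨Finset.measurable_prod _ fun r _ => hfm.comp (hR.preserving.iterate r).measurable, ?_⟩
      have hfb : Dir.BlockFun l f := fun η η' h1 h2 h3 h4 h5 h6 => by
        simp only [hf, hNb η η' h1 h2 h3 h4 h5 h6]
      have := hR.lintegral_mul hfm ih.1 hfb (i := 0) (j := 1) zero_lt_one
      rw [pow_succ', ← ih.2, ← this]
      refine lintegral_congr fun η => ?_
      rw [Finset.prod_range_succ', mul_comm]
      simp [Function.iterate_succ_apply]
  have hlow : (3 / 8 : ℝ≥0∞) ≤ (∫⁻ η, f η ∂P) ^ k := by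
    rw [← (hprod k).2]
    calc (3 / 8 : ℝ≥0∞) = 2⁻¹ * (3 / 4) := by
          rw [div_eq_mul_inv, div_eq_mul_inv, mul_left_comm, ← ENNReal.mul_inv (by simp) (by simp)]
          norm_num
      _ ≤ 2⁻¹ * P {η | (∑ r ∈ Finset.range k, N ((Dir.next l)^[r] η)) ≤ L} := mul_le_mul' le_rfl hk
      _ = ∫⁻ η, {η | (∑ r ∈ Finset.range k, N ((Dir.next l)^[r] η)) ≤ L}.indicator (fun _ => 2⁻¹) η ∂P :=
          (lintegral_indicator_const
            ((Finset.measurable_sum (Finset.range k) fun r _ =>
              hNm.comp (hR.preserving.iterate r).measurable) (MeasurableSet.of_discrete (s := Set.Iic L))) _).symm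
      _ ≤ _ := lintegral_mono fun η => by
          by_cases hη : η ∈ {η | (∑ r ∈ Finset.range k, N ((Dir.next l)^[r] η)) ≤ L}
          · rw [Set.indicator_of_mem hη]
            simp only [hf]
            rw [← ENNReal.ofReal_prod_of_nonneg fun r _ => sub_nonneg.2 (hle _),
              show (2 : ℝ≥0∞)⁻¹ = ENNReal.ofReal (1 / 2) by
                rw [one_div, ENNReal.ofReal_inv_of_pos two_pos, ENNReal.ofReal_ofNat]]
            refine ENNReal.ofReal_le_ofReal ?_
            have hsum : ∑ r ∈ Finset.range k,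
                ((min (N ((Dir.next l)^[r] η)) L : ℕ) : ℝ) / (2 * L) ≤ 1 / 2 := by
              rw [← Finset.sum_div, div_le_iff₀ hL']
              refine le_trans (b := (((∑ r ∈ Finset.range k, N ((Dir.next l)^[r] η)) : ℕ) : ℝ)) ?_ ?_
              · simp only [Nat.cast_sum]
                exact Finset.sum_le_sum fun r _ => by exact_mod_cast min_le_left _ _
              · have : (((∑ r ∈ Finset.range k, N ((Dir.next l)^[r] η)) : ℕ) : ℝ) ≤ L := Nat.cast_le.2 hη
                linarith
            have hw : ∀ n, 1 - ∑ r ∈ Finset.range n,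
                ((min (N ((Dir.next l)^[r] η)) L : ℕ) : ℝ) / (2 * L) ≤
                ∏ r ∈ Finset.range n,
                  (1 - ((min (N ((Dir.next l)^[r] η)) L : ℕ) : ℝ) / (2 * L)) := by
              intro n
              induction n with
              | zero => simp
              | succ n ih =>
                rw [Finset.sum_range_succ, Finset.prod_range_succ]
                have h1 := hle (N ((Dir.next l)^[n] η))
                have h2 : 0 ≤ ((min (N ((Dir.next l)^[n] η)) L : ℕ) : ℝ) / (2 * L) := by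
                  positivity
                have h3 : 0 ≤ ∑ r ∈ Finset.range n,
                    ((min (N ((Dir.next l)^[r] η)) L : ℕ) : ℝ) / (2 * L) :=
                  Finset.sum_nonneg fun _ _ => by positivity
                nlinarith
            linarith [hw k]
          · simp [hη]
  have hft : ∫⁻ η, f η ∂P ≠ ∞ := ne_top_of_le_ne_top ENNReal.one_ne_top (hone ▸ le_self_add)
  have hxt : ∫⁻ η, x η ∂P ≠ ∞ := ne_top_of_le_ne_top ENNReal.one_ne_top (hone ▸ le_add_self)
  set u := (∫⁻ η, f η ∂P).toReal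
  set v := (∫⁻ η, x η ∂P).toReal
  have huv : u + v = 1 := by rw [← ENNReal.toReal_add hft hxt, hone, ENNReal.toReal_one]
  have hk' : (3 / 8 : ℝ) ≤ u ^ k := by
    have := ENNReal.toReal_mono (ENNReal.pow_ne_top hft) hlow
    rwa [ENNReal.toReal_pow, ENNReal.toReal_div, ENNReal.toReal_ofNat, ENNReal.toReal_ofNat] at this
  have hv0 : 0 ≤ v := ENNReal.toReal_nonneg
  have hu0 : 0 ≤ u := ENNReal.toReal_nonneg
  have hb : u ^ k * (1 + k * v) ≤ 1 := by
    refine le_trans (mul_le_mul_of_nonneg_left
      (one_add_mul_le_pow (by linarith) k) (by positivity)) ?_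
    rw [← mul_pow]
    exact pow_le_one₀ (by positivity) (by nlinarith)
  have hkv : (k : ℝ) * v ≤ 2 := by nlinarith
  calc (k : ℝ≥0∞) * ∫⁻ η, ((min (N η) L : ℕ) : ℝ≥0∞) ∂P
      = k * ((2 * L : ℕ) * ∫⁻ η, x η ∂P) := by
        rw [← lintegral_const_mul _ hxm]
        congr 1
        refine lintegral_congr fun η => ?_
        rw [hx, ← ENNReal.ofReal_natCast (2 * L), ← ENNReal.ofReal_mul (Nat.cast_nonneg _),
          ← ENNReal.ofReal_natCast]
        congr 1
        push_cast
        field_simp
    _ = ENNReal.ofReal (2 * L * (k * v)) := by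
        rw [ENNReal.ofReal_mul (by positivity), ENNReal.ofReal_mul (Nat.cast_nonneg _),
          ENNReal.ofReal_toReal hxt, ENNReal.ofReal_natCast, show (2 * (L : ℝ)) = ((2 * L : ℕ) : ℝ) by
            push_cast; rfl, ENNReal.ofReal_natCast]
        ring
    _ ≤ ENNReal.ofReal (4 * L) := ENNReal.ofReal_le_ofReal (by nlinarith)
    _ = _ := by rw [ENNReal.ofReal_mul (by norm_num)]; simp

/-- Block times cut at `L` are short when many blocks fit into `L` steps. -/
lemma trunc_mean_le (hR : Dir.Regen μ (Planar.ax δ)) {k L : ℕ} (hL : 0 < L)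
    (hk : (3 / 4 : ℝ≥0∞) ≤
      Dir.fwdLaw μ (Planar.ax δ) {η | Dir.ctime (Planar.ax δ) k η ≤ L}) :
    (k : ℝ≥0∞) * ∫⁻ η, ((min (Dir.tau (Planar.ax δ) η) L : ℕ) : ℝ≥0∞)
      ∂Dir.fwdLaw μ (Planar.ax δ) ≤ 4 * L :=
  trunc_block_mean hR hR.measurable_tau (fun _ _ _ _ _ _ h5 _ => h5) hL hk

/-- The first `L` steps spend at most a cut block time at each level. -/
lemma cnt_trunc_le (hR : Dir.Regen μ (Planar.ax δ)) (L : ℕ) (j : ℤ) :
    ∫⁻ η, Flux.cnt δ L j η ∂Dir.fwdLaw μ (Planar.ax δ) ≤
      ∫⁻ η, ((min (Dir.tau (Planar.ax δ) η) L : ℕ) : ℝ≥0∞) ∂Dir.fwdLaw μ (Planar.ax δ) := by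
  classical
  have := hR.prob
  set l := Planar.ax δ
  set P := Dir.fwdLaw μ l
  set lw : ℤ → (ℕ → Step d) → ℝ≥0∞ := fun j η =>
    ∑ t ∈ Finset.range (min (Dir.tau l η) L), if hgt δ η t ≤ j then 1 else 0 with hlw
  have hlwm : ∀ j, Measurable (lw j) := fun j => Dir.measurable_at_tau hR.measurable_tau
    (F := fun n η => ∑ t ∈ Finset.range (min n L), if hgt δ η t ≤ j then (1 : ℝ≥0∞) else 0) fun _ =>
      Finset.measurable_fun_sum _ fun t _ =>
        Measurable.ite (measurable_hgt δ t (MeasurableSet.of_discrete (s := Set.Iic j)))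
          measurable_const measurable_const
  have hmono : ∀ {a b : ℕ}, a ≤ b → ∀ (i : ℤ) η, Flux.cnt δ a i η ≤ Flux.cnt δ b i η :=
    fun hab i η => Finset.sum_le_sum_of_subset (Finset.range_mono hab)
  set g : ℕ → ℤ → (ℕ → Step d) → ℝ≥0∞ := fun M i η =>
    Flux.cnt δ (min (Dir.ctime l M η) L) i η with hg
  have hgm : ∀ M i, Measurable (g M i) := fun M i =>
    (measurable_from_prod_countable_left
      (f := fun r : (ℕ → Step d) × ℕ => Flux.cnt δ (min r.2 L) i r.1)
      fun n => Flux.measurable_cnt (min n L) i).comp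
      (measurable_id.prodMk (Flux.measurable_ctime hR M))
  set H : (ℕ → Step d) → ℤ := fun η => hgt δ η (Dir.tau l η)
  have hHm : Measurable H :=
    Dir.measurable_at_tau hR.measurable_tau (F := fun n η => hgt δ η n) (measurable_hgt δ)
  set f : ℤ → (ℕ → Step d) → ℝ≥0∞ := fun i η => if H η = i then 1 else 0
  have hfm : ∀ i, Measurable (f i) := fun i =>
    Measurable.ite (hHm (measurableSet_singleton i)) measurable_const measurable_const
  have hfb : ∀ i, Dir.BlockFun l (f i) := fun i η η' _ _ _ _ h5 h6 => by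
    have h7 : H η = H η' := by simp only [H, ← h5]; exact hgt_congr δ h6
    simp only [f, h7]
  have hrec : ∀ M i η, g (M + 1) i η ≤ Flux.cnt δ (min (Dir.tau l η) L) i η +
      ∑' z, f z η * g M (i - z) (Dir.next l η) := by
    intro M i η
    have htsum : ∑' z, f z η * g M (i - z) (Dir.next l η) = g M (i - H η) (Dir.next l η) := by
      rw [tsum_eq_single (H η) fun z hz => by simp [f, Ne.symm hz]]
      simp [f]
    rw [htsum]
    simp only [hg, Flux.ctime_succ', l]
    rcases le_or_gt L (Dir.tau l η) with h | h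
    · refine le_trans (le_of_eq ?_) le_self_add
      simp only [l] at h
      rw [min_eq_right (by omega), min_eq_right h]
    · simp only [l] at h
      rw [min_eq_left h.le]
      refine le_trans (hmono (b := Dir.tau (Planar.ax δ) η +
        min (Dir.ctime (Planar.ax δ) M (Dir.next (Planar.ax δ) η)) L) (by omega) i η) ?_
      rw [Flux.cnt_add]
      rfl
  have hbound : ∀ M i, ∫⁻ η, g M i η ∂P ≤ ∫⁻ η, lw i η ∂P := by
    intro M
    induction M with
    | zero => intro i; simp [hg, Flux.cnt, Dir.ctime]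
    | succ M ih =>
      intro i
      have hgn : ∀ z, Measurable fun η => f z η * g M (i - z) (Dir.next l η) := fun z =>
        (hfm z).mul ((hgm M _).comp hR.preserving.measurable)
      have hz : ∀ z, ∫⁻ η, f z η * g M (i - z) (Dir.next l η) ∂P ≤
          (∫⁻ η, f z η ∂P) * ∫⁻ η, lw (i - 1) η ∂P := fun z => by
        have hind := hR.lintegral_mul (hfm z) (hgm M (i - z)) (hfb z) (i := 0) (j := 1) zero_lt_one
        simp only [Function.iterate_zero, id_eq, Function.iterate_one] at hind
        rw [hind]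
        change (∫⁻ η, f z η ∂P) * _ ≤ _
        rcases lt_or_ge z 1 with hz | hz
        · have h0 : ∫⁻ η, f z η ∂P = 0 := by
            refine (lintegral_congr_ae ?_).trans lintegral_zero
            filter_upwards [hR.blocks] with η hη
            have := (Planar.cand_ax.mp (Dir.tau_spec (hη 0).2).1).1
            simp only [Function.iterate_zero, id_eq] at this
            exact if_neg (show hgt δ η (Dir.tau l η) ≠ z by omega)
          simp [h0]
        · refine mul_le_mul' le_rfl ((ih (i - z)).trans (lintegral_mono fun η => ?_))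
          exact Finset.sum_le_sum fun t _ => by
            split_ifs <;> first | exact le_rfl | exact zero_le | omega
      calc ∫⁻ η, g (M + 1) i η ∂P
          ≤ ∫⁻ η, Flux.cnt δ (min (Dir.tau l η) L) i η +
              ∑' z, f z η * g M (i - z) (Dir.next l η) ∂P := lintegral_mono (hrec M i)
        _ = ∫⁻ η, Flux.cnt δ (min (Dir.tau l η) L) i η ∂P +
              ∑' z, ∫⁻ η, f z η * g M (i - z) (Dir.next l η) ∂P := by
            rw [lintegral_add_left (Dir.measurable_at_tau hR.measurable_tau
              (F := fun n η => Flux.cnt δ (min n L) i η) fun n => Flux.measurable_cnt _ i),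
              lintegral_tsum fun z => (hgn z).aemeasurable]
        _ ≤ ∫⁻ η, Flux.cnt δ (min (Dir.tau l η) L) i η ∂P +
              (∑' z, ∫⁻ η, f z η ∂P) * ∫⁻ η, lw (i - 1) η ∂P := by
            rw [← ENNReal.tsum_mul_right]
            exact add_le_add le_rfl (ENNReal.tsum_le_tsum hz)
        _ = ∫⁻ η, lw i η ∂P := by
            have htot : ∀ η, ∑' z, f z η = 1 := fun η => by
              rw [tsum_eq_single (H η) fun z hz => if_neg (Ne.symm hz)]
              exact if_pos rfl
            rw [← lintegral_tsum fun z => (hfm z).aemeasurable, lintegral_congr htot,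
              lintegral_const, measure_univ, mul_one, one_mul,
              ← lintegral_add_right _ (hlwm (i - 1))]
            refine lintegral_congr fun η => ?_
            simp only [hlw, Flux.cnt, ← Finset.sum_add_distrib]
            refine Finset.sum_congr rfl fun t _ => ?_
            rcases lt_trichotomy (hgt δ η t) i with h | h | h
            · rw [if_neg h.ne, if_pos (by omega), if_pos h.le, zero_add]
            · rw [if_pos h, if_neg (by omega), if_pos h.le, add_zero]
            · rw [if_neg h.ne', if_neg (by omega), if_neg (by omega), add_zero]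
  refine le_trans (lintegral_mono_ae ?_) ((hbound L j).trans (lintegral_mono fun η => ?_))
  · filter_upwards [hR.blocks] with η hη
    refine hmono (le_min ?_ le_rfl) j η
    exact (Dir.ctime_strictMono fun k => (hη k).2).le_apply
  · refine (Finset.sum_le_sum (g := fun _ => 1) fun t _ => by split_ifs <;> simp).trans ?_
    simp

/-- Module SlowWin: time and visits per level of a piece, balanced against the spread of its end. -/
theorem slow (hμ : Elliptic μ) {β : ℝ} (hβ : 4 ≤ β * ((d : ℝ) + 1))
    (h : 0 < nu μ (Esc δ β)) : SlowStmt μ δ := by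
  classical
  have := isProbabilityMeasure_nu hμ
  have hβ0 : 0 < β := by nlinarith [Nat.cast_nonneg (α := ℝ) d]
  have hR : Dir.Regen μ (Planar.ax δ) := Dir.regen μ _ δ hμ (Planar.norm_ax δ)
    (h.trans_le (measure_mono fun η hη =>
      (esc_tendsto hβ0 hη).congr fun n => (Planar.lh_ax δ η n).symm))
  have := hR.prob
  set l := Planar.ax δ
  set P := Dir.fwdLaw μ l
  set a := ((d : ℝ) + 1) / 4 with ha
  have hfull := within_all hμ hβ h hR
  rw [Set.preimage_iUnion] at hfull
  intro ε hε
  obtain ⟨K, hK⟩ : ∃ K, 1 - min ε (1 / 4) < P (Planar.blks l ⁻¹' Within d K) := by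
    have hmono : Monotone fun K => Planar.blks l ⁻¹' Within d K := fun K K' hKK' η hη n =>
      (hη n).trans (mul_le_mul_of_nonneg_right (Nat.cast_le.2 hKK') (by positivity))
    have := tendsto_measure_iUnion_atTop (μ := P) hmono
    rw [hfull] at this
    exact (this.eventually_const_lt (ENNReal.sub_lt_self ENNReal.one_ne_top one_ne_zero
      (by simp [hε]))).exists
  refine ⟨ENNReal.ofReal (8 * ((K : ℝ) + 3 / 2) ^ 2), ENNReal.ofReal_ne_top, fun k => ?_⟩
  set L := ⌈((K : ℝ) + 1 / 2) * ((k : ℝ) + 1) ^ a⌉₊ with hL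
  have hk1 : (1 : ℝ) ≤ ((k : ℝ) + 1) ^ a := Real.one_le_rpow (by simp) (by positivity)
  have hL0 : 0 < L := Nat.ceil_pos.2 (by positivity)
  have hW : MeasurableSet (Planar.blks l ⁻¹' Within d K) :=
    Planar.measurable_blks hR (measurableSet_within d K)
  have hlate : P {η | L < Dir.ctime l k η} ≤ min ε (1 / 4) := by
    refine le_trans (measure_mono (t := (Planar.blks l ⁻¹' Within d K)ᶜ) fun η hη hW' => ?_) ?_
    · have h1 := hW' k
      rw [← ctime_eq_lengths] at h1
      have h2 : ((Dir.ctime l k η : ℕ) : ℝ) ≤ L := by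
        refine h1.trans (le_trans ?_ (Nat.le_ceil _))
        nlinarith
      exact absurd hη (not_lt.2 (Nat.cast_le.1 h2))
    · rw [prob_compl_eq_one_sub hW, tsub_le_iff_right]
      exact le_trans le_add_tsub (add_le_add le_rfl hK.le)
  set m := ∫⁻ η, ((min (Dir.tau l η) L : ℕ) : ℝ≥0∞) ∂P
  have hm : ((k + 1 : ℕ) : ℝ≥0∞) * m ≤ 8 * L := by
    have h1 : m ≤ L := le_trans (lintegral_mono (g := fun _ => (L : ℝ≥0∞)) fun η =>
      Nat.cast_le.2 (min_le_right _ _)) (by simp)
    rcases Nat.eq_zero_or_pos k with rfl | hk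
    · simpa using h1.trans (le_mul_of_one_le_left' (by norm_num))
    have h3 : (3 / 4 : ℝ≥0∞) ≤ P {η | Dir.ctime l k η ≤ L} := by
      have hm' : MeasurableSet {η : ℕ → Step d | L < Dir.ctime l k η} :=
        Flux.measurable_ctime hR k (MeasurableSet.of_discrete (s := Set.Ioi L))
      have h4 := hlate.trans (min_le_right _ _)
      rw [show {η : ℕ → Step d | Dir.ctime l k η ≤ L} = {η | L < Dir.ctime l k η}ᶜ by ext η; simp,
        prob_compl_eq_one_sub hm']
      refine le_trans (le_of_eq ?_) (tsub_le_tsub_left h4 1)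
      refine (ENNReal.sub_eq_of_eq_add (by simp) ?_).symm
      rw [ENNReal.div_add_div_same, show (3 : ℝ≥0∞) + 1 = 4 by norm_num,
        ENNReal.div_self (by norm_num) (by norm_num)]
    calc ((k + 1 : ℕ) : ℝ≥0∞) * m ≤ (2 * k : ℕ) * m :=
          mul_le_mul' (Nat.cast_le.2 (by omega)) le_rfl
      _ = 2 * ((k : ℝ≥0∞) * m) := by push_cast; ring
      _ ≤ 2 * (4 * L) := mul_le_mul' le_rfl (trunc_mean_le hR hL0 h3)
      _ = _ := by ring
  have hfwd : ∀ g : (ℕ → Step d) → ℝ≥0∞, ∫⁻ η, (Dir.Fwd l).indicator g η ∂nu μ =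
      nu μ (Dir.Fwd l) * ∫⁻ η, g η ∂P := fun g => by
    rw [lintegral_indicator Dir.measurableSet_fwd]
    simp only [P, Dir.fwdLaw, lintegral_smul_measure, smul_eq_mul]
    rw [← mul_assoc, ENNReal.mul_inv_cancel hR.pos.ne' (measure_ne_top _ _), one_mul]
  have hpd : ∀ {X Y : ℝ≥0∞}, X * nu μ (Dir.Fwd l) ≤ nu μ (Dir.Fwd l) * Y → X ≤ Y := fun h' => by
    rw [mul_comm] at h'
    exact (ENNReal.mul_le_mul_iff_right hR.pos.ne' (measure_ne_top _ _)).1 h'
  refine ⟨L, m, hpd ?_, fun j => hpd ?_, ?_⟩
  · set Bad := {η : ℕ → Step d | ¬ ∀ r, ∃ t, Dir.RegT l ((Dir.next l)^[r] η) t}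
    have hbad : P Bad = 0 := by
      refine measure_eq_zero_iff_ae_notMem.2 ?_
      filter_upwards [hR.blocks] with η hη hb
      exact hb fun r => (hη r).2
    have h1 := piece_mean_le hμ k (fun i => if L < i.1 then 1 else 0)
      (fun η => ({η : ℕ → Step d | L < Dir.ctime l k η} ∪ Bad).indicator (fun _ => 1) η)
      (δ := δ) fun i hi η hη => by
        split_ifs with hlt
        · refine (Set.indicator_of_mem (f := fun _ => (1 : ℝ≥0∞)) ?_).ge
          by_contra hc
          rw [Set.mem_union, not_or] at hc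
          simp only [Bad, Set.mem_ofPred_eq, not_lt, not_not] at hc
          have h1 := Dir.le_lh_ctime hc.2 k
          rw [Planar.lh_ax] at h1
          obtain ⟨p, hp, hit⟩ := exists_hit δ (j := k) (n := Dir.ctime l k η) (η := η)
            (by exact_mod_cast h1)
          have := hit_unique ((Flux.climb_congr fun t ht => (hη.1 t ht).symm).1 hi).1 hit
          omega
        · exact zero_le
    rw [hfwd] at h1
    refine le_trans (le_trans (mul_le_mul' ?_ le_rfl) h1) (mul_le_mul' le_rfl ?_)
    · refine le_trans (ENNReal.tsum_le_tsum fun i => ?_)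
        (ENNReal.tsum_comp_le_tsum_of_injective
          (f := fun i : {i ∈ Piece δ k | L < i.1} => (⟨i.1, i.2.1⟩ : Piece δ k))
          (fun a b h => Subtype.ext (congrArg (fun x : Piece δ k => (x : Pref d)) h))
          fun i : Piece δ k => wt μ i * if L < (i : Pref d).1 then 1 else 0)
      rw [if_pos i.2.2, mul_one]
    · refine (lintegral_indicator_const_le _ _).trans ?_
      rw [one_mul]
      refine (measure_union_le _ _).trans ?_
      rw [hbad, add_zero]
      exact hlate.trans (min_le_left _ _)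
  · have h1 := piece_mean_le hμ k (fun i => if i.1 ≤ L then (levelCount δ i j : ℝ≥0∞) else 0)
      (Flux.cnt δ L j) (δ := δ) fun i hi η hη => by
        split_ifs with hle
        · refine le_trans ?_ (Finset.sum_le_sum_of_subset (Finset.range_mono hle))
          rw [Finset.sum_boole, Nat.cast_le, levelCount, left, Finset.filter_image]
          refine Finset.card_image_le.trans
            (le_of_eq (congrArg _ (Finset.filter_congr fun t ht => ?_)))
          rw [hgt, pos_congr fun s hs => hη.1 s (hs.trans (Finset.mem_range.1 ht))]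
        · exact zero_le
    rw [hfwd] at h1
    refine le_trans (le_trans (mul_le_mul' ?_ le_rfl) h1)
      (mul_le_mul' le_rfl (cnt_trunc_le hR L j))
    rw [← Finset.tsum_subtype']
    refine le_trans (ENNReal.tsum_le_tsum fun i => le_of_eq ?_)
      (ENNReal.tsum_mono_subtype (fun i : Pref d => wt μ i *
        if i.1 ≤ L then (levelCount δ i j : ℝ≥0∞) else 0)
        (fun i hi => (Flux.mem_prefs.1 hi).2 : ↑(Flux.prefs δ L k) ⊆ Piece δ k))
    rw [if_pos (Flux.mem_prefs.1 i.2).1]
  · set s := √((k : ℝ) + 1) with hs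
    have hs0 : 0 < s := by positivity
    have hLle : (L : ℝ) ≤ ((K : ℝ) + 3 / 2) * ((k : ℝ) + 1) ^ a := by
      have := (Nat.ceil_lt_add_one (a := ((K : ℝ) + 1 / 2) * ((k : ℝ) + 1) ^ a) (by positivity)).le
      rw [← hL] at this
      nlinarith
    have hpow : (((k : ℝ) + 1) ^ a) ^ 2 = s ^ (d + 1) := by
      rw [hs, Real.sqrt_eq_rpow, ← Real.rpow_natCast, ← Real.rpow_natCast (n := d + 1),
        ← Real.rpow_mul (by positivity), ← Real.rpow_mul (by positivity)]
      congr 1
      rw [ha]; push_cast; ring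
    have hm' : m ≤ ENNReal.ofReal (8 * L / ((k : ℝ) + 1)) := by
      rw [ENNReal.ofReal_div_of_pos (by positivity), ENNReal.le_div_iff_mul_le
        (Or.inl (ENNReal.ofReal_pos.2 (by positivity)).ne') (Or.inl ENNReal.ofReal_ne_top)]
      rw [ENNReal.ofReal_mul (by norm_num), ENNReal.ofReal_natCast,
        show ((k : ℝ) + 1) = ((k + 1 : ℕ) : ℝ) by push_cast; rfl, ENNReal.ofReal_natCast, mul_comm]
      simpa using hm
    calc m * L * ENNReal.ofReal (1 / s) ^ (d - 1)
        ≤ ENNReal.ofReal (8 * L / ((k : ℝ) + 1) * L * (1 / s) ^ (d - 1)) := by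
          rw [ENNReal.ofReal_mul (by positivity), ENNReal.ofReal_mul (by positivity),
            ENNReal.ofReal_natCast, ENNReal.ofReal_pow (by positivity)]
          exact mul_le_mul' (mul_le_mul' hm' le_rfl) le_rfl
      _ ≤ _ := ENNReal.ofReal_le_ofReal ?_
    have h2 : ((k : ℝ) + 1) * s ^ (d - 1) = s ^ (d + 1) := by
      rw [show d + 1 = 2 + (d - 1) by have := NeZero.pos d; omega, pow_add, hs,
        Real.sq_sqrt (by positivity)]
    have hsd : (0 : ℝ) < s ^ (d + 1) := pow_pos hs0 _
    rw [div_pow, one_pow, div_mul_eq_mul_div, mul_one_div, div_div, h2, div_le_iff₀ hsd, ← hpow]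
    nlinarith

end Vale.Agent.P147.Window
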