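import Vale.Agent.P147.Window.OneSide
import Vale.Agent.P147.Window.SlowWin
import Vale.Agent.P147.Window.SlowSide

/-!
P147: a side escaped to at the power `4 / (d + 1)` of time or faster is escaped to almost surely.
-/

open MeasureTheory Filter
open scoped ENNReal Topology

noncomputable section

namespace Vale.Agent.P147.Window

variable {d : ℕ} [NeZero d] {μ : Measure (Step d → ℝ)}

/-- Fast enough growth along an axis, with positive probability, makes that escape certain. -/
theorem slow_axis (hμ : Elliptic μ) (hd : 2 ≤ d) {β : ℝ} (hβ : 4 ≤ β * ((d : ℝ) + 1)) {δ : Step d}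
    (h : 0 < nu μ (Esc δ β)) :
    nu μ (Dir.Escape (Planar.ax δ)) = 1 := by
  have hβ0 : 0 < β := by
    have : (0 : ℝ) < (d : ℝ) + 1 := by positivity
    nlinarith
  have hE : 0 < nu μ (Dir.Escape (Planar.ax δ)) := h.trans_le <| measure_mono fun η hη => by
    obtain ⟨c, hc, hev⟩ := hη
    refine tendsto_atTop_mono' atTop ?_ (tendsto_mul_rpow hc hβ0)
    filter_upwards [hev] with n hn
    rwa [Planar.lh_ax]
  have hR : Dir.Regen μ (Planar.ax δ) :=
    Dir.regen μ (Planar.ax δ) δ hμ (Planar.norm_ax δ) hE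
  refine Flux.escape hμ δ ?_ hR.pos
  by_cases h0 : nu μ (NoBack (opp δ) ∩ Unbdd (opp δ)) = 0
  · exact strip hμ δ hR.pos h0
  exact (not_both hμ hd
    (mass_pos δ fun hz => hR.pos.ne' (measure_mono_null (fwd_subset δ) hz))
    (mass_pos (opp δ) h0)
    (switch hμ δ fun hz => h0 (measure_mono_null Set.inter_subset_left hz))
    (core hμ hR.pos (budget_slow (gap hμ hd hR) (slow hμ hβ h)))).elim

/-- The same along every direction. -/
theorem slow_one (hμ : Elliptic μ) (hd : 2 ≤ d) (hdir : ∀ l, Dir.DirectionStmt μ l) {β : ℝ}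
    (hβ : 4 ≤ β * ((d : ℝ) + 1)) {l : Fin d → ℝ}
    (h : 0 < annealed μ {q | ∃ c > (0 : ℝ), ∀ᶠ n : ℕ in atTop, c * (n : ℝ) ^ β ≤ Dir.proj l q n}) :
    annealed μ (Dir.AE l) = 1 :=
  slow_dir hμ hdir (by nlinarith [Nat.cast_nonneg (α := ℝ) d]) (fun _ => slow_axis hμ hd hβ) h

end Vale.Agent.P147.Window
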