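import Vale.Agent.P147.Flux.Moment
import Vale.Agent.P147.Flux.Quenched

/-!
P147: the flux through one window of prefix free paths, smoothed by a spread out weight, has
bounded second moment: disjoint pairs are independent and first contacts cost range times range.
-/

open MeasureTheory Filter
open scoped ENNReal Topology

noncomputable section

namespace Vale.Agent.P147.Flux

variable {d : ℕ} [NeZero d]

open Classical in
/-- The sites a prefix leaves. -/
def left (i : Pref d) : Finset (Pos d) := (Finset.range i.1).image (pos (path i))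

open Classical in
/-- The first visit of `T` is at time `t`, and at most `B` sites are seen up to then. -/
def HitSite (T : Finset (Pos d)) (B t : ℕ) : Set (ℕ → Step d) :=
  {η | pos η t ∈ T ∧ (∀ u < t, pos η u ∉ T) ∧ ((Finset.range (t + 1)).image (pos η)).card ≤ B}

omit [NeZero d] in
lemma detBy_hitSite (T : Finset (Pos d)) (B t : ℕ) : DetBy t (HitSite T B t) := by
  classical
  rintro η η' he ⟨h1, h2, h3⟩
  have hp : ∀ u ≤ t, pos η u = pos η' u := fun u hu => pos_congr fun s hs => he s (by omega)
  refine ⟨hp t le_rfl ▸ h1, fun u hu => hp u hu.le ▸ h2 u hu, ?_⟩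
  rwa [← Finset.image_congr fun u hu => hp u
    (Nat.lt_succ_iff.1 (Finset.mem_range.1 (Finset.mem_coe.1 hu)))]

/-- The window flux at the origin. -/
def wflux (P : Finset (Pref d)) (k : Pref d → Pos d → ℝ≥0∞) (ω : Env d) : ℝ≥0∞ :=
  ∑ i ∈ P, ∑' y, k i y * W i.1 (path i) (sh (-y) ω)

lemma measurable_wflux (P : Finset (Pref d)) (k : Pref d → Pos d → ℝ≥0∞) :
    Measurable (wflux P k) :=
  Finset.measurable_sum _ fun _ _ =>
    Measurable.tsum fun _ => ((measurable_W _ _).comp (measurable_sh _)).const_mul _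

variable {μ : Measure (Step d → ℝ)}

/-- A prefix and a translated one without a shared site are independent. -/
lemma W_indep (hμ : Elliptic μ) (i j : Pref d) (Δ : Pos d)
    (h : ∀ t < j.1, pos (path j) t + Δ ∉ left i) :
    ∫⁻ ω, W i.1 (path i) ω * W j.1 (path j) (sh Δ ω) ∂envLaw μ =
      w μ i.1 (path i) * w μ j.1 (path j) := by
  classical
  rw [envLaw, lintegral_mul_local hμ ↑(left i) (measurable_W _ _)
    (B := fun ω => W j.1 (path j) (sh Δ ω)) ((measurable_W _ _).comp (measurable_sh Δ))
    (fun ω ω' he => W_local fun s hs => he _ (Finset.mem_coe.2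
      (Finset.mem_image_of_mem _ (Finset.mem_range.2 hs))))
    fun ω ω' he => W_local fun t ht => he _ fun hm => h t ht (Finset.mem_coe.1 hm)]
  congr 1
  · exact (w_eq_lintegral hμ _ _).symm
  · exact ((mp_sh hμ Δ).lintegral_comp (measurable_W _ _)).trans (w_eq_lintegral hμ _ _).symm

/-- The first contact is free. -/
lemma share_le (hμ : Elliptic μ) (P : Finset (Pref d))
    (hdisj : (P : Set (Pref d)).PairwiseDisjoint fun i => cyl i.1 (path i))
    {B : ℕ} (hB : ∀ i ∈ P, (left i).card ≤ B) (i : Pref d) (Δ : Pos d) :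
    ∑ j ∈ P.filter (fun j => ∃ t < j.1, pos (path j) t + Δ ∈ left i),
      ∫⁻ ω, W i.1 (path i) ω * W j.1 (path j) (sh Δ ω) ∂envLaw μ ≤
      w μ i.1 (path i) * nu μ (⋃ t, HitSite ((left i).image fun x => x - Δ) B t) := by
  classical
  set T := (left i).image fun x => x - Δ
  set Q := P.filter (fun j => ∃ t < j.1, pos (path j) t + Δ ∈ left i)
  set L := P.sup (fun j => j.1) + 1
  set I : ℕ → Finset (Pref d) := fun t =>
    (Finset.univ.filter fun σ : Fin t → Step d => ext' σ ∈ HitSite T B t).map
      (Function.Embedding.sigmaMk t)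
  have hcov : ∀ j ∈ Q, cyl j.1 (path j) ⊆ ⋃ t ∈ Finset.range L, HitSite T B t := by
    intro j hj η hη
    obtain ⟨hjP, u, hu, hmem⟩ := Finset.mem_filter.1 hj
    have hp : ∀ s ≤ j.1, pos η s = pos (path j) s := fun s hs =>
      pos_congr fun r hr => hη r (by omega)
    have hex : ∃ t, pos η t ∈ T := ⟨u, Finset.mem_image.2 ⟨_, hmem, by rw [hp u hu.le]; abel⟩⟩
    have ht : Nat.find hex ≤ u := Nat.find_le (Finset.mem_image.2 ⟨_, hmem, by rw [hp u hu.le]; abel⟩)
    refine Set.mem_biUnion (x := Nat.find hex) (Finset.mem_coe.2 (Finset.mem_range.2 ?_))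
      ⟨Nat.find_spec hex, fun s hs => Nat.find_min hex hs, ?_⟩
    · have : j.1 ≤ P.sup fun j => j.1 := Finset.le_sup (f := fun j : Pref d => j.1) hjP
      omega
    · refine le_trans (Finset.card_le_card fun x hx => ?_) (hB j hjP)
      obtain ⟨s, hs, rfl⟩ := Finset.mem_image.1 hx
      have hs := Finset.mem_range.1 hs
      exact Finset.mem_image.2 ⟨s, Finset.mem_range.2 (by omega), (hp s (by omega)).symm⟩
  have hpt : ∀ᵐ ω ∂envLaw μ, ∑ j ∈ Q, W i.1 (path i) ω * W j.1 (path j) (sh Δ ω) ≤
      ∑ t ∈ Finset.range L, ∑ j ∈ I t, W i.1 (path i) ω * W j.1 (path j) (sh Δ ω) := by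
    filter_upwards [ae_good hμ] with ω hω
    simp only [← Finset.mul_sum]
    refine mul_le_mul' le_rfl ?_
    have hg := goodEnv_sh hω Δ
    calc ∑ j ∈ Q, W j.1 (path j) (sh Δ ω) = ∑ j ∈ Q, qlaw (sh Δ ω) (cyl j.1 (path j)) :=
          Finset.sum_congr rfl fun j _ => (qlaw_cyl hg _ _).symm
      _ = qlaw (sh Δ ω) (⋃ j ∈ Q, cyl j.1 (path j)) :=
          (measure_biUnion_finset (hdisj.subset (Finset.coe_subset.2 (Finset.filter_subset _ P)))
            fun j _ => measurableSet_cyl _ _).symm
      _ ≤ qlaw (sh Δ ω) (⋃ t ∈ Finset.range L, HitSite T B t) :=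
          measure_mono (Set.iUnion₂_subset hcov)
      _ ≤ ∑ t ∈ Finset.range L, qlaw (sh Δ ω) (HitSite T B t) := measure_biUnion_finset_le _ _
      _ ≤ _ := Finset.sum_le_sum fun t _ => by
          rw [Finset.sum_map]
          refine le_trans (measure_mono (t := ⋃ σ ∈ Finset.univ.filter
            (fun σ : Fin t → Step d => ext' σ ∈ HitSite T B t), cyl t (ext' σ)) fun η hη => ?_)
            ((measure_biUnion_finset_le _ _).trans (Finset.sum_le_sum fun σ _ =>
              (qlaw_cyl hg t (ext' σ)).le))
          exact Set.mem_biUnion (x := fun s : Fin t => η s) (Finset.mem_coe.2 (Finset.mem_filter.2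
            ⟨Finset.mem_univ _, detBy_hitSite T B t η _ (fun s hs => by rw [ext'_lt _ hs]) hη⟩))
            fun s hs => by rw [ext'_lt _ hs]
  have hm : ∀ j : Pref d, Measurable fun ω => W i.1 (path i) ω * W j.1 (path j) (sh Δ ω) :=
    fun j => (measurable_W _ _).mul ((measurable_W _ _).comp (measurable_sh Δ))
  calc ∑ j ∈ Q, ∫⁻ ω, W i.1 (path i) ω * W j.1 (path j) (sh Δ ω) ∂envLaw μ
      = ∫⁻ ω, ∑ j ∈ Q, W i.1 (path i) ω * W j.1 (path j) (sh Δ ω) ∂envLaw μ :=
        (lintegral_finsetSum _ fun j _ => hm j).symm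
    _ ≤ ∫⁻ ω, ∑ t ∈ Finset.range L, ∑ j ∈ I t,
          W i.1 (path i) ω * W j.1 (path j) (sh Δ ω) ∂envLaw μ := lintegral_mono_ae hpt
    _ = ∑ t ∈ Finset.range L, ∑ j ∈ I t, w μ i.1 (path i) * w μ j.1 (path j) := by
        rw [lintegral_finsetSum _ fun t _ => Finset.measurable_sum _ fun j _ => hm j]
        refine Finset.sum_congr rfl fun t _ => ?_
        rw [lintegral_finsetSum _ fun j _ => hm j]
        refine Finset.sum_congr rfl fun j hj => W_indep hμ i j Δ fun u hu hmem => ?_
        obtain ⟨σ, hσ, rfl⟩ := Finset.mem_map.1 hj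
        refine (Finset.mem_filter.1 hσ).2.2.1 u hu ?_
        exact Finset.mem_image.2 ⟨_, hmem, by rw [add_sub_cancel_right]; rfl⟩
    _ ≤ _ := by
        simp only [← Finset.mul_sum]
        refine mul_le_mul' le_rfl ?_
        have hdj : Pairwise (Function.onFun Disjoint fun t => HitSite T B t) := fun a b hab =>
          Set.disjoint_left.mpr fun η ha hb => by
            rcases lt_or_gt_of_ne hab with h | h
            · exact hb.2.1 a h ha.1
            · exact ha.2.1 b h hb.1
        rw [measure_iUnion hdj fun t => (detBy_hitSite T B t).measurableSet]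
        refine le_trans (le_of_eq (Finset.sum_congr rfl fun t _ => ?_)) (ENNReal.sum_le_tsum _)
        rw [Finset.sum_map]
        refine (le_antisymm ?_ ?_).symm
        · refine le_trans (measure_mono (t := ⋃ σ ∈ Finset.univ.filter
            (fun σ : Fin t → Step d => ext' σ ∈ HitSite T B t), cyl t (ext' σ)) fun η hη => ?_)
            (measure_biUnion_finset_le _ _)
          exact Set.mem_biUnion (x := fun s : Fin t => η s) (Finset.mem_coe.2 (Finset.mem_filter.2
            ⟨Finset.mem_univ _, detBy_hitSite T B t η _ (fun s hs => by rw [ext'_lt _ hs]) hη⟩))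
            fun s hs => by rw [ext'_lt _ hs]
        · simp only [Function.Embedding.sigmaMk_apply, path, w]
          rw [← measure_biUnion_finset ?_ fun σ _ => measurableSet_cyl _ _]
          · exact measure_mono (Set.iUnion₂_subset fun σ hσ η hη =>
              detBy_hitSite T B t _ η (fun s hs => (hη s hs).symm) (Finset.mem_filter.1 hσ).2)
          · intro a _ b _ hne
            refine Set.disjoint_left.mpr fun η ha hb => hne (funext fun s => ?_)
            have h1 := ha s s.isLt
            have h2 := hb s s.isLt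
            change η s = ext' a s at h1
            change η s = ext' b s at h2
            rw [ext'_lt _ s.isLt] at h1 h2
            exact h1.symm.trans h2

/-- Few level translations let a short path meet paths with few sites in each level. -/
lemma tsum_hitSite_le (hμ : Elliptic μ) (δ : Step d) (P : Finset (Pref d)) (B : ℕ) {A : ℝ≥0∞}
    (hA : ∀ j : ℤ,
      ∑ i ∈ P, w μ i.1 (path i) * ((left i).filter fun z => ht δ z = j).card ≤ A) :
    ∑ i ∈ P, w μ i.1 (path i) * ∑' Δ : Pos d, (if ht δ Δ = 0 then
      nu μ (⋃ t, HitSite ((left i).image fun x => x - Δ) B t) else 0) ≤ A * B := by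
  classical
  have := isProbabilityMeasure_nu hμ
  set S : Pref d → Pos d → Set (ℕ → Step d) := fun i Δ =>
    {η | ht δ Δ = 0 ∧ η ∈ ⋃ t, HitSite ((left i).image fun x => x - Δ) B t}
  have hm : ∀ i Δ, MeasurableSet (S i Δ) := fun i Δ =>
    (MeasurableSet.const _).inter (MeasurableSet.iUnion fun t => (detBy_hitSite _ B t).measurableSet)
  have hmf : ∀ i Δ, Measurable ((S i Δ).indicator fun _ : ℕ → Step d => (1 : ℝ≥0∞)) :=
    fun i Δ => measurable_const.indicator (hm i Δ)
  calc ∑ i ∈ P, w μ i.1 (path i) * ∑' Δ : Pos d, (if ht δ Δ = 0 then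
        nu μ (⋃ t, HitSite ((left i).image fun x => x - Δ) B t) else 0)
      = ∫⁻ η, ∑ i ∈ P, w μ i.1 (path i) * ∑' Δ, (S i Δ).indicator (fun _ => 1) η ∂nu μ := by
        rw [lintegral_finsetSum _ fun i _ => (Measurable.tsum fun Δ => hmf i Δ).const_mul _]
        refine Finset.sum_congr rfl fun i _ => ?_
        rw [lintegral_const_mul _ (Measurable.tsum fun Δ => hmf i Δ),
          lintegral_tsum fun Δ => (hmf i Δ).aemeasurable]
        simp only [lintegral_indicator_const (hm i _), one_mul]
        refine congrArg _ (tsum_congr fun Δ => ?_)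
        by_cases h : ht δ Δ = 0 <;> simp [S, h, Set.mem_iUnion]
        exact congrArg _ (Set.ext fun η => by simp)
    _ ≤ ∫⁻ _η, A * B ∂nu μ := lintegral_mono fun η => by
        simp only [← ENNReal.tsum_mul_left]
        rw [← Summable.tsum_finsetSum fun i _ => ENNReal.summable, ENNReal.tsum_eq_iSup_sum]
        refine iSup_le fun D => ?_
        simp only [Set.indicator_apply, mul_ite, mul_one, mul_zero]
        rw [Finset.sum_comm, ← Finset.sum_product', ← Finset.sum_filter]
        set Q := (P ×ˢ D).filter fun q => η ∈ S q.1 q.2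
        have hex : ∀ q ∈ Q, ∃ t, η ∈ HitSite ((left q.1).image fun x => x - q.2) B t :=
          fun q hq => Set.mem_iUnion.1 (Finset.mem_filter.1 hq).2.2
        choose! τ hτ using hex
        rcases Q.eq_empty_or_nonempty with hQ | hQ
        · simp [hQ]
        obtain ⟨q₀, h0, hmax⟩ := Finset.exists_max_image Q τ hQ
        set X := (Finset.range (τ q₀ + 1)).image (pos η)
        calc ∑ q ∈ Q, w μ q.1.1 (path q.1)
            = ∑ i ∈ P, ∑ Δ ∈ D.filter (fun Δ => η ∈ S i Δ), w μ i.1 (path i) := by
              rw [Finset.sum_filter, Finset.sum_product]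
              simp only [Finset.sum_filter]
          _ ≤ ∑ i ∈ P, w μ i.1 (path i) *
                ∑ u ∈ X, (((left i).filter fun z => ht δ z = ht δ u).card : ℝ≥0∞) := by
              refine Finset.sum_le_sum fun i hi => ?_
              rw [Finset.sum_const, nsmul_eq_mul, mul_comm]
              refine mul_le_mul' le_rfl ?_
              rw [← Nat.cast_sum]
              refine Nat.cast_le.2 ((Finset.card_le_card (t := X.biUnion fun u =>
                ((left i).filter fun z => ht δ z = ht δ u).image fun z => z - u) fun Δ hΔ => ?_).trans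
                (Finset.card_biUnion_le.trans (Finset.sum_le_sum fun u _ => Finset.card_image_le)))
              obtain ⟨hD, hS⟩ := Finset.mem_filter.1 hΔ
              have hq : (i, Δ) ∈ Q := Finset.mem_filter.2 ⟨Finset.mem_product.2 ⟨hi, hD⟩, hS⟩
              obtain ⟨x, hx, he⟩ := Finset.mem_image.1 (hτ _ hq).1
              refine Finset.mem_biUnion.2 ⟨pos η (τ (i, Δ)), Finset.mem_image_of_mem _
                (Finset.mem_range.2 (by have := hmax _ hq; omega)),
                Finset.mem_image.2 ⟨x, Finset.mem_filter.2 ⟨hx, ?_⟩, ?_⟩⟩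
              · simp only [← he, ht_sub, hS.1, sub_zero]
              · simp only [← he]; abel
          _ = ∑ u ∈ X, ∑ i ∈ P, w μ i.1 (path i) *
                (((left i).filter fun z => ht δ z = ht δ u).card : ℝ≥0∞) := by
              simp only [Finset.mul_sum]
              exact Finset.sum_comm
          _ ≤ A * B := by
              refine (Finset.sum_le_sum fun u _ => hA (ht δ u)).trans ?_
              rw [Finset.sum_const, nsmul_eq_mul, mul_comm]
              exact mul_le_mul' le_rfl (Nat.cast_le.2 (hτ q₀ h0).2.2)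
    _ = _ := by rw [lintegral_const, measure_univ, mul_one]

/-- The smoothed flux through one window has bounded second moment. -/
theorem wflux_sq_le (hμ : Elliptic μ) (δ : Step d) (P : Finset (Pref d))
    (hdisj : (P : Set (Pref d)).PairwiseDisjoint fun i => cyl i.1 (path i))
    {B : ℕ} (hB : ∀ i ∈ P, (left i).card ≤ B) {A : ℝ≥0∞}
    (hA : ∀ j : ℤ, ∑ i ∈ P, w μ i.1 (path i) * ((left i).filter fun z => ht δ z = j).card ≤ A)
    (k : Pref d → Pos d → ℝ≥0∞) {ε : ℝ≥0∞} (hk : ∀ i ∈ P, ∀ y, k i y ≤ ε)
    (hk1 : ∀ i ∈ P, ∑' y, k i y ≤ 1) {H : ℤ} (hH : ∀ i ∈ P, ∀ y, k i y ≠ 0 → ht δ y = H) :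
    ∫⁻ ω, wflux P k ω ^ 2 ∂envLaw μ ≤ 1 + ε * (A * B) := by
  classical
  have := isProbabilityMeasure_nu hμ
  set J : Pref d → Pref d → Pos d → ℝ≥0∞ := fun i j Δ =>
    ∫⁻ ω, W i.1 (path i) ω * W j.1 (path j) (sh Δ ω) ∂envLaw μ with hJ
  set Sh : Pref d → Pref d → Pos d → Prop := fun i j Δ =>
    ht δ Δ = 0 ∧ ∃ t < j.1, pos (path j) t + Δ ∈ left i with hSh
  set ws : Pref d → ℝ≥0∞ := fun i => w μ i.1 (path i) with hws
  have hw1 : ∑ i ∈ P, ws i ≤ 1 := by
    simp only [hws, w, ← measure_biUnion_finset hdisj fun i _ => measurableSet_cyl _ _]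
    exact prob_le_one
  have hterm : ∀ i j y y', ∫⁻ ω, k i y * W i.1 (path i) (sh (-y) ω) *
      (k j y' * W j.1 (path j) (sh (-y') ω)) ∂envLaw μ = k i y * (k j y' * J i j (y - y')) := by
    intro i j y y'
    have hm : Measurable fun ω => W i.1 (path i) (sh (-y) ω) * W j.1 (path j) (sh (-y') ω) :=
      ((measurable_W _ _).comp (measurable_sh _)).mul ((measurable_W _ _).comp (measurable_sh _))
    simp only [mul_mul_mul_comm (k i y) (W i.1 (path i) _) (k j y')]
    rw [lintegral_const_mul _ hm, ← (mp_sh hμ y).lintegral_comp hm, mul_assoc]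
    simp only [sh_sh, neg_add_cancel, sh_zero, hJ, neg_add_eq_sub]
  have hsplit : ∀ i ∈ P, ∀ j ∈ P, ∀ y y', k i y * (k j y' * J i j (y - y')) ≤
      k i y * ws i * (k j y' * ws j) + k i y * (ε * if Sh i j (y - y') then J i j (y - y') else 0) := by
    intro i hi j hj y y'
    rcases eq_or_ne (k i y) 0 with h0 | h0
    · simp [h0]
    rcases eq_or_ne (k j y') 0 with h0' | h0'
    · simp [h0']
    by_cases hs : Sh i j (y - y')
    · rw [if_pos hs]
      exact le_add_left (mul_le_mul' le_rfl (mul_le_mul' (hk j hj y') le_rfl))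
    · rw [if_neg hs, show J i j (y - y') = ws i * ws j from W_indep hμ i j _ fun t ht' hm => hs
        ⟨by rw [ht_sub, hH i hi y h0, hH j hj y' h0', sub_self], t, ht', hm⟩]
      refine le_add_right (le_of_eq ?_)
      ring
  have hm1 : ∀ i y, Measurable fun ω : Env d => k i y * W i.1 (path i) (sh (-y) ω) :=
    fun i y => ((measurable_W _ _).comp (measurable_sh _)).const_mul _
  have hmm : ∀ i j y y', Measurable fun ω : Env d => k i y * W i.1 (path i) (sh (-y) ω) *
      (k j y' * W j.1 (path j) (sh (-y') ω)) := fun i j y y' => (hm1 i y).mul (hm1 j y')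
  calc ∫⁻ ω, wflux P k ω ^ 2 ∂envLaw μ
      = ∑ i ∈ P, ∑ j ∈ P, ∑' y, ∑' y', k i y * (k j y' * J i j (y - y')) := by
        simp only [wflux, sq, Finset.sum_mul_sum, ← ENNReal.tsum_mul_right]
        simp only [← ENNReal.tsum_mul_left]
        rw [lintegral_finsetSum _ fun i _ => Finset.measurable_sum _ fun j _ =>
          Measurable.tsum fun y => Measurable.tsum fun y' => hmm i j y y']
        refine Finset.sum_congr rfl fun i _ => ?_
        rw [lintegral_finsetSum _ fun j _ =>
          Measurable.tsum fun y => Measurable.tsum fun y' => hmm i j y y']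
        refine Finset.sum_congr rfl fun j _ => ?_
        rw [lintegral_tsum fun y =>
          (Measurable.tsum fun y' => hmm i j y y').aemeasurable]
        refine tsum_congr fun y => ?_
        rw [lintegral_tsum fun y' => (hmm i j y y').aemeasurable]
        exact tsum_congr fun y' => hterm i j y y'
    _ ≤ ∑ i ∈ P, ∑ j ∈ P, ∑' y, ∑' y', (k i y * ws i * (k j y' * ws j) +
          k i y * (ε * if Sh i j (y - y') then J i j (y - y') else 0)) :=
        Finset.sum_le_sum fun i hi => Finset.sum_le_sum fun j hj =>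
          ENNReal.tsum_le_tsum fun y => ENNReal.tsum_le_tsum fun y' => hsplit i hi j hj y y'
    _ = (∑ i ∈ P, (∑' y, k i y) * ws i) * (∑ j ∈ P, (∑' y, k j y) * ws j) +
          ∑ i ∈ P, ∑ j ∈ P, (∑' y, k i y) * (ε * ∑' Δ, if Sh i j Δ then J i j Δ else 0) := by
        rw [Finset.sum_mul_sum, ← Finset.sum_add_distrib]
        refine Finset.sum_congr rfl fun i _ => ?_
        rw [← Finset.sum_add_distrib]
        refine Finset.sum_congr rfl fun j _ => ?_
        simp only [ENNReal.tsum_add, ENNReal.tsum_mul_left, ← ENNReal.tsum_mul_right]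
        congr 1
        refine tsum_congr fun y => ?_
        congr 2
        exact (Equiv.subLeft y).tsum_eq fun Δ => if Sh i j Δ then J i j Δ else 0
    _ ≤ 1 + ε * (A * B) := by
        have hs : ∀ i ∈ P, (∑' y, k i y) * ws i ≤ ws i := fun i hi =>
          mul_le_of_le_one_left bot_le (hk1 i hi)
        refine add_le_add (le_trans (mul_le_mul' ((Finset.sum_le_sum hs).trans hw1)
          ((Finset.sum_le_sum hs).trans hw1)) (one_mul _).le) ?_
        calc ∑ i ∈ P, ∑ j ∈ P, (∑' y, k i y) * (ε * ∑' Δ, if Sh i j Δ then J i j Δ else 0)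
            ≤ ∑ i ∈ P, ε * ∑' Δ, ∑ j ∈ P.filter (fun j => Sh i j Δ), J i j Δ := by
              refine Finset.sum_le_sum fun i hi => ?_
              simp only [Finset.sum_filter]
              rw [Summable.tsum_finsetSum fun j _ => ENNReal.summable, Finset.mul_sum]
              exact Finset.sum_le_sum fun j _ => mul_le_of_le_one_left bot_le (hk1 i hi)
          _ ≤ ∑ i ∈ P, ε * (w μ i.1 (path i) * ∑' Δ : Pos d, (if ht δ Δ = 0 then
                nu μ (⋃ t, HitSite ((left i).image fun x => x - Δ) B t) else 0)) := by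
              refine Finset.sum_le_sum fun i _ => mul_le_mul' le_rfl ?_
              rw [← ENNReal.tsum_mul_left]
              refine ENNReal.tsum_le_tsum fun Δ => ?_
              by_cases hΔ : ht δ Δ = 0
              · simp only [hSh, hΔ, true_and, if_true]
                exact share_le hμ P hdisj hB i Δ
              · simp [hSh, hΔ]
          _ ≤ _ := by
              rw [← Finset.mul_sum]
              exact mul_le_mul' le_rfl (tsum_hitSite_le hμ δ P B hA)

end Vale.Agent.P147.Flux
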